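import Mathlib

/-!
Common definitions for P322 (Boolean functions on the discrete cube, in nats).
`phi t = log 2 - binEntropy ((1 + t) / 2)` is the relative entropy of a mean-`t` sign to a uniform sign.
-/

namespace Vale.Agent.P322

open Real

/-- The discrete cube. -/
abbrev Cube (n : ℕ) := Fin n → Bool

/-- The sign of a bit: `true ↦ 1`, `false ↦ -1`. -/
def sgn (b : Bool) : ℝ := if b then 1 else -1

/-- Uniform average over the cube. -/
noncomputable def avg {n : ℕ} (g : Cube n → ℝ) : ℝ := (∑ x, g x) / 2 ^ n

/-- Transition kernel of `n` independent binary symmetric channels with correlation `ρ`. -/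
noncomputable def kern {n : ℕ} (ρ : ℝ) (x y : Cube n) : ℝ :=
  ∏ i, (1 + ρ * sgn (x i) * sgn (y i)) / 2

/-- The noise operator. -/
noncomputable def T {n : ℕ} (ρ : ℝ) (f : Cube n → ℝ) (y : Cube n) : ℝ :=
  ∑ x, kern ρ x y * f x

/-- `((1+t) log (1+t) + (1-t) log (1-t)) / 2`. -/
noncomputable def phi (t : ℝ) : ℝ := ((1 + t) * log (1 + t) + (1 - t) * log (1 - t)) / 2

/-- Binary entropy (nats) of a sign with mean `t`. -/
noncomputable def ent (t : ℝ) : ℝ := log 2 - phi t

/-- Inverse hyperbolic tangent, the derivative of `phi`. -/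
noncomputable def atanhR (t : ℝ) : ℝ := (log (1 + t) - log (1 - t)) / 2

/-- The information functional `E phi(T_ρ f) - phi(E f)` (nats). -/
noncomputable def info {n : ℕ} (ρ : ℝ) (f : Cube n → ℝ) : ℝ :=
  avg (fun y => phi (T ρ f y)) - phi (avg f)

/-- Flip the `i`-th bit. -/
def flipBit {n : ℕ} (i : Fin n) (x : Cube n) : Cube n := Function.update x i (!x i)

/-- The Dirichlet form `E(u, artanh u)`, the rate of decrease of `info` along the noise semigroup. -/
noncomputable def form {n : ℕ} (u : Cube n → ℝ) : ℝ :=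
  avg (fun x => ∑ i, (u x - u (flipBit i x)) * (atanhR (u x) - atanhR (u (flipBit i x)))) / 4

/-- The midpoint gap of `phi` for a pair of means. -/
noncomputable def gapJ (a b : ℝ) : ℝ := (phi a + phi b) / 2 - phi ((a + b) / 2)

end Vale.Agent.P322
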