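import Mathlib
import Vale.Agent.P322.Defs

/-!
Analytic facts about `phi`: derivatives, series, global quadratic bounds in `x` and in `x ^ 2`,
and the chain rule for a pair of means.
-/

namespace Vale.Agent.P322

open Real Set Filter Topology

lemma continuous_phi : Continuous phi := by
  unfold phi
  have h := Real.continuous_mul_log
  exact ((h.comp (continuous_const.add continuous_id)).add
    (h.comp (continuous_const.sub continuous_id))).div_const 2

lemma phi_zero : phi 0 = 0 := by simp [phi]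

lemma phi_one : phi 1 = log 2 := by
  norm_num [phi]

lemma phi_neg (x : ℝ) : phi (-x) = phi x := by
  unfold phi
  ring_nf

lemma atanhR_neg (x : ℝ) : atanhR (-x) = -atanhR x := by
  unfold atanhR
  ring_nf

lemma hasDerivAt_phi {x : ℝ} (h1 : -1 < x) (h2 : x < 1) : HasDerivAt phi (atanhR x) x := by
  have ha : HasDerivAt (fun t : ℝ => 1 + t) 1 x := (hasDerivAt_id x).const_add 1
  have hb : HasDerivAt (fun t : ℝ => 1 - t) (-1) x := (hasDerivAt_id x).const_sub 1
  have h := ((ha.mul (ha.log (by linarith))).add (hb.mul (hb.log (by linarith)))).div_const 2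
  refine h.congr_deriv ?_
  have e1 : (1 + x) ≠ 0 := by linarith
  have e2 : (1 - x) ≠ 0 := by linarith
  unfold atanhR
  field_simp
  ring

lemma hasDerivAt_atanhR {x : ℝ} (h1 : -1 < x) (h2 : x < 1) :
    HasDerivAt atanhR (1 / (1 - x ^ 2)) x := by
  have ha : HasDerivAt (fun t : ℝ => 1 + t) 1 x := (hasDerivAt_id x).const_add 1
  have hb : HasDerivAt (fun t : ℝ => 1 - t) (-1) x := (hasDerivAt_id x).const_sub 1
  have h := ((ha.log (by linarith)).sub (hb.log (by linarith))).div_const 2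
  refine h.congr_deriv ?_
  have e1 : (1 + x) ≠ 0 := by linarith
  have e2 : (1 - x) ≠ 0 := by linarith
  have e3 : (1 - x ^ 2) ≠ 0 := by
    have : (1 - x ^ 2) = (1 + x) * (1 - x) := by ring
    rw [this]; exact mul_ne_zero e1 e2
  field_simp
  ring

/-- Coefficients of the power series of `phi`. -/
noncomputable def phiC (k : ℕ) : ℝ := 1 / ((2 * k + 1) * (2 * k + 2))

lemma phiC_pos (k : ℕ) : 0 < phiC k := by unfold phiC; positivity

lemma hasSum_atanhR {x : ℝ} (h : |x| < 1) :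
    HasSum (fun k : ℕ => x ^ (2 * k + 1) / (2 * k + 1)) (atanhR x) := by
  have := (hasSum_log_sub_log_of_abs_lt_one h).mul_left (1 / 2 : ℝ)
  have e : 1 / 2 * (log (1 + x) - log (1 - x)) = atanhR x := by unfold atanhR; ring
  rw [e] at this
  exact this.congr_fun fun k => by ring

lemma hasSum_phi {x : ℝ} (h : |x| < 1) :
    HasSum (fun k : ℕ => phiC k * x ^ (2 * k + 2)) (phi x) := by
  obtain ⟨h1, h2⟩ := abs_lt.1 h
  have hx2 : |x ^ 2| < 1 := by
    rw [abs_pow, pow_lt_one_iff_of_nonneg (abs_nonneg x) (by norm_num)]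
    exact h
  have hA := (hasSum_atanhR h).mul_left x
  have hB := (hasSum_pow_div_log_of_abs_lt_one hx2).mul_left (-(1 / 2) : ℝ)
  have e : x * atanhR x + -(1 / 2) * -log (1 - x ^ 2) = phi x := by
    rw [show (1 - x ^ 2) = (1 + x) * (1 - x) by ring,
      log_mul (by linarith) (by linarith)]
    unfold phi atanhR
    ring
  rw [← e]
  refine (hA.add hB).congr_fun fun k => ?_
  unfold phiC
  have : (2 * (k:ℝ) + 1) ≠ 0 := by positivity
  have : (2 * (k:ℝ) + 2) ≠ 0 := by positivity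
  have : ((k:ℝ) + 1) ≠ 0 := by positivity
  rw [← pow_mul, show 2 * (k + 1) = 2 * k + 2 by ring, pow_succ x (2 * k + 1)]
  field_simp
  ring

lemma mem_closure_Ioo {x : ℝ} (h : |x| ≤ 1) : x ∈ closure (Ioo (-1 : ℝ) 1) := by
  rw [closure_Ioo (by norm_num)]
  exact abs_le.1 h

lemma sum_phiC_le (n : ℕ) : ∑ k ∈ Finset.range n, phiC k ≤ log 2 := by
  have h : ∀ x ∈ Ioo (-1 : ℝ) 1,
      ∑ k ∈ Finset.range n, phiC k * x ^ (2 * k + 2) ≤ phi x := fun x hx =>
    sum_le_hasSum _ (fun k _ => mul_nonneg (phiC_pos k).le (by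
      rw [show 2 * k + 2 = 2 * (k + 1) by ring, pow_mul]; positivity)) (hasSum_phi (abs_lt.2 hx))
  have := le_on_closure h (by fun_prop) continuous_phi.continuousOn
    (mem_closure_Ioo (x := 1) (by norm_num))
  simpa [phi_one] using this

lemma summable_phiC : Summable phiC :=
  summable_of_sum_range_le (fun k => (phiC_pos k).le) sum_phiC_le

/-- The tail of the coefficients after the first one. -/
lemma tsum_phiC_succ_le : ∑' k, phiC (k + 1) ≤ log 2 - 1 / 2 := by
  refine Real.tsum_le_of_sum_range_le (fun k => (phiC_pos _).le) fun n => ?_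
  have h := sum_phiC_le (n + 1)
  rw [Finset.sum_range_succ'] at h
  have h0 : phiC 0 = 1 / 2 := by norm_num [phiC]
  linarith

lemma tsum_phiC_succ_succ_le : ∑' k, phiC (k + 2) ≤ log 2 - 7 / 12 := by
  refine Real.tsum_le_of_sum_range_le (fun k => (phiC_pos _).le) fun n => ?_
  have h := sum_phiC_le (n + 2)
  rw [Finset.sum_range_succ', Finset.sum_range_succ'] at h
  have h0 : phiC 0 = 1 / 2 := by norm_num [phiC]
  have h1 : phiC (0 + 1) = 1 / 12 := by norm_num [phiC]
  linarith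

/-- Second order Taylor bound for a power, uniformly in the exponent. -/
lemma pow_taylor {v r : ℝ} (hv : |v| ≤ 1) (hr : |r| < 1) (k : ℕ) :
    v ^ (k + 1) - r ^ (k + 1) - (k + 1) * r ^ k * (v - r) ≤ (v - r) ^ 2 / (1 - |r|) ^ 2 := by
  have key : ∀ k : ℕ, ∃ B, 0 ≤ B ∧
      B * (1 - |r|) ^ 2 ≤ 1 - (k + 1) * |r| ^ k + k * |r| ^ (k + 1) ∧
      |v ^ (k + 1) - r ^ (k + 1) - (k + 1) * r ^ k * (v - r)| ≤ (v - r) ^ 2 * B := by
    intro k
    induction k with
    | zero => exact ⟨0, le_rfl, by simp, by simp⟩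
    | succ k ih =>
      obtain ⟨B, hB0, hB1, hB2⟩ := ih
      refine ⟨B + (k + 1) * |r| ^ k, by positivity, ?_, ?_⟩
      · push_cast
        have : ((k:ℝ) + 1) * |r| ^ k * (1 - |r|) ^ 2
            = (k+1) * |r| ^ k - 2 * (k+1) * |r| ^ (k+1) + (k+1) * |r| ^ (k+1+1) := by ring
        linear_combination hB1 + this
      · have e : v ^ (k + 1 + 1) - r ^ (k + 1 + 1) - ((k + 1 : ℕ) + 1) * r ^ (k + 1) * (v - r)
            = v * (v ^ (k + 1) - r ^ (k + 1) - (k + 1) * r ^ k * (v - r))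
              + (k + 1) * r ^ k * (v - r) ^ 2 := by
          push_cast; ring
        rw [e]
        refine (abs_add_le _ _).trans ?_
        rw [abs_mul, abs_mul, abs_mul, abs_pow, abs_of_nonneg (sq_nonneg (v - r)),
          abs_of_nonneg (by positivity : (0:ℝ) ≤ (k:ℝ) + 1), mul_add]
        refine add_le_add ?_ (le_of_eq (by ring))
        calc |v| * |v ^ (k + 1) - r ^ (k + 1) - (k + 1) * r ^ k * (v - r)|
            ≤ 1 * ((v - r) ^ 2 * B) := mul_le_mul hv hB2 (abs_nonneg _) zero_le_one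
          _ = _ := one_mul _
  obtain ⟨B, hB0, hB1, hB2⟩ := key k
  refine (le_abs_self _).trans (hB2.trans ?_)
  have hp : (0:ℝ) < (1 - |r|) ^ 2 := pow_pos (by linarith) 2
  rw [le_div_iff₀ hp]
  calc (v - r) ^ 2 * B * (1 - |r|) ^ 2 = (v - r) ^ 2 * (B * (1 - |r|) ^ 2) := by ring
    _ ≤ (v - r) ^ 2 * 1 := mul_le_mul_of_nonneg_left (hB1.trans (by
        have h1 : (k:ℝ) * |r| ^ (k + 1) ≤ k * |r| ^ k :=
          mul_le_mul_of_nonneg_left
            (pow_le_pow_of_le_one (abs_nonneg r) hr.le (Nat.le_succ k)) (Nat.cast_nonneg k)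
        have := pow_nonneg (abs_nonneg r) k
        linarith)) (sq_nonneg _)
    _ = _ := mul_one _

lemma phi_nonneg {x : ℝ} (hx : |x| ≤ 1) : 0 ≤ phi x :=
  le_on_closure (f := fun _ => (0:ℝ)) (s := Ioo (-1 : ℝ) 1)
    (fun y hy => (hasSum_phi (abs_lt.2 hy)).nonneg fun k => mul_nonneg (phiC_pos k).le (by
      rw [show 2 * k + 2 = 2 * (k + 1) by ring, pow_mul]; positivity))
    continuousOn_const continuous_phi.continuousOn (mem_closure_Ioo hx)

lemma sq_div_two_le_phi {x : ℝ} (hx : |x| ≤ 1) : x ^ 2 / 2 ≤ phi x := by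
  refine le_on_closure (f := fun y => y ^ 2 / 2) (g := phi) (s := Ioo (-1 : ℝ) 1) (fun y hy => ?_)
    (by fun_prop) continuous_phi.continuousOn (mem_closure_Ioo hx)
  have := sum_le_hasSum {0} (fun k _ => mul_nonneg (phiC_pos k).le (by
      rw [show 2 * k + 2 = 2 * (k + 1) by ring, pow_mul]; positivity)) (hasSum_phi (abs_lt.2 hy))
  simp [phiC] at this
  linarith

lemma phi_le_sextic {x : ℝ} (hx : |x| ≤ 1) :
    phi x ≤ x ^ 2 / 2 + x ^ 4 / 12 + (log 2 - 7 / 12) * x ^ 6 := by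
  refine le_on_closure (f := phi) (g := fun y => y ^ 2 / 2 + y ^ 4 / 12 + (log 2 - 7 / 12) * y ^ 6)
    (s := Ioo (-1 : ℝ) 1) (fun y hy => ?_) continuous_phi.continuousOn (by fun_prop)
    (mem_closure_Ioo hx)
  have h := hasSum_phi (abs_lt.2 hy)
  have ht := (hasSum_nat_add_iff' 2).2 h
  have hs : Summable fun k => phiC (k + 2) := (summable_nat_add_iff 2).2 summable_phiC
  have hle := hasSum_le (fun k => ?_) ht (hs.hasSum.mul_right (y ^ 6))
  · have h6 : (0:ℝ) ≤ y ^ 6 := Even.pow_nonneg ⟨3, rfl⟩ y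
    have := mul_le_mul_of_nonneg_right tsum_phiC_succ_succ_le h6
    have e0 : phiC 0 = 1 / 2 := by norm_num [phiC]
    have e1 : phiC 1 = 1 / 12 := by norm_num [phiC]
    simp only [Finset.sum_range_succ, Finset.sum_range_zero, e0, e1] at hle
    norm_num at hle
    linarith
  · refine mul_le_mul_of_nonneg_left ?_ (phiC_pos _).le
    have e1 : y ^ (2 * (k + 2) + 2) = (y ^ 2) ^ (k + 3) := by rw [← pow_mul]; congr 1
    have e2 : y ^ 6 = (y ^ 2) ^ 3 := by rw [← pow_mul]
    rw [e1, e2]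
    exact pow_le_pow_of_le_one (sq_nonneg y) ((sq_le_one_iff_abs_le_one y).2 (abs_lt.2 hy).le)
      (by omega)

lemma atanhR_ge_cubic {x : ℝ} (h0 : 0 ≤ x) (h1 : x < 1) : x + x ^ 3 / 3 ≤ atanhR x := by
  have := sum_le_hasSum (Finset.range 2) (fun k _ => by positivity)
    (hasSum_atanhR (abs_lt.2 ⟨by linarith, h1⟩))
  norm_num [Finset.sum_range_succ] at this
  linarith

lemma atanhR_nonneg {x : ℝ} (h0 : 0 ≤ x) (h1 : x < 1) : 0 ≤ atanhR x :=
  le_trans (by positivity) (atanhR_ge_cubic h0 h1)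

/-- Anchored quadratic upper bound for `phi` as a function of the square. -/
lemma phi_anchored {ρ : ℝ} (hρ0 : 0 ≤ ρ) (hρ : ρ ≤ 1 / 8) :
    ∃ a : ℝ, 1 / 2 ≤ a ∧ a ≤ 507 / 1000 ∧ ∀ x : ℝ, |x| ≤ 1 →
      phi x ≤ phi ρ + a * (x ^ 2 - ρ ^ 2) + (1 / 5) * (x ^ 2 - ρ ^ 2) ^ 2 := by
  set r := ρ ^ 2 with hr
  have hr0 : 0 ≤ r := sq_nonneg ρ
  have hr1 : r ≤ 1 / 64 := by nlinarith
  have hb : ∀ k : ℕ, ((k:ℝ) + 2) * r ^ (k + 1) ≤ 2 * r := by
    intro k
    induction k with
    | zero => simp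
    | succ k ih =>
      have : (0:ℝ) ≤ r ^ (k + 1) := by positivity
      push_cast
      calc ((k:ℝ) + 1 + 2) * r ^ (k + 1 + 1) = ((k:ℝ) + 3) * r * r ^ (k + 1) := by ring
        _ ≤ ((k:ℝ) + 2) * 1 * r ^ (k + 1) := by
            refine mul_le_mul_of_nonneg_right ?_ this
            nlinarith [(k.cast_nonneg : (0:ℝ) ≤ k)]
        _ ≤ _ := by simpa using ih
  set d : ℕ → ℝ := fun k => phiC k * ((k + 1) * r ^ k) with hd
  have hdle : ∀ k, d k ≤ phiC k * 2 := by
    intro k
    refine mul_le_mul_of_nonneg_left ?_ (phiC_pos k).le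
    rcases k with _ | k
    · norm_num
    · have := hb k; push_cast; linarith
  have hd0 : ∀ k, 0 ≤ d k := fun k => mul_nonneg (phiC_pos k).le (by positivity)
  have hds : Summable d := Summable.of_nonneg_of_le hd0 hdle (summable_phiC.mul_right 2)
  have hs1 : Summable fun k => phiC (k + 1) := (summable_nat_add_iff 1).2 summable_phiC
  have ha : ∑' k, d k = 1 / 2 + ∑' k, d (k + 1) := by
    rw [hds.tsum_eq_zero_add]; norm_num [hd, phiC]
  have hl := log_two_lt_d9
  refine ⟨∑' k, d k, ?_, ?_, ?_⟩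
  · rw [ha]; linarith [(tsum_nonneg fun k => hd0 (k + 1) : (0:ℝ) ≤ ∑' k, d (k + 1))]
  · rw [ha]
    have : ∑' k, d (k + 1) ≤ ∑' k, phiC (k + 1) * (2 * r) :=
      Summable.tsum_le_tsum (fun k => mul_le_mul_of_nonneg_left
        (by have := hb k; push_cast; linarith) (phiC_pos _).le)
        ((summable_nat_add_iff 1).2 hds) (hs1.mul_right _)
    rw [tsum_mul_right] at this
    have := this.trans (mul_le_mul tsum_phiC_succ_le (by linarith : 2 * r ≤ 1 / 32)
      (by positivity) (by linarith [log_two_gt_d9]))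
    linarith
  · intro x hx
    refine le_on_closure (f := phi) (s := Ioo (-1 : ℝ) 1)
      (g := fun y => phi ρ + (∑' k, d k) * (y ^ 2 - r) + 1 / 5 * (y ^ 2 - r) ^ 2)
      (fun y hy => ?_) continuous_phi.continuousOn (by fun_prop) (mem_closure_Ioo hx)
    have hx' := hasSum_phi (abs_lt.2 hy)
    have hρ' := hasSum_phi (abs_lt.2 ⟨by linarith, by linarith⟩ : |ρ| < 1)
    have hdiff := (hx'.sub hρ').sub (hds.hasSum.mul_right (y ^ 2 - r))
    have hbnd : HasSum (fun k => if k = 0 then 0 else phiC k * ((y ^ 2 - r) ^ 2 / (1 - r) ^ 2))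
        ((∑' k, phiC (k + 1)) * ((y ^ 2 - r) ^ 2 / (1 - r) ^ 2)) := by
      refine (hasSum_nat_add_iff' 1).1 ?_
      simpa using hs1.hasSum.mul_right ((y ^ 2 - r) ^ 2 / (1 - r) ^ 2)
    have hle := hasSum_le (fun k => ?_) hdiff hbnd
    · have hc : (∑' k, phiC (k + 1)) * ((y ^ 2 - r) ^ 2 / (1 - r) ^ 2)
          ≤ 1 / 5 * (y ^ 2 - r) ^ 2 := by
        rw [← mul_div_assoc, mul_comm _ ((y ^ 2 - r) ^ 2), mul_div_assoc, mul_comm (1 / 5 : ℝ)]
        refine mul_le_mul_of_nonneg_left ?_ (sq_nonneg _)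
        rw [div_le_iff₀ (by nlinarith)]
        refine tsum_phiC_succ_le.trans ?_
        have : (63 / 64 : ℝ) ^ 2 ≤ (1 - r) ^ 2 := by gcongr; linarith
        linarith
      linarith
    · rcases k with _ | k
      · simp [hd, phiC, hr]
        ring_nf
        exact le_rfl
      · rw [if_neg (Nat.succ_ne_zero k)]
        have h := pow_taylor (v := y ^ 2) (r := r)
          (by rw [abs_of_nonneg (sq_nonneg y)]; exact (sq_le_one_iff_abs_le_one y).2 (abs_lt.2 hy).le)
          (by rw [abs_of_nonneg hr0]; linarith) (k + 1)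
        rw [abs_of_nonneg hr0] at h
        have h' := mul_le_mul_of_nonneg_left h (phiC_pos (k + 1)).le
        refine le_trans (le_of_eq ?_) h'
        simp only [hd, hr, ← pow_mul]
        rw [show 2 * (k + 1 + 1) = 2 * (k + 1) + 2 by ring]
        push_cast
        ring

/-- Second order bound for `phi` around a mean of absolute value at most `23 / 100`. -/
lemma phi_taylor {m e : ℝ} (hm : |m| ≤ 23 / 100) (he : |e| ≤ 1) :
    phi e ≤ phi m + atanhR m * (e - m) + 827 / 1000 * (e - m) ^ 2 := by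
  refine le_on_closure (f := phi) (s := Ioo (-1 : ℝ) 1)
    (g := fun y => phi m + atanhR m * (y - m) + 827 / 1000 * (y - m) ^ 2)
    (fun y hy => ?_) continuous_phi.continuousOn (by fun_prop) (mem_closure_Ioo he)
  have hm1 : |m| < 1 := lt_of_le_of_lt hm (by norm_num)
  have hdiff := ((hasSum_phi (abs_lt.2 hy)).sub (hasSum_phi hm1)).sub
    ((hasSum_atanhR hm1).mul_right (y - m))
  have hs1 : Summable fun k => phiC (k + 1) := (summable_nat_add_iff 1).2 summable_phiC
  set Y := (y - m) ^ 2 / (1 - |m|) ^ 2 with hY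
  have hbnd : HasSum (fun k => if k = 0 then (y - m) ^ 2 / 2 else phiC k * Y)
      ((y - m) ^ 2 / 2 + (∑' k, phiC (k + 1)) * Y) := by
    refine (hasSum_nat_add_iff' 1).1 ?_
    simpa using hs1.hasSum.mul_right Y
  have hle := hasSum_le (fun k => ?_) hdiff hbnd
  · have h1 : (0:ℝ) < (1 - |m|) ^ 2 := pow_pos (by linarith) 2
    have h2 : (77 / 100 : ℝ) ^ 2 ≤ (1 - |m|) ^ 2 := by gcongr; linarith
    have h3 : (∑' k, phiC (k + 1)) * Y ≤ 327 / 1000 * (y - m) ^ 2 := by
      rw [hY, ← mul_div_assoc, div_le_iff₀ h1]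
      have := tsum_phiC_succ_le
      have := log_two_lt_d9
      calc (∑' k, phiC (k + 1)) * (y - m) ^ 2 ≤ (log 2 - 1 / 2) * (y - m) ^ 2 :=
            mul_le_mul_of_nonneg_right tsum_phiC_succ_le (sq_nonneg _)
        _ ≤ (327 / 1000 * (77 / 100) ^ 2) * (y - m) ^ 2 :=
            mul_le_mul_of_nonneg_right (by norm_num; linarith) (sq_nonneg _)
        _ ≤ 327 / 1000 * (1 - |m|) ^ 2 * (y - m) ^ 2 :=
            mul_le_mul_of_nonneg_right (by linarith) (sq_nonneg _)
        _ = _ := by ring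
    linarith
  · rcases k with _ | k
    · simp [phiC]
      ring_nf
      exact le_rfl
    · rw [if_neg (Nat.succ_ne_zero k)]
      have h := pow_taylor (v := y) (r := m) (abs_lt.2 hy).le hm1 (2 * (k + 1) + 1)
      refine le_trans (le_of_eq ?_) (mul_le_mul_of_nonneg_left h (phiC_pos (k + 1)).le)
      unfold phiC
      push_cast
      have : (2 * ((k:ℝ) + 1) + 1) ≠ 0 := by positivity
      have : (2 * ((k:ℝ) + 1) + 2) ≠ 0 := by positivity
      field_simp
      ring

lemma mul_log_div {p q : ℝ} (hp : p ≠ 0) :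
    p * ((q / p) * log (q / p)) = q * log q - q * log p := by
  rcases eq_or_ne q 0 with rfl | hq
  · simp
  · rw [log_div hq hp]; field_simp

/-- Chain rule for a pair of means. -/
lemma phi_pair {e : ℝ} (he1 : -1 < e) (he2 : e < 1) (o : ℝ) :
    phi (e + o) + phi (e - o)
      = 2 * phi e + (1 + e) * phi (o / (1 + e)) + (1 - e) * phi (o / (1 - e)) := by
  have hp : (1 + e) ≠ 0 := by linarith
  have hq : (1 - e) ≠ 0 := by linarith
  have a1 := mul_log_div (q := 1 + e + o) hp
  have a2 := mul_log_div (q := 1 + e - o) hp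
  have a3 := mul_log_div (q := 1 - e + o) hq
  have a4 := mul_log_div (q := 1 - e - o) hq
  rw [show (1 + e + o) / (1 + e) = 1 + o / (1 + e) by field_simp] at a1
  rw [show (1 + e - o) / (1 + e) = 1 - o / (1 + e) by field_simp] at a2
  rw [show (1 - e + o) / (1 - e) = 1 + o / (1 - e) by field_simp] at a3
  rw [show (1 - e - o) / (1 - e) = 1 - o / (1 - e) by field_simp] at a4
  unfold phi
  rw [show 1 + (e + o) = 1 + e + o by ring, show 1 - (e + o) = 1 - e - o by ring,
    show 1 + (e - o) = 1 + e - o by ring, show 1 - (e - o) = 1 - e + o by ring]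
  linear_combination -(1 / 2 : ℝ) * (a1 + a2 + a3 + a4)

end Vale.Agent.P322
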