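import Mathlib
import Vale.Agent.P322.Defs
import Vale.Agent.P322.PhiSeries

/-!
Comparison of a solution of the differential inequality given by the strengthened log-Sobolev
inequality with the one-bit value `phi`, down to correlation `1 / 8`, and below it for large means.
-/

namespace Vale.Agent.P322

open Real Set Filter Topology

/-- The shape of the correction term in the barrier. -/
noncomputable def barG (x : ℝ) : ℝ := x ^ 2 * (1 - 2 / 3 * log x)

/-- The weight `(1 - m²)(1 - τ m²)`. -/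
noncomputable def wgt (m τ : ℝ) : ℝ := (1 - m ^ 2) * (1 - τ * m ^ 2)

/-- The offset `ent m - W log 2`. -/
noncomputable def offs (m τ : ℝ) : ℝ := ent m - wgt m τ * log 2

lemma phi_le_log_two_mul_sq {m : ℝ} (hm : |m| ≤ 1) : phi m ≤ log 2 * m ^ 2 := by
  refine le_on_closure (f := phi) (g := fun y => log 2 * y ^ 2) (s := Ioo (-1 : ℝ) 1)
    (fun y hy => ?_) continuous_phi.continuousOn (by fun_prop) (mem_closure_Ioo hm)
  have h := hasSum_phi (abs_lt.2 hy)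
  have hs := summable_phiC
  refine (hasSum_le (fun k => ?_) h (hs.hasSum.mul_right (y ^ 2))).trans
    (mul_le_mul_of_nonneg_right (Real.tsum_le_of_sum_range_le (fun k => (phiC_pos k).le)
      sum_phiC_le) (sq_nonneg y))
  refine mul_le_mul_of_nonneg_left ?_ (phiC_pos _).le
  calc y ^ (2 * k + 2) = (y ^ 2) ^ (k + 1) := by rw [← pow_mul]; congr 1
    _ ≤ (y ^ 2) ^ 1 := pow_le_pow_of_le_one (sq_nonneg y)
        ((sq_le_one_iff_abs_le_one y).2 (abs_lt.2 hy).le) (by omega)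
    _ = y ^ 2 := pow_one _

lemma wgt_pos {m τ : ℝ} (hm : |m| < 1) (hτ1 : τ ≤ 3 / 100) : 0 < wgt m τ := by
  have h : m ^ 2 < 1 := (sq_lt_one_iff_abs_lt_one m).2 hm
  have : τ * m ^ 2 ≤ 3 / 100 * m ^ 2 := mul_le_mul_of_nonneg_right hτ1 (sq_nonneg m)
  exact mul_pos (by linarith) (by linarith)

lemma wgt_le {m τ : ℝ} (hm : |m| ≤ 1) (hτ0 : 0 ≤ τ) : wgt m τ ≤ 1 - m ^ 2 := by
  have h : m ^ 2 ≤ 1 := (sq_le_one_iff_abs_le_one m).2 hm
  unfold wgt
  nlinarith [mul_nonneg (mul_nonneg hτ0 (sq_nonneg m)) (sub_nonneg.2 h)]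

lemma offs_nonneg {m τ : ℝ} (hm : |m| ≤ 1) (hτ0 : 0 ≤ τ) : 0 ≤ offs m τ := by
  have h1 := phi_le_log_two_mul_sq hm
  have h2 := mul_le_mul_of_nonneg_right (wgt_le hm hτ0) (log_pos one_lt_two).le
  unfold offs ent
  linarith

lemma offs_le {m τ : ℝ} (hm : |m| ≤ 1) (hτ0 : 0 ≤ τ) (hτ1 : τ ≤ 3 / 100) :
    offs m τ ≤ (log 2 - 1 / (2 * (103 / 100))) * (1 - wgt m τ) := by
  have h1 := sq_div_two_le_phi hm
  have h2 : m ^ 2 ≤ 1 := (sq_le_one_iff_abs_le_one m).2 hm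
  have h3 : 1 - wgt m τ ≤ 103 / 100 * m ^ 2 := by
    unfold wgt
    nlinarith [mul_le_mul_of_nonneg_right hτ1 (sq_nonneg m),
      mul_nonneg hτ0 (sq_nonneg (m ^ 2))]
  unfold offs ent
  have : (1 - wgt m τ) / (2 * (103 / 100)) ≤ m ^ 2 / 2 := by
    rw [div_le_iff₀ (by norm_num)]; linarith
  linarith

lemma hasDerivAt_barG {x : ℝ} (hx : 0 < x) :
    HasDerivAt barG (2 * (barG x) / x - 2 / 3 * x) x := by
  have h : HasDerivAt (fun t : ℝ => t ^ 2 * (1 - 2 / 3 * log t))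
      (2 * x * (1 - 2 / 3 * log x) + x ^ 2 * (-(2 / 3 * x⁻¹))) x :=
    ((hasDerivAt_pow 2 x).congr_deriv (by push_cast; ring)).mul
      (((hasDerivAt_log hx.ne').const_mul (2 / 3 : ℝ)).const_sub 1)
  refine h.congr_deriv ?_
  unfold barG
  field_simp
  ring

lemma sq_le_barG {x : ℝ} (h0 : 0 < x) (h1 : x ≤ 1) : x ^ 2 ≤ barG x := by
  have := log_nonpos h0.le h1
  unfold barG
  nlinarith [sq_nonneg x]

lemma barG_le_one {x : ℝ} (h0 : 0 < x) (h1 : x ≤ 1) : barG x ≤ 1 := by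
  have h := log_le_sub_one_of_pos (inv_pos.2 h0)
  rw [log_inv] at h
  have : x ^ 2 * (-log x) ≤ x ^ 2 * (x⁻¹ - 1) := mul_le_mul_of_nonneg_left h (sq_nonneg x)
  have e : x ^ 2 * (x⁻¹ - 1) = x - x ^ 2 := by field_simp
  unfold barG
  nlinarith [sq_nonneg (x - 1)]

/-- The monotone rational upper bound for `x / ((1 - x²) artanh x) - 1`. -/
noncomputable def qbar (x : ℝ) : ℝ := 1 / ((1 - x ^ 2) * (1 + x ^ 2 / 3)) - 1

lemma qbar_mono {s x : ℝ} (h0 : 0 ≤ s) (hsx : s ≤ x) (h1 : x < 1) : qbar s ≤ qbar x := by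
  have hx2 : x ^ 2 < 1 := by nlinarith
  have hs2 : s ^ 2 ≤ x ^ 2 := by gcongr
  unfold qbar
  have hp : 0 < (1 - x ^ 2) * (1 + x ^ 2 / 3) := mul_pos (by linarith) (by positivity)
  have := one_div_le_one_div_of_le hp (show (1 - x ^ 2) * (1 + x ^ 2 / 3)
      ≤ (1 - s ^ 2) * (1 + s ^ 2 / 3) by nlinarith [sq_nonneg s, sq_nonneg x])
  linarith

lemma qbar_nonneg {x : ℝ} (h0 : 0 ≤ x) (h1 : x < 1) : 0 ≤ qbar x :=
  le_trans (le_of_eq (by norm_num [qbar])) (qbar_mono le_rfl h0 h1)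

lemma qbar_spec {s : ℝ} (h0 : 0 ≤ s) (h1 : s < 1) :
    s / (1 - s ^ 2) ≤ (1 + qbar s) * atanhR s := by
  have hs2 : (0:ℝ) < 1 - s ^ 2 := by nlinarith
  have hq : 1 + qbar s = 1 / ((1 - s ^ 2) * (1 + s ^ 2 / 3)) := by unfold qbar; ring
  rw [hq]
  have h := mul_le_mul_of_nonneg_left (atanhR_ge_cubic h0 h1)
    (one_div_nonneg.2 (mul_pos hs2 (by positivity : (0:ℝ) < 1 + s ^ 2 / 3)).le)
  refine le_trans (le_of_eq ?_) h
  have : (1 + s ^ 2 / 3) ≠ 0 := by positivity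
  field_simp

lemma rate_lip {s x : ℝ} (h0 : 0 ≤ s) (hsx : s ≤ x) (h1 : x < 1) :
    (x * atanhR x - 2 * phi x) - (s * atanhR s - 2 * phi s) ≤ qbar x * (phi x - phi s) := by
  set f : ℝ → ℝ := fun r => r * atanhR r - 2 * phi r - qbar x * phi r with hf
  have hd : ∀ r ∈ Icc s x, HasDerivAt f
      (1 * atanhR r + r * (1 / (1 - r ^ 2)) - 2 * atanhR r - qbar x * atanhR r) r := by
    intro r hr
    have a : -1 < r := by linarith [hr.1]
    have b : r < 1 := by linarith [hr.2]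
    exact (((hasDerivAt_id r).mul (hasDerivAt_atanhR a b)).sub
      ((hasDerivAt_phi a b).const_mul 2)).sub ((hasDerivAt_phi a b).const_mul _)
  have hanti : AntitoneOn f (Icc s x) := by
    refine antitoneOn_of_hasDerivWithinAt_nonpos (convex_Icc s x)
      (fun r hr => (hd r hr).continuousAt.continuousWithinAt)
      (fun r hr => (hd r (interior_subset hr)).hasDerivWithinAt) fun r hr => ?_
    obtain ⟨hr1, hr2⟩ := interior_subset hr
    have hr0 : 0 ≤ r := h0.trans hr1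
    have hr1' : r < 1 := hr2.trans_lt h1
    have h2 := qbar_spec hr0 hr1'
    have h3 := mul_le_mul_of_nonneg_right (qbar_mono hr0 hr2 h1) (atanhR_nonneg hr0 hr1')
    have e : r * (1 / (1 - r ^ 2)) = r / (1 - r ^ 2) := by ring
    linarith
  have := hanti (left_mem_Icc.2 hsx) (right_mem_Icc.2 hsx) hsx
  simp only [hf] at this
  linarith

lemma phi_mono {s x : ℝ} (h0 : 0 ≤ s) (hsx : s ≤ x) (h1 : x < 1) : phi s ≤ phi x := by
  refine (monotoneOn_of_hasDerivWithinAt_nonneg (convex_Icc s x) (f' := atanhR)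
    continuous_phi.continuousOn (fun r hr => ?_) fun r hr => ?_)
    (left_mem_Icc.2 hsx) (right_mem_Icc.2 hsx) hsx
  · obtain ⟨a, b⟩ := interior_subset hr
    exact (hasDerivAt_phi (by linarith) (by linarith)).hasDerivWithinAt
  · obtain ⟨a, b⟩ := interior_subset hr
    exact atanhR_nonneg (by linarith) (by linarith)

lemma qbar_mul_le {x : ℝ} (h0 : 0 < x) (h1 : x < 1) :
    qbar x * (1 - barG x) ≤ 2 / 3 * x ^ 2 := by
  have hx2 : (0:ℝ) < 1 - x ^ 2 := by nlinarith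
  have hL : 1 - x ≤ -log x := by linarith [log_le_sub_one_of_pos h0]
  have hp : 0 < (1 - x ^ 2) * (1 + x ^ 2 / 3) := mul_pos hx2 (by positivity)
  have hq : qbar x = x ^ 2 * (2 / 3 + x ^ 2 / 3) / ((1 - x ^ 2) * (1 + x ^ 2 / 3)) := by
    unfold qbar
    rw [eq_div_iff hp.ne', sub_mul, one_div, inv_mul_cancel₀ hp.ne']
    ring
  rw [hq, div_mul_eq_mul_div, div_le_iff₀ hp, barG]
  have key : (2 / 3 + x ^ 2 / 3) * (1 - x ^ 2 * (1 - 2 / 3 * log x))
      ≤ 2 / 3 * ((1 - x ^ 2) * (1 + x ^ 2 / 3)) := by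
    nlinarith [mul_le_mul_of_nonneg_left hL (by positivity : (0:ℝ) ≤ x ^ 2 * (2 + x ^ 2)),
      sq_nonneg x, mul_nonneg (sq_nonneg x) (mul_nonneg (sub_nonneg.2 h1.le) (sub_nonneg.2 h1.le)),
      mul_nonneg (pow_nonneg h0.le 3) (sub_nonneg.2 h1.le), mul_pos h0 hx2]
  calc x ^ 2 * (2 / 3 + x ^ 2 / 3) * (1 - x ^ 2 * (1 - 2 / 3 * log x))
      = x ^ 2 * ((2 / 3 + x ^ 2 / 3) * (1 - x ^ 2 * (1 - 2 / 3 * log x))) := by ring
    _ ≤ x ^ 2 * (2 / 3 * ((1 - x ^ 2) * (1 + x ^ 2 / 3))) :=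
        mul_le_mul_of_nonneg_left key (sq_nonneg x)
    _ = _ := by ring

/-- The barrier. -/
noncomputable def barY (m τ x : ℝ) : ℝ := wgt m τ * phi x + offs m τ * barG x

section

variable {K K' : ℝ → ℝ} {m τ : ℝ}

/-- `K` stays below the barrier. -/
theorem le_barY (hm : |m| < 1) (hτ0 : 0 ≤ τ) (hτ1 : τ ≤ 3 / 100)
    (hcont : ContinuousOn K (Icc 0 1))
    (hder : ∀ x ∈ Ioo (0:ℝ) 1, HasDerivAt K (K' x) x)
    (hlin : ∀ x ∈ Ioo (0:ℝ) 1, 2 * K x ≤ x * K' x)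
    (hR : ∀ x ∈ Ioo (0:ℝ) 1, ∀ s : ℝ, 0 ≤ s → s < 1 → offs m τ + wgt m τ * phi s ≤ K x →
      2 * K x + wgt m τ * (s * atanhR s - 2 * phi s) ≤ x * K' x)
    (h1 : K 1 ≤ ent m) {ρ : ℝ} (hρ0 : 0 < ρ) (hρ1 : ρ ≤ 1) : K ρ ≤ barY m τ ρ := by
  set W := wgt m τ with hW
  set c := offs m τ with hc
  have hW0 : 0 < W := wgt_pos hm hτ1
  have hc0 : 0 ≤ c := offs_nonneg hm.le hτ0
  set D : ℝ → ℝ := fun x => K x - barY m τ x with hD
  have hD1 : D 1 ≤ 0 := by
    have : barY m τ 1 = ent m := by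
      simp [barY, barG, phi_one, offs]
    simp only [hD]; linarith
  have hYd : ∀ x ∈ Ioo (0:ℝ) 1, HasDerivAt (barY m τ)
      (W * atanhR x + c * (2 * (barG x) / x - 2 / 3 * x)) x := fun x hx =>
    ((hasDerivAt_phi (by linarith [hx.1]) hx.2).const_mul W).add
      ((hasDerivAt_barG hx.1).const_mul c)
  have hDc : ContinuousOn D (Icc ρ 1) := by
    refine (hcont.mono (Icc_subset_Icc hρ0.le le_rfl)).sub (ContinuousOn.add ?_ ?_)
    · exact (continuous_phi.continuousOn).const_mul _ |>.mono Subset.rfl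
    · refine (ContinuousOn.mul (by fun_prop) ?_).const_mul _ |>.mono Subset.rfl
      exact (continuousOn_const.sub ((ContinuousOn.log continuousOn_id
        fun x hx => (lt_of_lt_of_le hρ0 hx.1).ne').const_mul _))
  have hpos : ∀ x ∈ Ioo (0:ℝ) 1, 0 < D x →
      0 ≤ K' x - (W * atanhR x + c * (2 * (barG x) / x - 2 / 3 * x)) := by
    intro x hx hDx
    have hg1 := barG_le_one hx.1 hx.2.le
    have hg2 := qbar_mul_le hx.1 hx.2
    have hKY : W * phi x + c * barG x ≤ K x := by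
      simp only [hD, barY] at hDx; linarith
    suffices h : W * (x * atanhR x) + c * (2 * barG x - 2 / 3 * x ^ 2) ≤ x * K' x by
      have e : x * (W * atanhR x + c * (2 * (barG x) / x - 2 / 3 * x))
          = W * (x * atanhR x) + c * (2 * barG x - 2 / 3 * x ^ 2) := by
        have := hx.1.ne'
        field_simp
      nlinarith [hx.1]
    set t := phi x - c * (1 - barG x) / W with ht
    have hWt : W * t = W * phi x - c * (1 - barG x) := by
      rw [ht]; field_simp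
    have hq0 := qbar_nonneg hx.1.le hx.2
    have hcq : c * (qbar x * (1 - barG x)) ≤ c * (2 / 3 * x ^ 2) :=
      mul_le_mul_of_nonneg_left hg2 hc0
    rcases le_or_gt 0 t with ht0 | ht0
    · have hts : t ∈ Icc (phi 0) (phi x) := by
        refine ⟨by rw [phi_zero]; exact ht0, ?_⟩
        rw [ht]
        have : 0 ≤ c * (1 - barG x) / W := div_nonneg (mul_nonneg hc0 (by linarith)) hW0.le
        linarith
      obtain ⟨s, ⟨hs0, hsx⟩, hs⟩ :=
        intermediate_value_Icc hx.1.le continuous_phi.continuousOn hts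
      have h := hR x hx s hs0 (by linarith [hx.2]) (by rw [hs]; linarith)
      have hl := mul_le_mul_of_nonneg_left (rate_lip hs0 hsx hx.2) hW0.le
      rw [hs] at h hl
      nlinarith
    · have h := hlin x hx
      have hl := mul_le_mul_of_nonneg_left (rate_lip le_rfl hx.1.le hx.2) hW0.le
      rw [phi_zero] at hl
      have h2 : W * phi x * qbar x ≤ c * (1 - barG x) * qbar x := by
        refine mul_le_mul_of_nonneg_right ?_ hq0
        nlinarith
      nlinarith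
  by_contra hcon
  have hρD : 0 < D ρ := by simp only [hD]; linarith [not_le.1 hcon]
  set S := {x | x ∈ Icc ρ 1 ∧ D x ≤ 0} with hS
  have hSc : IsClosed S := hDc.preimage_isClosed_of_isClosed isClosed_Icc isClosed_Iic
  have hSne : S.Nonempty := ⟨1, right_mem_Icc.2 hρ1, hD1⟩
  have hSb : BddBelow S := ⟨ρ, fun x hx => hx.1.1⟩
  obtain ⟨⟨hs1, hs2⟩, hsD⟩ := hSc.csInf_mem hSne hSb
  set s := sInf S with hs
  have hmono : MonotoneOn D (Icc ρ s) := by
    refine monotoneOn_of_hasDerivWithinAt_nonneg (convex_Icc ρ s)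
      (f' := fun x => K' x - (W * atanhR x + c * (2 * (barG x) / x - 2 / 3 * x)))
      (hDc.mono (Icc_subset_Icc le_rfl hs2)) (fun x hx => ?_) fun x hx => ?_
    · rw [interior_Icc] at hx
      have hx' : x ∈ Ioo (0:ℝ) 1 := ⟨hρ0.trans hx.1, hx.2.trans_le hs2⟩
      exact ((hder x hx').sub (hYd x hx')).hasDerivWithinAt
    · rw [interior_Icc] at hx
      have hx' : x ∈ Ioo (0:ℝ) 1 := ⟨hρ0.trans hx.1, hx.2.trans_le hs2⟩
      refine hpos x hx' (lt_of_not_ge fun hle => ?_)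
      exact not_lt.2 (csInf_le hSb ⟨⟨hx.1.le, hx'.2.le⟩, hle⟩) hx.2
  have := hmono (left_mem_Icc.2 hs1) (right_mem_Icc.2 hs1) hs1
  linarith

/-- For correlations at least `1 / 8` the information is at most the one-bit value. -/
theorem compare (hm : |m| < 1) (hτ0 : 0 ≤ τ) (hτ1 : τ ≤ 3 / 100)
    (hcont : ContinuousOn K (Icc 0 1))
    (hder : ∀ x ∈ Ioo (0:ℝ) 1, HasDerivAt K (K' x) x)
    (hlin : ∀ x ∈ Ioo (0:ℝ) 1, 2 * K x ≤ x * K' x)
    (hR : ∀ x ∈ Ioo (0:ℝ) 1, ∀ s : ℝ, 0 ≤ s → s < 1 → offs m τ + wgt m τ * phi s ≤ K x →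
      2 * K x + wgt m τ * (s * atanhR s - 2 * phi s) ≤ x * K' x)
    (h1 : K 1 ≤ ent m) {ρ : ℝ} (hρ0 : 1 / 8 ≤ ρ) (hρ1 : ρ ≤ 1) : K ρ ≤ phi ρ := by
  have hρ : 0 < ρ := by linarith
  refine (le_barY hm hτ0 hτ1 hcont hder hlin hR h1 hρ hρ1).trans ?_
  have hco := offs_le hm.le hτ0 hτ1
  have hW1 : wgt m τ ≤ 1 := (wgt_le hm.le hτ0).trans (by nlinarith)
  have hg : 0 ≤ barG ρ := (sq_nonneg ρ).trans (sq_le_barG hρ hρ1)
  have hlog : -log ρ ≤ 3 * log 2 := by
    have h := log_le_log (by norm_num : (0:ℝ) < 1 / 8) hρ0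
    rw [show (1 / 8 : ℝ) = ((2:ℝ) ^ 3)⁻¹ by norm_num, log_inv, log_pow] at h
    push_cast at h
    linarith
  have hl1 := log_two_gt_d9
  have hl2 := log_two_lt_d9
  have hgam : (log 2 - 1 / (2 * (103 / 100))) * (1 - 2 / 3 * log ρ) ≤ 1 / 2 := by
    calc _ ≤ ((0.6931471808 : ℝ) - 1 / (2 * (103 / 100))) * (1 + 2 * 0.6931471808) :=
          mul_le_mul (by linarith) (by linarith) (by linarith [log_nonpos hρ.le hρ1]) (by norm_num)
      _ ≤ 1 / 2 := by norm_num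
  have hphi := sq_div_two_le_phi (x := ρ) (abs_le.2 ⟨by linarith, hρ1⟩)
  have h2 : offs m τ * barG ρ ≤ (1 - wgt m τ) * (ρ ^ 2 / 2) :=
    calc offs m τ * barG ρ ≤ (log 2 - 1 / (2 * (103 / 100))) * (1 - wgt m τ) * barG ρ :=
          mul_le_mul_of_nonneg_right hco hg
      _ = (1 - wgt m τ) * ρ ^ 2 * ((log 2 - 1 / (2 * (103 / 100))) * (1 - 2 / 3 * log ρ)) := by
          unfold barG; ring
      _ ≤ (1 - wgt m τ) * ρ ^ 2 * (1 / 2) :=
          mul_le_mul_of_nonneg_left hgam (mul_nonneg (by linarith) (sq_nonneg ρ))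
      _ = _ := by ring
  have h3 := mul_le_mul_of_nonneg_left hphi (sub_nonneg.2 hW1)
  unfold barY
  linarith

/-- For small correlations and means of absolute value at least `23 / 100` the same holds. -/
theorem compare_low (hm : |m| < 1) (hm' : 23 / 100 ≤ |m|) (hτ0 : 0 ≤ τ) (hτ1 : τ ≤ 3 / 100)
    (hcont : ContinuousOn K (Icc 0 1))
    (hder : ∀ x ∈ Ioo (0:ℝ) 1, HasDerivAt K (K' x) x)
    (hlin : ∀ x ∈ Ioo (0:ℝ) 1, 2 * K x ≤ x * K' x)
    (hR : ∀ x ∈ Ioo (0:ℝ) 1, ∀ s : ℝ, 0 ≤ s → s < 1 → offs m τ + wgt m τ * phi s ≤ K x →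
      2 * K x + wgt m τ * (s * atanhR s - 2 * phi s) ≤ x * K' x)
    (h1 : K 1 ≤ ent m) {ρ : ℝ} (hρ0 : 0 < ρ) (hρ1 : ρ ≤ 1 / 8) : K ρ ≤ phi ρ := by
  have hmono : MonotoneOn (fun x => K x / x ^ 2) (Icc ρ (1 / 4)) := by
    refine monotoneOn_of_hasDerivWithinAt_nonneg (convex_Icc _ _)
      (f' := fun x => (x * K' x - 2 * K x) / x ^ 3) ?_ (fun x hx => ?_) fun x hx => ?_
    · exact (hcont.mono (Icc_subset_Icc hρ0.le (by norm_num))).div (by fun_prop)
        fun x hx => pow_ne_zero 2 (lt_of_lt_of_le hρ0 hx.1).ne'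
    · rw [interior_Icc] at hx
      have hx' : x ∈ Ioo (0:ℝ) 1 := ⟨hρ0.trans hx.1, by linarith [hx.2]⟩
      have h := (hder x hx').div ((hasDerivAt_pow 2 x)) (pow_ne_zero 2 hx'.1.ne')
      refine (h.congr_deriv ?_).hasDerivWithinAt
      have := hx'.1.ne'
      push_cast
      field_simp
    · rw [interior_Icc] at hx
      have hx' : x ∈ Ioo (0:ℝ) 1 := ⟨hρ0.trans hx.1, by linarith [hx.2]⟩
      exact div_nonneg (sub_nonneg.2 (hlin x hx')) (pow_nonneg hx'.1.le 3)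
  have hY := le_barY hm hτ0 hτ1 hcont hder hlin hR h1 (ρ := 1 / 4) (by norm_num) (by norm_num)
  have h := hmono (left_mem_Icc.2 (by linarith)) (right_mem_Icc.2 (by linarith)) (by linarith)
  simp only at h
  suffices barY m τ (1 / 4) ≤ (1 / 4 : ℝ) ^ 2 * (1 / 2) by
    have h' : K ρ / ρ ^ 2 ≤ 1 / 2 := by
      refine h.trans ?_
      rw [div_le_iff₀ (by norm_num)]
      linarith
    rw [div_le_iff₀ (pow_pos hρ0 2)] at h'
    have := sq_div_two_le_phi (x := ρ) (abs_le.2 ⟨by linarith, by linarith⟩)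
    linarith
  have hl1 := log_two_gt_d9
  have hl2 := log_two_lt_d9
  have hphi := phi_le_sextic (x := 1 / 4) (by norm_num)
  have hW0 := wgt_pos hm hτ1
  have hco := offs_le hm.le hτ0 hτ1
  have hg : barG (1 / 4) = (1 / 4) ^ 2 * (1 + 4 / 3 * log 2) := by
    rw [barG, show (1 / 4 : ℝ) = ((2:ℝ) ^ 2)⁻¹ by norm_num, log_inv, log_pow]
    push_cast; ring
  have hm2 : (529 / 10000 : ℝ) ≤ m ^ 2 := by
    rw [← sq_abs]; nlinarith
  have hm1 : m ^ 2 < 1 := (sq_lt_one_iff_abs_lt_one m).2 hm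
  have hW1 : 1 - wgt m τ ≤ 103 / 100 * m ^ 2 := by
    unfold wgt
    nlinarith [mul_le_mul_of_nonneg_right hτ1 (sq_nonneg m),
      mul_nonneg hτ0 (sq_nonneg (m ^ 2))]
  have hWle : wgt m τ ≤ 1 := (wgt_le hm.le hτ0).trans (by linarith [sq_nonneg m])
  have hoff : offs m τ ≤ log 2 * (1 - wgt m τ) - m ^ 2 / 2 := by
    have := sq_div_two_le_phi hm.le
    unfold offs ent
    linarith
  unfold barY
  rw [hg]
  have hp : phi (1 / 4) ≤ (1 / 4 : ℝ) ^ 2 * (505638 / 1000000) := by linarith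
  set G := 1 + 4 / 3 * log 2 with hG
  have hG0 : 0 ≤ G := by rw [hG]; linarith
  have hG1 : 19241 / 10000 ≤ G := by rw [hG]; linarith
  have hlG : log 2 * G ≤ 13338 / 10000 := by
    calc log 2 * G ≤ (0.6931471808 : ℝ) * (1 + 4 / 3 * 0.6931471808) := by
          rw [hG]; exact mul_le_mul hl2.le (by linarith) (by linarith) (by norm_num)
      _ ≤ _ := by norm_num
  have a1 := mul_le_mul_of_nonneg_left hp hW0.le
  have a2 := mul_le_mul_of_nonneg_right hoff hG0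
  have a3 := mul_le_mul_of_nonneg_left hlG (sub_nonneg.2 hWle)
  have a4 := mul_le_mul_of_nonneg_left hG1 (sq_nonneg m)
  nlinarith

end

end Vale.Agent.P322
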