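import Mathlib
import Vale.Agent.P322.Defs

/-!
Elementary facts about the noise operator on the cube: recursion, energy bound, fourth moment bound,
antipodal symmetry, and moments of linear forms.
-/

namespace Vale.Agent.P322.Small

open Real Finset
open Vale.Agent.P322

variable {n : ℕ}

lemma avg_add (f g : Cube n → ℝ) : avg (fun x => f x + g x) = avg f + avg g := by
  simp only [avg, sum_add_distrib, add_div]

lemma avg_sub (f g : Cube n → ℝ) : avg (fun x => f x - g x) = avg f - avg g := by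
  simp only [avg, sum_sub_distrib, sub_div]

lemma avg_const_mul (c : ℝ) (f : Cube n → ℝ) : avg (fun x => c * f x) = c * avg f := by
  simp only [avg, ← mul_sum, mul_div_assoc]

lemma avg_const (c : ℝ) : avg (fun _ : Cube n => c) = c := by
  simp [avg, Fintype.card_bool]

lemma avg_mono {f g : Cube n → ℝ} (h : ∀ x, f x ≤ g x) : avg f ≤ avg g := by
  unfold avg
  gcongr with x
  exact h x

lemma avg_nonneg {f : Cube n → ℝ} (h : ∀ x, 0 ≤ f x) : 0 ≤ avg f :=
  div_nonneg (sum_nonneg fun x _ => h x) (by positivity)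

lemma abs_avg_le (f : Cube n → ℝ) : |avg f| ≤ avg (fun x => |f x|) := by
  unfold avg
  rw [abs_div, abs_of_pos (by positivity : (0:ℝ) < 2 ^ n)]
  gcongr
  exact abs_sum_le_sum_abs _ _

lemma avg_mul_sq_le (f g : Cube n → ℝ) :
    avg (fun x => f x * g x) ^ 2 ≤ avg (fun x => f x ^ 2) * avg (fun x => g x ^ 2) := by
  unfold avg
  rw [div_pow, div_mul_div_comm, ← pow_two]
  gcongr
  exact sum_mul_sq_le_sq_mul_sq _ _ _

lemma sum_cube_succ (g : Cube (n + 1) → ℝ) :
    ∑ x, g x = ∑ y, (g (Fin.cons true y) + g (Fin.cons false y)) := by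
  rw [← Equiv.sum_comp (Fin.consEquiv fun _ => Bool) g, Fintype.sum_prod_type]
  simp [sum_add_distrib, Fin.consEquiv]

lemma avg_succ (g : Cube (n + 1) → ℝ) :
    avg g = avg (fun y => (g (Fin.cons true y) + g (Fin.cons false y)) / 2) := by
  unfold avg
  rw [sum_cube_succ, ← sum_div, pow_succ, div_div, mul_comm]

/-- The part of `g` even in the first bit. -/
noncomputable def hd0 (g : Cube (n + 1) → ℝ) (y : Cube n) : ℝ :=
  (g (Fin.cons true y) + g (Fin.cons false y)) / 2

/-- The coefficient of the first bit. -/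
noncomputable def hd1 (g : Cube (n + 1) → ℝ) (y : Cube n) : ℝ :=
  (g (Fin.cons true y) - g (Fin.cons false y)) / 2

lemma T_cons (ρ : ℝ) (g : Cube (n + 1) → ℝ) (b : Bool) (y : Cube n) :
    T ρ g (Fin.cons b y) = T ρ (hd0 g) y + ρ * sgn b * T ρ (hd1 g) y := by
  unfold T
  rw [sum_cube_succ, mul_sum, ← sum_add_distrib]
  refine sum_congr rfl fun x _ => ?_
  unfold kern hd0 hd1
  rw [Fin.prod_univ_succ, Fin.prod_univ_succ]
  simp only [Fin.cons_zero, Fin.cons_succ]
  cases b <;> simp [sgn] <;> ring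

lemma T_add (ρ : ℝ) (f g : Cube n → ℝ) (y : Cube n) :
    T ρ (fun x => f x + g x) y = T ρ f y + T ρ g y := by
  simp only [T, mul_add, sum_add_distrib]

lemma T_sub (ρ : ℝ) (f g : Cube n → ℝ) (y : Cube n) :
    T ρ (fun x => f x - g x) y = T ρ f y - T ρ g y := by
  simp only [T, mul_sub, sum_sub_distrib]

lemma T_const_mul (ρ c : ℝ) (f : Cube n → ℝ) (y : Cube n) :
    T ρ (fun x => c * f x) y = c * T ρ f y := by
  simp only [T, mul_sum]
  exact sum_congr rfl fun x _ => by ring

lemma T_sum {ι : Type*} (s : Finset ι) (ρ : ℝ) (f : ι → Cube n → ℝ) (y : Cube n) :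
    T ρ (fun x => ∑ i ∈ s, f i x) y = ∑ i ∈ s, T ρ (f i) y := by
  simp only [T, mul_sum]
  exact sum_comm

lemma T_const (ρ c : ℝ) (y : Cube n) : T ρ (fun _ => c) y = c := by
  induction n with
  | zero => simp [T, kern]
  | succ n ih =>
    rw [← Fin.cons_self_tail y, T_cons,
      show hd0 (fun _ : Cube (n + 1) => c) = fun _ => c by funext x; simp [hd0],
      show hd1 (fun _ : Cube (n + 1) => c) = fun _ => (0:ℝ) by funext x; simp [hd1], ih]
    simp [T]

lemma T_sgn (ρ : ℝ) (i : Fin n) (y : Cube n) :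
    T ρ (fun x => sgn (x i)) y = ρ * sgn (y i) := by
  induction n with
  | zero => exact i.elim0
  | succ n ih =>
    rw [← Fin.cons_self_tail y, T_cons]
    refine Fin.cases ?_ (fun j => ?_) i
    · rw [show hd0 (fun x : Cube (n + 1) => sgn (x 0)) = fun _ => (0:ℝ) by funext x; simp [hd0, sgn],
        show hd1 (fun x : Cube (n + 1) => sgn (x 0)) = fun _ => (1:ℝ) by funext x; simp [hd1, sgn],
        T_const, T_const]
      simp
    · rw [show hd0 (fun x : Cube (n + 1) => sgn (x j.succ)) = fun x => sgn (x j) by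
          funext x; simp [hd0],
        show hd1 (fun x : Cube (n + 1) => sgn (x j.succ)) = fun _ => (0:ℝ) by funext x; simp [hd1],
        T_const, ih]
      simp

lemma avg_T (ρ : ℝ) (g : Cube n → ℝ) : avg (T ρ g) = avg g := by
  induction n with
  | zero => simp [avg, T, kern]
  | succ n ih =>
    rw [avg_succ, avg_succ g]
    have : (fun y => (T ρ g (Fin.cons true y) + T ρ g (Fin.cons false y)) / 2)
        = T ρ (hd0 g) := by
      funext y; simp [T_cons, sgn]; ring
    rw [this, ih]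
    rfl

lemma kern_nonneg {ρ : ℝ} (h : |ρ| ≤ 1) (x y : Cube n) : 0 ≤ kern ρ x y := by
  refine prod_nonneg fun i _ => ?_
  obtain ⟨a, b⟩ := abs_le.1 h
  cases x i <;> cases y i <;> simp [sgn] <;> linarith

lemma abs_T_le {ρ : ℝ} (h : |ρ| ≤ 1) {g : Cube n → ℝ} (hg : ∀ x, |g x| ≤ 1) (y : Cube n) :
    |T ρ g y| ≤ 1 := by
  rw [← T_const (n := n) ρ 1 y]
  unfold T
  refine (abs_sum_le_sum_abs _ _).trans (sum_le_sum fun x _ => ?_)
  rw [abs_mul, abs_of_nonneg (kern_nonneg h x y)]
  exact mul_le_mul_of_nonneg_left (hg x) (kern_nonneg h x y)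

/-- The first-level coefficient. -/
noncomputable def coef (g : Cube n → ℝ) (i : Fin n) : ℝ := avg fun x => g x * sgn (x i)

/-- The first-level weight. -/
noncomputable def lev1 (g : Cube n → ℝ) : ℝ := ∑ i, coef g i ^ 2

lemma lev1_succ (g : Cube (n + 1) → ℝ) : lev1 g = lev1 (hd0 g) + avg (hd1 g) ^ 2 := by
  unfold lev1
  rw [Fin.sum_univ_succ, add_comm]
  congr 1
  · refine sum_congr rfl fun i _ => ?_
    congr 1
    unfold coef
    rw [avg_succ]
    congr 1; funext y
    simp [hd0]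
    ring
  · congr 1
    unfold coef
    rw [avg_succ]
    congr 1; funext y
    simp [hd1, sgn]
    ring

lemma avg_sq_succ (g : Cube (n + 1) → ℝ) :
    avg (fun x => g x ^ 2) = avg (fun y => hd0 g y ^ 2) + avg (fun y => hd1 g y ^ 2) := by
  rw [avg_succ, ← avg_add]
  congr 1; funext y; unfold hd0 hd1; ring

lemma avg_hd0 (g : Cube (n + 1) → ℝ) : avg (hd0 g) = avg g := (avg_succ g).symm

lemma bessel (g : Cube n → ℝ) : avg g ^ 2 + lev1 g ≤ avg (fun x => g x ^ 2) := by
  induction n with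
  | zero => simp [avg, lev1]
  | succ n ih =>
    have h0 := ih (hd0 g)
    have h1 := ih (hd1 g)
    have : 0 ≤ lev1 (hd1 g) := sum_nonneg fun i _ => sq_nonneg _
    rw [lev1_succ, avg_sq_succ]
    rw [avg_hd0] at h0
    linarith

lemma avg_T_sq_succ (ρ : ℝ) (g : Cube (n + 1) → ℝ) :
    avg (fun x => T ρ g x ^ 2)
      = avg (fun y => T ρ (hd0 g) y ^ 2) + ρ ^ 2 * avg (fun y => T ρ (hd1 g) y ^ 2) := by
  rw [avg_succ, ← avg_const_mul, ← avg_add]
  congr 1; funext y; simp [T_cons, sgn]; ring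

/-- Energy bound for the noise operator. -/
lemma energy {ρ : ℝ} (hρ : ρ ^ 2 ≤ 1) (g : Cube n → ℝ) :
    avg (fun x => T ρ g x ^ 2) ≤ avg g ^ 2 + ρ ^ 2 * lev1 g
      + ρ ^ 4 * (avg (fun x => g x ^ 2) - avg g ^ 2 - lev1 g) := by
  induction n with
  | zero => simp [avg, lev1, T, kern]
  | succ n ih =>
    have h0 := ih (hd0 g)
    have h1 := ih (hd1 g)
    have hb := bessel (hd1 g)
    rw [avg_hd0] at h0
    rw [avg_T_sq_succ, lev1_succ, avg_sq_succ]
    have h1' : avg (fun y => T ρ (hd1 g) y ^ 2) ≤ avg (hd1 g) ^ 2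
        + ρ ^ 2 * (avg (fun y => hd1 g y ^ 2) - avg (hd1 g) ^ 2) := by
      have : ρ ^ 4 * (avg (fun y => hd1 g y ^ 2) - avg (hd1 g) ^ 2 - lev1 (hd1 g))
          ≤ ρ ^ 2 * (avg (fun y => hd1 g y ^ 2) - avg (hd1 g) ^ 2 - lev1 (hd1 g)) := by
        refine mul_le_mul_of_nonneg_right ?_ (by linarith)
        calc ρ ^ 4 = ρ ^ 2 * ρ ^ 2 := by ring
          _ ≤ ρ ^ 2 * 1 := mul_le_mul_of_nonneg_left hρ (sq_nonneg ρ)
          _ = ρ ^ 2 := mul_one _
      linarith
    have := mul_le_mul_of_nonneg_left h1' (sq_nonneg ρ)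
    linarith

/-- The fourth moment under noise `ρ` is controlled by the second moment under noise `σ`. -/
lemma fourth {ρ σ : ℝ} (h : 3 * ρ ^ 2 ≤ σ ^ 2) (g : Cube n → ℝ) :
    avg (fun x => T ρ g x ^ 4) ≤ avg (fun x => T σ g x ^ 2) ^ 2 := by
  induction n with
  | zero =>
    simp only [avg, T, kern]
    simp
    exact le_of_eq (by ring)
  | succ n ih =>
    set a := fun y => T ρ (hd0 g) y with ha
    set b := fun y => T ρ (hd1 g) y with hb
    have e : avg (fun x => T ρ g x ^ 4) = avg (fun y => (a y ^ 2) ^ 2)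
        + 6 * ρ ^ 2 * avg (fun y => a y ^ 2 * b y ^ 2) + ρ ^ 4 * avg (fun y => (b y ^ 2) ^ 2) := by
      rw [avg_succ, ← avg_const_mul, ← avg_const_mul, ← avg_add, ← avg_add]
      congr 1; funext y; simp [T_cons, sgn, ha, hb]; ring
    set A := avg (fun y => T σ (hd0 g) y ^ 2) with hA
    set B := avg (fun y => T σ (hd1 g) y ^ 2) with hB
    have hA0 : 0 ≤ A := avg_nonneg fun _ => sq_nonneg _
    have hB0 : 0 ≤ B := avg_nonneg fun _ => sq_nonneg _
    have a4 : avg (fun y => (a y ^ 2) ^ 2) ≤ A ^ 2 := by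
      simpa [← pow_mul, ha] using ih (hd0 g)
    have b4 : avg (fun y => (b y ^ 2) ^ 2) ≤ B ^ 2 := by
      simpa [← pow_mul, hb] using ih (hd1 g)
    have ab : avg (fun y => a y ^ 2 * b y ^ 2) ≤ A * B := by
      refine le_of_pow_le_pow_left₀ two_ne_zero (mul_nonneg hA0 hB0) ?_
      refine (avg_mul_sq_le _ _).trans ?_
      rw [mul_pow]
      exact mul_le_mul a4 b4 (avg_nonneg fun _ => sq_nonneg _) (sq_nonneg _)
    rw [e, avg_T_sq_succ σ g, ← hA, ← hB]
    have c1 := mul_le_mul_of_nonneg_left ab (by positivity : (0:ℝ) ≤ 6 * ρ ^ 2)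
    have c2 := mul_le_mul_of_nonneg_left b4 (by positivity : (0:ℝ) ≤ ρ ^ 4)
    have c3 := mul_le_mul_of_nonneg_right h (mul_nonneg hA0 hB0)
    have c4 : ρ ^ 4 * B ^ 2 ≤ σ ^ 4 * B ^ 2 := by
      refine mul_le_mul_of_nonneg_right ?_ (sq_nonneg B)
      have : ρ ^ 2 ≤ σ ^ 2 := by linarith [sq_nonneg ρ]
      calc ρ ^ 4 = (ρ ^ 2) ^ 2 := by ring
        _ ≤ (σ ^ 2) ^ 2 := by gcongr
        _ = σ ^ 4 := by ring
    linarith

/-- The antipodal point. -/
def anti (x : Cube n) : Cube n := fun i => !(x i)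

lemma anti_anti (x : Cube n) : anti (anti x) = x := by funext i; simp [anti]

lemma sgn_not (b : Bool) : sgn (!b) = -sgn b := by cases b <;> simp [sgn]

lemma avg_anti (g : Cube n → ℝ) : avg (fun x => g (anti x)) = avg g := by
  unfold avg
  congr 1
  exact Fintype.sum_bijective anti (Function.Involutive.bijective anti_anti) _ _ fun _ => rfl

lemma T_anti (ρ : ℝ) (g : Cube n → ℝ) (y : Cube n) :
    T ρ (fun x => g (anti x)) y = T ρ g (anti y) := by
  unfold T
  refine Fintype.sum_bijective anti (Function.Involutive.bijective anti_anti) _ _ fun x => ?_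
  congr 1
  unfold kern
  refine prod_congr rfl fun i _ => ?_
  simp [anti, sgn_not]

lemma coef_anti (g : Cube n → ℝ) (i : Fin n) : coef (fun x => g (anti x)) i = -coef g i := by
  unfold coef
  rw [← avg_anti (fun x => g (anti x) * sgn (x i)),
    show -avg (fun x => g x * sgn (x i)) = (-1) * avg (fun x => g x * sgn (x i)) by ring,
    ← avg_const_mul]
  congr 1; funext x
  rw [anti_anti]
  simp [anti, sgn_not]

/-- A linear form in the signs. -/
noncomputable def lin (a : Fin n → ℝ) (x : Cube n) : ℝ := ∑ i, a i * sgn (x i)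

lemma lin_cons (a : Fin (n + 1) → ℝ) (b : Bool) (y : Cube n) :
    lin a (Fin.cons b y) = a 0 * sgn b + lin (fun i => a i.succ) y := by
  simp [lin, Fin.sum_univ_succ]

lemma avg_lin (a : Fin n → ℝ) : avg (lin a) = 0 := by
  induction n with
  | zero => simp [avg, lin]
  | succ n ih =>
    rw [avg_succ]
    have : (fun y => (lin a (Fin.cons true y) + lin a (Fin.cons false y)) / 2)
        = lin fun i => a i.succ := by
      funext y; simp [lin_cons, sgn]; ring
    rw [this, ih]

lemma coef_lin (a : Fin n → ℝ) (i : Fin n) : coef (lin a) i = a i := by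
  induction n with
  | zero => exact i.elim0
  | succ n ih =>
    refine Fin.cases ?_ (fun j => ?_) i
    · unfold coef
      rw [avg_succ]
      have : (fun y => (lin a (Fin.cons true y) * sgn ((Fin.cons true y : Cube (n + 1)) 0)
          + lin a (Fin.cons false y) * sgn ((Fin.cons false y : Cube (n + 1)) 0)) / 2)
          = fun _ => a 0 := by
        funext y; simp [lin_cons, sgn]
      rw [this, avg_const]
    · unfold coef
      rw [avg_succ]
      have : (fun y => (lin a (Fin.cons true y) * sgn ((Fin.cons true y : Cube (n + 1)) j.succ)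
          + lin a (Fin.cons false y) * sgn ((Fin.cons false y : Cube (n + 1)) j.succ)) / 2)
          = fun y => lin (fun i => a i.succ) y * sgn (y j) := by
        funext y; simp only [lin_cons, Fin.cons_succ, sgn, if_true, Bool.false_eq_true, if_false]; ring
      rw [this]
      exact ih (fun i => a i.succ) j

lemma T_lin (ρ : ℝ) (a : Fin n → ℝ) (y : Cube n) : T ρ (lin a) y = ρ * lin a y := by
  unfold lin
  rw [T_sum, mul_sum]
  refine sum_congr rfl fun i _ => ?_
  rw [T_const_mul, T_sgn]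
  ring

/-- Second, fourth and sixth moment of a linear form. -/
lemma lin_moments (a : Fin n → ℝ) :
    avg (fun x => lin a x ^ 2) = ∑ i, a i ^ 2 ∧
    avg (fun x => lin a x ^ 4) = 3 * (∑ i, a i ^ 2) ^ 2 - 2 * ∑ i, a i ^ 4 ∧
    avg (fun x => lin a x ^ 6)
      = 15 * (∑ i, a i ^ 2) ^ 3 - 30 * (∑ i, a i ^ 2) * ∑ i, a i ^ 4 + 16 * ∑ i, a i ^ 6 := by
  induction n with
  | zero => simp [avg, lin]
  | succ n ih =>
    obtain ⟨h2, h4, h6⟩ := ih fun i => a i.succ
    set c := a 0
    set L := lin fun i => a i.succ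
    have e2 : avg (fun x => lin a x ^ 2) = avg (fun y => L y ^ 2 + c ^ 2) := by
      rw [avg_succ]; congr 1; funext y; simp [lin_cons, sgn, L, c]; ring
    have e4 : avg (fun x => lin a x ^ 4)
        = avg (fun y => L y ^ 4 + (6 * c ^ 2) * L y ^ 2 + c ^ 4) := by
      rw [avg_succ]; congr 1; funext y; simp [lin_cons, sgn, L, c]; ring
    have e6 : avg (fun x => lin a x ^ 6)
        = avg (fun y => L y ^ 6 + (15 * c ^ 2) * L y ^ 4 + (15 * c ^ 4) * L y ^ 2 + c ^ 6) := by
      rw [avg_succ]; congr 1; funext y; simp [lin_cons, sgn, L, c]; ring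
    simp only [avg_add, avg_const_mul, avg_const] at e2 e4 e6
    rw [h2] at e2 e4 e6
    rw [h4] at e4 e6
    rw [h6] at e6
    rw [e2, e4, e6]
    simp only [Fin.sum_univ_succ]
    refine ⟨?_, ?_, ?_⟩ <;> ring

end Vale.Agent.P322.Small
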