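import Mathlib
import Vale.Agent.P322.Defs
import Vale.Agent.P322.PhiSeries
import Vale.Agent.P322.SmallCube

/-!
The derivative of `info` along the noise operators.
-/

namespace Vale.Agent.P322

open Real Finset Set Vale.Agent.P322.Small

variable {n : ℕ}

/-- The number operator. -/
noncomputable def numOp (u : Cube n → ℝ) (x : Cube n) : ℝ :=
  ∑ i, (u x - u (flipBit i x)) / 2

lemma flipBit_zero_cons (b : Bool) (y : Cube n) :
    flipBit 0 (Fin.cons b y : Cube (n + 1)) = Fin.cons (!b) y := by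
  unfold flipBit
  rw [Fin.cons_zero, Fin.update_cons_zero]

lemma flipBit_succ_cons (b : Bool) (y : Cube n) (j : Fin n) :
    flipBit j.succ (Fin.cons b y : Cube (n + 1)) = Fin.cons b (flipBit j y) := by
  unfold flipBit
  rw [Fin.cons_succ, ← Fin.cons_update]

lemma hasDerivAt_T (g : Cube n → ℝ) (y : Cube n) :
    ∀ ρ : ℝ, ∃ d : ℝ, HasDerivAt (fun t => T t g y) d ρ ∧ ρ * d = numOp (T ρ g) y := by
  induction n with
  | zero =>
    intro ρ
    refine ⟨0, ?_, by simp [numOp]⟩
    simp only [T, kern, univ_eq_empty, Finset.prod_empty, one_mul]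
    exact hasDerivAt_const ρ _
  | succ n ih =>
    intro ρ
    obtain ⟨b, z, rfl⟩ : ∃ b z, y = Fin.cons b z := ⟨y 0, Fin.tail y, (Fin.cons_self_tail y).symm⟩
    obtain ⟨d0, h0, e0⟩ := ih (hd0 g) z ρ
    obtain ⟨d1, h1, e1⟩ := ih (hd1 g) z ρ
    refine ⟨d0 + (1 * sgn b * T ρ (hd1 g) z + ρ * sgn b * d1), ?_, ?_⟩
    · simp only [T_cons]
      exact h0.add (((hasDerivAt_id ρ).mul_const (sgn b)).mul h1)
    · unfold numOp at e0 e1 ⊢
      rw [Fin.sum_univ_succ, flipBit_zero_cons]
      simp only [flipBit_succ_cons, T_cons, sgn_not]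
      rw [mul_add, e0, mul_add, ← mul_assoc, mul_comm ρ (ρ * sgn b * d1)]
      rw [show ρ * sgn b * d1 * ρ = ρ * sgn b * (ρ * d1) by ring, e1, mul_sum]
      rw [show ∀ p q r : ℝ, p + (q + r) = q + (p + r) from fun p q r => by ring]
      congr 1
      · ring
      · rw [← sum_add_distrib]
        exact sum_congr rfl fun j _ => by ring

lemma continuous_T (g : Cube n → ℝ) (y : Cube n) : Continuous fun t => T t g y :=
  continuous_iff_continuousAt.2 fun ρ => (hasDerivAt_T g y ρ).choose_spec.1.continuousAt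

lemma T_one (g : Cube n → ℝ) (y : Cube n) : T 1 g y = g y := by
  induction n with
  | zero =>
    simp [T, kern]
    exact congrArg g (Subsingleton.elim _ _)
  | succ n ih =>
    obtain ⟨b, z, rfl⟩ : ∃ b z, y = Fin.cons b z := ⟨y 0, Fin.tail y, (Fin.cons_self_tail y).symm⟩
    rw [T_cons, ih, ih]
    cases b <;> simp [hd0, hd1, sgn] <;> ring

lemma T_lt_one {ρ : ℝ} (hρ : |ρ| < 1) {f : Cube n → ℝ} (hf : ∀ x, f x ≤ 1) (hm : avg f < 1)
    (y : Cube n) : T ρ f y < 1 := by
  obtain ⟨h1, h2⟩ := abs_lt.1 hρ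
  have hk : ∀ x, 0 < kern ρ x y := fun x => prod_pos fun i _ => by
    cases x i <;> cases y i <;> simp [sgn] <;> linarith
  obtain ⟨x0, hx0⟩ : ∃ x0, f x0 < 1 := by
    by_contra h
    push Not at h
    have := avg_mono (f := fun _ => (1:ℝ)) (g := f) h
    rw [avg_const] at this
    linarith
  rw [← T_const (n := n) ρ 1 y]
  refine sum_lt_sum (fun x _ => mul_le_mul_of_nonneg_left (hf x) (hk x).le) ⟨x0, mem_univ _, ?_⟩
  exact mul_lt_mul_of_pos_left hx0 (hk x0)

lemma T_neg (ρ : ℝ) (f : Cube n → ℝ) (y : Cube n) : T ρ (fun x => -f x) y = -T ρ f y := by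
  simp [T]

lemma abs_T_lt_one {ρ : ℝ} (hρ : |ρ| < 1) {f : Cube n → ℝ} (hf : ∀ x, |f x| ≤ 1) (hm : |avg f| < 1)
    (y : Cube n) : |T ρ f y| < 1 := by
  refine abs_lt.2 ⟨?_, T_lt_one hρ (fun x => (abs_le.1 (hf x)).2) (abs_lt.1 hm).2 y⟩
  have hav : avg (fun x => -f x) = -avg f := by simp [avg, neg_div]
  have := T_lt_one hρ (f := fun x => -f x) (fun x => by linarith [(abs_le.1 (hf x)).1])
    (by linarith [(abs_lt.1 hm).1]) y
  rw [T_neg] at this
  linarith

lemma sum_mul_numOp (u v : Cube n → ℝ) :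
    ∑ x, v x * numOp u x
      = (∑ x, ∑ i, (u x - u (flipBit i x)) * (v x - v (flipBit i x))) / 4 := by
  simp only [numOp, mul_sum]
  rw [sum_comm, sum_comm (f := fun x i => (u x - u (flipBit i x)) * (v x - v (flipBit i x))),
    sum_div]
  refine sum_congr rfl fun i _ => ?_
  have hinv : Function.Involutive (flipBit (n := n) i) := fun x => by
    funext j; by_cases h : j = i <;> simp [flipBit, Function.update, h]
  have key : ∀ F : Cube n → ℝ, ∑ x, F (flipBit i x) = ∑ x, F x := fun F =>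
    Fintype.sum_bijective _ hinv.bijective _ _ fun _ => rfl
  have h := key fun x => v x * (u x - u (flipBit i x))
  simp only [hinv _] at h
  rw [eq_div_iff (by norm_num : (4:ℝ) ≠ 0),
    show ∑ x, (u x - u (flipBit i x)) * (v x - v (flipBit i x))
      = ∑ x, v x * (u x - u (flipBit i x)) + ∑ x, v (flipBit i x) * (u (flipBit i x) - u x) by
      rw [← sum_add_distrib]; exact sum_congr rfl fun x _ => by ring,
    h, sum_mul, ← sum_add_distrib]
  exact sum_congr rfl fun x _ => by ring

lemma hasDerivAt_info {f : Cube n → ℝ} (hf : ∀ x, |f x| ≤ 1) (hm : |avg f| < 1) {ρ : ℝ}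
    (h0 : 0 < ρ) (h1 : ρ < 1) :
    HasDerivAt (fun t => info t f) (form (T ρ f) / ρ) ρ := by
  choose d hd he using fun y => hasDerivAt_T f y ρ
  have hρ : |ρ| < 1 := abs_lt.2 ⟨by linarith, h1⟩
  have hy : ∀ y, HasDerivAt (fun t => phi (T t f y)) (atanhR (T ρ f y) * d y) ρ := fun y => by
    obtain ⟨a, b⟩ := abs_lt.1 (abs_T_lt_one hρ hf hm y)
    exact (hasDerivAt_phi a b).comp ρ (hd y)
  have h := ((HasDerivAt.fun_sum (u := (univ : Finset (Cube n))) fun y _ => hy y).div_const
    ((2:ℝ) ^ n)).sub_const (phi (avg f))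
  refine h.congr_deriv ?_
  unfold form avg
  rw [div_div, div_eq_div_iff (by positivity) (by positivity), div_mul_cancel₀ _ (by positivity)]
  have := sum_mul_numOp (T ρ f) (fun y => atanhR (T ρ f y))
  rw [eq_div_iff (by norm_num : (4:ℝ) ≠ 0)] at this
  rw [← this, sum_mul, sum_mul]
  exact sum_congr rfl fun y _ => by rw [← he y]; ring

lemma continuousOn_info (f : Cube n → ℝ) (s : Set ℝ) : ContinuousOn (fun t => info t f) s := by
  refine Continuous.continuousOn ?_
  unfold info avg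
  exact ((continuous_finsetSum _ fun y _ => continuous_phi.comp (continuous_T f y)).div_const
    _).sub continuous_const

lemma info_one (f : Cube n → ℝ) (hf : ∀ x, f x = 1 ∨ f x = -1) : info 1 f = ent (avg f) := by
  unfold info ent
  congr 1
  rw [show (fun y => phi (T 1 f y)) = fun _ => log 2 by
    funext y; rw [T_one]; rcases hf y with h | h <;> rw [h] <;> simp [phi_neg, phi_one]]
  exact avg_const _

end Vale.Agent.P322
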