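import Mathlib
import Vale.Agent.P322.Defs
import Vale.Agent.P322.PhiSeries

/-!
The pointwise inequality for an antipodal pair of values `e + o`, `e - o`.
-/

namespace Vale.Agent.P322

open Real

lemma pair_frac_le {x : ℝ} (h0 : 0 ≤ x) (h1 : x ≤ 2116 / 10000) :
    (6 - 3 * x + x ^ 2) / (1 - x) ^ 3 ≤ 1105 / 100 := by
  rw [div_le_iff₀ (pow_pos (by linarith) 3)]
  nlinarith [mul_nonneg h0 (sub_nonneg.2 h1), sq_nonneg x, mul_nonneg (sq_nonneg x) (sub_nonneg.2 h1)]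

/-- `o ^ 2 / (1 - e ^ 2)`. -/
noncomputable def pairP (e o : ℝ) : ℝ := o ^ 2 / (1 - e ^ 2)

/-- `(6 - 3 e ^ 2 + e ^ 4) / (1 - e ^ 2) ^ 3`. -/
noncomputable def pairQ (e : ℝ) : ℝ := (6 - 3 * e ^ 2 + (e ^ 2) ^ 2) / (1 - e ^ 2) ^ 3

lemma pair_ident {e : ℝ} (h1 : -1 < e) (h2 : e < 1) (a o r c : ℝ) :
    (1 + e) / 2 * (c + a * ((o / (1 + e)) ^ 2 - r) + 1 / 5 * ((o / (1 + e)) ^ 2 - r) ^ 2)
      + (1 - e) / 2 * (c + a * ((o / (1 - e)) ^ 2 - r) + 1 / 5 * ((o / (1 - e)) ^ 2 - r) ^ 2)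
    = c + a * (o ^ 2 - r) + 1 / 5 * (o ^ 2 - r) ^ 2
      + e ^ 2 * (a * pairP e o + 1 / 5 * (o ^ 4 * pairQ e)) - 2 / 5 * r * (e ^ 2 * pairP e o) := by
  have hne : (1 + e) ≠ 0 := by linarith
  have hne' : (1 - e) ≠ 0 := by linarith
  have hxx : (1 - e ^ 2) = (1 + e) * (1 - e) := by ring
  simp only [pairP, pairQ, hxx]
  field_simp
  ring

lemma pairP_le_one {e o : ℝ} (he : |e| < 1) (ho : |o| ≤ 1 - |e|) : pairP e o ≤ 1 := by
  have hx : e ^ 2 < 1 := (sq_lt_one_iff_abs_lt_one e).2 he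
  rw [pairP, div_le_one (by linarith), ← sq_abs o, ← sq_abs e]
  nlinarith [abs_nonneg o, abs_nonneg e]

lemma pairQ_le {e o : ℝ} (he : |e| < 1) (ho : |o| ≤ 1 - |e|) : o ^ 4 * pairQ e ≤ 6 := by
  have hE := abs_nonneg e
  have hx : (0:ℝ) < 1 - e ^ 2 := by
    have := (sq_lt_one_iff_abs_lt_one e).2 he
    linarith
  have ho4 : o ^ 4 ≤ (1 - |e|) ^ 4 := by
    calc o ^ 4 = |o| ^ 4 := ((by decide : Even 4).pow_abs o).symm
      _ ≤ _ := pow_le_pow_left₀ (abs_nonneg o) ho 4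
  have hN : 0 ≤ 6 - 3 * e ^ 2 + (e ^ 2) ^ 2 := by nlinarith
  rw [pairQ, mul_div_assoc', div_le_iff₀ (pow_pos hx 3)]
  refine (mul_le_mul_of_nonneg_right ho4 hN).trans ?_
  rw [show e ^ 2 = |e| ^ 2 from (sq_abs e).symm]
  set E := |e|
  rw [show (1 - E ^ 2) ^ 3 = (1 - E) ^ 3 * (1 + E) ^ 3 by ring,
    show (1 - E) ^ 4 * (6 - 3 * E ^ 2 + (E ^ 2) ^ 2)
      = (1 - E) ^ 3 * ((1 - E) * (6 - 3 * E ^ 2 + (E ^ 2) ^ 2)) by ring,
    show 6 * ((1 - E) ^ 3 * (1 + E) ^ 3) = (1 - E) ^ 3 * (6 * (1 + E) ^ 3) by ring]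
  refine mul_le_mul_of_nonneg_left ?_ (pow_nonneg (by linarith) 3)
  have t1 : (6 - 3 * E ^ 2 + (E ^ 2) ^ 2) ≤ 6 := by
    have hE2 : E ^ 2 ≤ 1 := (sq_le_one_iff₀ hE).2 he.le
    nlinarith [mul_nonneg (sq_nonneg E) (sub_nonneg.2 hE2), sq_nonneg E]
  have t2 : (6:ℝ) * 1 ≤ 6 * (1 + E) ^ 3 :=
    mul_le_mul_of_nonneg_left (one_le_pow₀ (by linarith)) (by norm_num)
  have t3 := mul_le_mul (show 1 - E ≤ 1 by linarith) t1 (by nlinarith) zero_le_one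
  linarith

lemma pair_key {a m e o : ℝ} (ha : 1 / 2 ≤ a) (ha' : a ≤ 507 / 1000)
    (hm : |m| ≤ 23 / 100) (he : |e| < 1) (ho : |o| ≤ 1 - |e|) :
    e ^ 2 * (a * pairP e o + 1 / 5 * (o ^ 4 * pairQ e))
      ≤ m ^ 2 * (858 / 1000 * o ^ 2 + 2947 / 1000 * o ^ 4) + 6828 / 1000 * (e - m) ^ 2 := by
  have hx : (0:ℝ) < 1 - e ^ 2 := by
    have := (sq_lt_one_iff_abs_lt_one e).2 he
    linarith
  have hP0 : 0 ≤ pairP e o := div_nonneg (sq_nonneg o) hx.le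
  have hQ0 : 0 ≤ pairQ e := div_nonneg (by nlinarith [sq_nonneg e]) (pow_nonneg hx.le 3)
  set G := a * pairP e o + 1 / 5 * (o ^ 4 * pairQ e) with hG
  have hG0 : 0 ≤ G := by
    have : 0 ≤ a := by linarith
    positivity
  have hG1 : G ≤ 1707 / 1000 := by
    have t := mul_le_mul ha' (pairP_le_one he ho) hP0 (by norm_num)
    linarith [pairQ_le he ho]
  have hd : 0 ≤ (e - m) ^ 2 := sq_nonneg _
  rcases le_or_gt |e| (46 / 100) with hs | hl
  · have hx2 : e ^ 2 ≤ 2116 / 10000 := by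
      rw [← sq_abs]
      have := pow_le_pow_left₀ (abs_nonneg e) hs 2
      linarith
    have q1 : pairQ e ≤ 1105 / 100 := pair_frac_le (sq_nonneg e) hx2
    have p1 : pairP e o ≤ 12685 / 10000 * o ^ 2 := by
      rw [pairP, div_le_iff₀ hx]
      calc o ^ 2 = o ^ 2 * 1 := (mul_one _).symm
        _ ≤ o ^ 2 * (12685 / 10000 * (1 - e ^ 2)) :=
            mul_le_mul_of_nonneg_left (by linarith) (sq_nonneg o)
        _ = _ := by ring
    have hxb : e ^ 2 ≤ 4 / 3 * m ^ 2 + 4 * (e - m) ^ 2 := by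
      linarith [sq_nonneg (e - 4 / 3 * m),
        show 4 / 3 * m ^ 2 + 4 * (e - m) ^ 2 - e ^ 2 = 3 * (e - 4 / 3 * m) ^ 2 by ring]
    have hGs : G ≤ 6431295 / 10000000 * o ^ 2 + 221 / 100 * o ^ 4 := by
      have t1 := mul_le_mul ha' p1 hP0 (by norm_num)
      have t2 := mul_le_mul_of_nonneg_left q1 (by positivity : (0:ℝ) ≤ o ^ 4)
      linarith
    calc e ^ 2 * G ≤ (4 / 3 * m ^ 2 + 4 * (e - m) ^ 2) * G := mul_le_mul_of_nonneg_right hxb hG0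
      _ = 4 / 3 * m ^ 2 * G + 4 * (e - m) ^ 2 * G := by ring
      _ ≤ 4 / 3 * m ^ 2 * (6431295 / 10000000 * o ^ 2 + 221 / 100 * o ^ 4)
          + 4 * (e - m) ^ 2 * (1707 / 1000) :=
          add_le_add (mul_le_mul_of_nonneg_left hGs (by positivity))
            (mul_le_mul_of_nonneg_left hG1 (by positivity))
      _ ≤ _ := by
          linarith [mul_nonneg (sq_nonneg m) (sq_nonneg o),
            mul_nonneg (sq_nonneg m) (by positivity : (0:ℝ) ≤ o ^ 4)]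
  · have hxb : e ^ 2 ≤ 4 * (e - m) ^ 2 := by
      have h : |e| ≤ |2 * (e - m)| := by
        have := abs_sub_abs_le_abs_sub e m
        rw [abs_mul, abs_two]
        linarith
      have := sq_le_sq.2 h
      linarith
    calc e ^ 2 * G ≤ 4 * (e - m) ^ 2 * (1707 / 1000) := mul_le_mul hxb hG1 hG0 (by positivity)
      _ ≤ _ := by
          have : 0 ≤ m ^ 2 * (858 / 1000 * o ^ 2 + 2947 / 1000 * o ^ 4) := by positivity
          linarith

/-- The bound on `avg phi (e ± o)` used for small correlations; `a` comes from `phi_anchored`. -/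
lemma pair_bound {a ρ : ℝ} (ha : 1 / 2 ≤ a) (ha' : a ≤ 507 / 1000)
    (hanch : ∀ x : ℝ, |x| ≤ 1 →
      phi x ≤ phi ρ + a * (x ^ 2 - ρ ^ 2) + 1 / 5 * (x ^ 2 - ρ ^ 2) ^ 2)
    {m e o : ℝ} (hm : |m| ≤ 23 / 100) (heo : |e| + |o| ≤ 1) :
    (phi (e + o) + phi (e - o)) / 2 ≤ phi m + atanhR m * (e - m) + phi ρ
      + a * (o ^ 2 - ρ ^ 2) + 1 / 5 * (o ^ 2 - ρ ^ 2) ^ 2 + 7655 / 1000 * (e - m) ^ 2
      + m ^ 2 * (858 / 1000 * o ^ 2 + 2947 / 1000 * o ^ 4) := by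
  have he : |e| ≤ 1 := by linarith [abs_nonneg o]
  have hT := phi_taylor hm he
  have hd0 : 0 ≤ (e - m) ^ 2 := sq_nonneg _
  rcases he.lt_or_eq with he1 | he1
  · obtain ⟨e1, e2⟩ := abs_lt.1 he1
    have ho : |o| ≤ 1 - |e| := by linarith
    have h1 := hanch (o / (1 + e)) (by
      rw [abs_div, abs_of_pos (by linarith : 0 < 1 + e), div_le_one (by linarith)]
      linarith [neg_abs_le e])
    have h2 := hanch (o / (1 - e)) (by
      rw [abs_div, abs_of_pos (by linarith : 0 < 1 - e), div_le_one (by linarith)]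
      linarith [le_abs_self e])
    have hp := phi_pair e1 e2 o
    have g1 := mul_le_mul_of_nonneg_left h1 (by linarith : 0 ≤ (1 + e) / 2)
    have g2 := mul_le_mul_of_nonneg_left h2 (by linarith : 0 ≤ (1 - e) / 2)
    have ident := pair_ident e1 e2 a o (ρ ^ 2) (phi ρ)
    have key := pair_key ha ha' hm he1 ho
    have hxP : 0 ≤ 2 / 5 * ρ ^ 2 * (e ^ 2 * pairP e o) := by
      have : 0 ≤ pairP e o := div_nonneg (sq_nonneg o)
        (sub_nonneg.2 ((sq_le_one_iff_abs_le_one e).2 he))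
      positivity
    rw [hp]
    linarith
  · have ho0 : o = 0 := abs_nonpos_iff.1 (by linarith)
    have h := hanch 0 (by simp)
    rw [phi_zero] at h
    subst ho0
    simp only [add_zero, sub_zero]
    norm_num at h ⊢
    linarith

end Vale.Agent.P322
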