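import Mathlib
import Vale.Agent.P322.Defs
import Vale.Agent.P322.PhiSeries
import Vale.Agent.P322.SmallCube
import Vale.Agent.P322.SmallPair

/-!
The inequality `info ρ f ≤ phi ρ` for signs `f` with mean at most `23 / 100` in absolute value and
`ρ ≤ 1 / 8`.
-/

namespace Vale.Agent.P322

open Real Finset Vale.Agent.P322.Small

variable {n : ℕ}

namespace Small

/-- The odd part under the antipodal map. -/
noncomputable def oddP (f : Cube n → ℝ) (x : Cube n) : ℝ := (f x - f (anti x)) / 2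

/-- The even part under the antipodal map. -/
noncomputable def evenP (f : Cube n → ℝ) (x : Cube n) : ℝ := (f x + f (anti x)) / 2

lemma avg_oddP (f : Cube n → ℝ) : avg (oddP f) = 0 := by
  unfold oddP
  simp only [div_eq_inv_mul, avg_const_mul, avg_sub, avg_anti, sub_self, mul_zero]

lemma avg_evenP (f : Cube n → ℝ) : avg (evenP f) = avg f := by
  unfold evenP
  simp only [div_eq_inv_mul, avg_const_mul, avg_add, avg_anti]
  ring

lemma coef_oddP (f : Cube n → ℝ) (i : Fin n) : coef (oddP f) i = coef f i := by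
  have h := coef_anti f i
  simp only [coef] at h ⊢
  rw [show (fun x => oddP f x * sgn (x i))
    = fun x => (1 / 2 : ℝ) * (f x * sgn (x i) - f (anti x) * sgn (x i)) by
      funext x; unfold oddP; ring, avg_const_mul, avg_sub, h]
  ring

lemma coef_evenP (f : Cube n → ℝ) (i : Fin n) : coef (evenP f) i = 0 := by
  have h := coef_anti f i
  simp only [coef] at h ⊢
  rw [show (fun x => evenP f x * sgn (x i))
    = fun x => (1 / 2 : ℝ) * (f x * sgn (x i) + f (anti x) * sgn (x i)) by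
      funext x; unfold evenP; ring, avg_const_mul, avg_add, h]
  ring

lemma avg_mul_lin (g : Cube n → ℝ) (a : Fin n → ℝ) :
    avg (fun x => g x * lin a x) = ∑ i, a i * coef g i := by
  simp only [avg, lin, coef, mul_div_assoc', mul_sum, ← sum_div]
  rw [sum_comm]
  congr 1
  exact sum_congr rfl fun i _ => sum_congr rfl fun x _ => by ring

/-- The second moment of `L² - S` is controlled by the defect `1 - S`. -/
lemma lin_sq_dev (a : Fin n → ℝ) (hS : ∑ i, a i ^ 2 ≤ 1)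
    (hL : ∑ i, a i ^ 2 ≤ avg fun x => |lin a x|) :
    avg (fun x => (lin a x ^ 2 - 1) ^ 2) ≤ 1048 / 100 * (1 - ∑ i, a i ^ 2) := by
  obtain ⟨h2, h4, h6⟩ := lin_moments a
  set S := ∑ i, a i ^ 2 with hSdef
  set P4 := ∑ i, a i ^ 4
  set L := lin a
  have hS0 : 0 ≤ S := sum_nonneg fun i _ => sq_nonneg _
  have hP6 : ∑ i, a i ^ 6 ≤ S * P4 := by
    rw [mul_sum]
    refine sum_le_sum fun i _ => ?_
    rw [show a i ^ 6 = a i ^ 2 * a i ^ 4 by ring]
    exact mul_le_mul_of_nonneg_right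
      (single_le_sum (f := fun j => a j ^ 2) (fun j _ => sq_nonneg _) (mem_univ i)) (by positivity)
  set Z := avg (fun x => (L x ^ 2 - S) ^ 2) with hZ
  have hZ0 : 0 ≤ Z := avg_nonneg fun _ => sq_nonneg _
  have eZ : Z = 2 * S ^ 2 - 2 * P4 := by
    rw [hZ, show (fun x => (L x ^ 2 - S) ^ 2) = fun x => L x ^ 4 + (-2 * S) * L x ^ 2 + S ^ 2 by
      funext x; ring]
    simp only [avg_add, avg_const_mul, avg_const, h2, h4]
    ring
  have eW : avg (fun x => (L x ^ 2 - S) ^ 2 * L x ^ 2) ≤ 5 * S * Z := by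
    rw [show (fun x => (L x ^ 2 - S) ^ 2 * L x ^ 2)
      = fun x => L x ^ 6 + (-2 * S) * L x ^ 4 + S ^ 2 * L x ^ 2 by funext x; ring]
    simp only [avg_add, avg_const_mul, h2, h4, h6, eZ]
    nlinarith
  set s := Real.sqrt S with hs
  have hs0 : 0 ≤ s := Real.sqrt_nonneg S
  have hss : s ^ 2 = S := Real.sq_sqrt hS0
  have hs1 : s ≤ 1 := Real.sqrt_le_one.2 hS
  have hA : avg (fun x => (|L x| - s) ^ 2) ≤ 2 * S * (1 - s) := by
    rw [show (fun x => (|L x| - s) ^ 2) = fun x => L x ^ 2 + (-2 * s) * |L x| + S by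
      funext x; rw [← hss, ← sq_abs (L x)]; ring]
    simp only [avg_add, avg_const_mul, avg_const, h2]
    have := mul_le_mul_of_nonneg_left hL hs0
    linarith
  have hB : avg (fun x => ((L x ^ 2 - S) * (|L x| + s)) ^ 2) ≤ 1048 / 100 * S * Z := by
    have h : ∀ x, ((L x ^ 2 - S) * (|L x| + s)) ^ 2
        ≤ 29 / 20 * ((L x ^ 2 - S) ^ 2 * L x ^ 2) + 29 / 9 * S * (L x ^ 2 - S) ^ 2 := by
      intro x
      have t : (|L x| + s) ^ 2 ≤ 29 / 20 * L x ^ 2 + 29 / 9 * S := by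
        rw [← hss, ← sq_abs (L x)]
        linarith [show 29 / 20 * |L x| ^ 2 + 29 / 9 * s ^ 2 - (|L x| + s) ^ 2
          = 1 / 180 * (9 * |L x| - 20 * s) ^ 2 by ring, sq_nonneg (9 * |L x| - 20 * s)]
      rw [mul_pow]
      have := mul_le_mul_of_nonneg_left t (sq_nonneg (L x ^ 2 - S))
      linarith
    have h' := avg_mono h
    rw [avg_add, avg_const_mul, avg_const_mul, ← hZ] at h'
    have : 0 ≤ S * Z := mul_nonneg hS0 hZ0
    linarith
  have hcs := avg_mul_sq_le (fun x => |L x| - s) (fun x => (L x ^ 2 - S) * (|L x| + s))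
  rw [show (fun x => (|L x| - s) * ((L x ^ 2 - S) * (|L x| + s)))
      = fun x => (L x ^ 2 - S) ^ 2 by funext x; rw [← hss, ← sq_abs (L x)]; ring] at hcs
  have hZ' : Z ≤ 1048 / 100 * (2 * S ^ 2 * (1 - s)) := by
    rcases hZ0.lt_or_eq with hp | hp
    · have h : Z ^ 2 ≤ 2 * S * (1 - s) * (1048 / 100 * S * Z) :=
        hcs.trans (mul_le_mul hA hB (avg_nonneg fun _ => sq_nonneg _) (by nlinarith))
      nlinarith
    · rw [← hp]
      have : 0 ≤ 1 - s := by linarith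
      positivity
  have e1 : avg (fun x => (L x ^ 2 - 1) ^ 2) = Z + (1 - S) ^ 2 := by
    rw [hZ, show (fun x => (L x ^ 2 - 1) ^ 2)
      = fun x => (L x ^ 2 - S) ^ 2 + ((-2 * (1 - S)) * L x ^ 2 + (2 * S * (1 - S) + (1 - S) ^ 2)) by
        funext x; ring]
    simp only [avg_add, avg_const_mul, avg_const, h2]
    ring
  rw [e1, ← hss]
  rw [← hss] at hZ'
  have key : 2 * s ^ 4 * (1 - s) + (1 - s ^ 2) ^ 2 ≤ 1 - s ^ 2 := by
    have : 2 * s ^ 4 ≤ s ^ 2 * (1 + s) := by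
      have : s ^ 2 ≤ s := by nlinarith
      nlinarith [sq_nonneg s]
    nlinarith
  have hsq := sq_nonneg (1 - s ^ 2)
  linarith

lemma three_sq (x y z : ℝ) : (x + y + z) ^ 2
    ≤ 4371 / 1000 * (100 / 324 * x ^ 2 + 100 / 99 * y ^ 2 + 1000 / 141 * z ^ 2) := by
  have e : 4371 / 1000 * (100 / 324 * x ^ 2 + 100 / 99 * y ^ 2 + 1000 / 141 * z ^ 2) - (x + y + z) ^ 2
      = 324 * 99 / 10000 * (100 / 324 * x - 100 / 99 * y) ^ 2
        + 324 * 141 / 100000 * (100 / 324 * x - 1000 / 141 * z) ^ 2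
        + 99 * 141 / 100000 * (100 / 99 * y - 1000 / 141 * z) ^ 2 := by ring
  linarith [sq_nonneg (100 / 324 * x - 100 / 99 * y), sq_nonneg (100 / 324 * x - 1000 / 141 * z),
    sq_nonneg (100 / 99 * y - 1000 / 141 * z)]

lemma sq_dev_bound (L w o : Cube n → ℝ) {ρ r ε : ℝ} (hr : r = ρ ^ 2) (hr1 : r ≤ 1 / 64)
    (hr0 : 0 ≤ r) (hε0 : 0 ≤ ε) (hε1 : ε ≤ 1) (how : ∀ y, o y = ρ * L y + w y)
    (hQ : avg (fun x => (L x ^ 2 - 1) ^ 2) ≤ 1048 / 100 * ε)
    (hcross : avg (fun y => L y ^ 2 * w y ^ 2) ≤ 156 / 10 * r ^ 2 * ε)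
    (hw4 : avg (fun y => w y ^ 4) ≤ (9 * r ^ 2 * ε) ^ 2) :
    avg (fun y => (o y ^ 2 - r) ^ 2) ≤ 191 / 10 * r ^ 2 * ε := by
  have hp : ∀ y, (o y ^ 2 - r) ^ 2 ≤ 4371 / 1000 * (100 / 324 * (r ^ 2 * (L y ^ 2 - 1) ^ 2)
      + 100 / 99 * ((4 * r) * (L y ^ 2 * w y ^ 2)) + 1000 / 141 * w y ^ 4) := by
    intro y
    rw [show o y ^ 2 - r = r * (L y ^ 2 - 1) + 2 * (ρ * (L y * w y)) + w y ^ 2 by
      rw [how y, hr]; ring]
    set x1 := r * (L y ^ 2 - 1) with hx1
    set x2 := 2 * (ρ * (L y * w y)) with hx2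
    set x3 := w y ^ 2 with hx3
    rw [show r ^ 2 * (L y ^ 2 - 1) ^ 2 = x1 ^ 2 by rw [hx1]; ring,
      show (4 * r) * (L y ^ 2 * w y ^ 2) = x2 ^ 2 by rw [hx2, hr]; ring,
      show w y ^ 4 = x3 ^ 2 by rw [hx3]; ring]
    exact three_sq x1 x2 x3
  have h' := avg_mono hp
  simp only [avg_const_mul, avg_add] at h'
  have t1 := mul_le_mul_of_nonneg_left hQ (sq_nonneg r)
  have t2 : 4 * r * avg (fun y => L y ^ 2 * w y ^ 2) ≤ 975 / 1000 * (r ^ 2 * ε) := by
    calc 4 * r * avg (fun y => L y ^ 2 * w y ^ 2) ≤ 4 * (1 / 64) * (156 / 10 * r ^ 2 * ε) :=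
          mul_le_mul (by linarith) hcross (avg_nonneg fun _ => by positivity) (by norm_num)
      _ = _ := by ring
  have t3 : (9 * r ^ 2 * ε) ^ 2 ≤ 19776 / 1000000 * (r ^ 2 * ε) := by
    have : r ^ 2 * ε ≤ (1 / 64) ^ 2 * 1 :=
      mul_le_mul (pow_le_pow_left₀ hr0 hr1 2) hε1 hε0 (by norm_num)
    calc (9 * r ^ 2 * ε) ^ 2 = 81 * (r ^ 2 * ε) * (r ^ 2 * ε) := by ring
      _ ≤ 81 * ((1 / 64) ^ 2 * 1) * (r ^ 2 * ε) :=
          mul_le_mul_of_nonneg_right (by linarith) (by positivity)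
      _ ≤ _ := mul_le_mul_of_nonneg_right (by norm_num) (by positivity)
  have : 0 ≤ r ^ 2 * ε := by positivity
  linarith

lemma collect {a r ε m O2 O4 E2 D4 x phiρ phim : ℝ} (hr0 : 0 ≤ r) (hr1 : r ≤ 1 / 64) (hε0 : 0 ≤ ε)
    (ha : 1 / 2 ≤ a) (hm : |m| ≤ 23 / 100) (hmle : |m| ≤ ε)
    (ho2 : O2 ≤ r * (1 - ε) + r ^ 2 * ε) (he2 : E2 ≤ r ^ 2 * ε) (hO2 : 0 ≤ O2) (hO4 : 0 ≤ O4)
    (ho4 : O4 ≤ 9 * r ^ 2) (hb : D4 ≤ 191 / 10 * r ^ 2 * ε)
    (hpt : x ≤ phim + phiρ - a * r + a * O2 + 1 / 5 * D4 + 7655 / 1000 * E2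
      + 858 / 1000 * m ^ 2 * O2 + 2947 / 1000 * m ^ 2 * O4) :
    x - phim ≤ phiρ := by
  have hrε : 0 ≤ r * ε := by positivity
  have hm2 : m ^ 2 ≤ 23 / 100 * ε := by
    rw [← sq_abs, pow_two]
    exact mul_le_mul hm hmle (abs_nonneg m) (by norm_num)
  have hrr : r ^ 2 * ε ≤ 1 / 64 * (r * ε) := by
    rw [show r ^ 2 * ε = r * (r * ε) by ring]
    exact mul_le_mul_of_nonneg_right hr1 hrε
  have k1 : a * O2 ≤ a * r - 63 / 128 * (r * ε) := by
    have h1 := mul_le_mul_of_nonneg_left ho2 (by linarith : (0:ℝ) ≤ a)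
    have hd : 63 / 64 * (r * ε) ≤ r * ε - r ^ 2 * ε := by linarith
    have h3 := mul_le_mul ha hd (by positivity) (by linarith)
    linarith
  have k2 : 858 / 1000 * m ^ 2 * O2 ≤ 19734 / 100000 * (r * ε) := by
    have hor : O2 ≤ r := by linarith
    calc 858 / 1000 * m ^ 2 * O2 ≤ 858 / 1000 * (23 / 100 * ε) * r :=
          mul_le_mul (by linarith) hor hO2 (by positivity)
      _ = _ := by ring
  have k3 : 2947 / 1000 * m ^ 2 * O4 ≤ 96 / 1000 * (r * ε) := by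
    calc 2947 / 1000 * m ^ 2 * O4
        ≤ 2947 / 1000 * (23 / 100 * ε) * (9 * r ^ 2) :=
          mul_le_mul (by linarith) ho4 hO4 (by positivity)
      _ = 2947 * 23 * 9 / 100000 * (r ^ 2 * ε) := by ring
      _ ≤ _ := by linarith
  linarith

end Small

/-- Small correlations and small means. -/
theorem info_small (f : Cube n → ℝ) (hf : ∀ x, f x = 1 ∨ f x = -1)
    (hm : |avg f| ≤ 23 / 100) {ρ : ℝ} (hρ0 : 0 ≤ ρ) (hρ : ρ ≤ 1 / 8) :
    info ρ f ≤ phi ρ := by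
  obtain ⟨a, ha, ha', hanch⟩ := phi_anchored hρ0 hρ
  set m := avg f with hmdef
  set r := ρ ^ 2 with hr
  have hr0 : 0 ≤ r := sq_nonneg ρ
  have hr1 : r ≤ 1 / 64 := by nlinarith
  have hρ1 : |ρ| ≤ 1 := abs_le.2 ⟨by linarith, by linarith⟩
  have hρ2 : ρ ^ 2 ≤ 1 := by linarith
  set A := fun i => coef f i with hA
  set ε := 1 - ∑ i, A i ^ 2 with hε
  set fo := oddP f with hfo
  set fe := evenP f with hfe
  have hf1 : ∀ x, |f x| ≤ 1 := fun x => by rcases hf x with h | h <;> simp [h]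
  have hfo1 : avg (fun x => fo x ^ 2) + avg (fun x => fe x ^ 2) = 1 := by
    rw [← avg_add]
    rw [show (fun x => fo x ^ 2 + fe x ^ 2) = fun _ => (1:ℝ) by
      funext x; simp only [hfo, hfe, oddP, evenP]
      rcases hf x with h | h <;> rcases hf (anti x) with h' | h' <;> rw [h, h'] <;> norm_num]
    exact avg_const 1
  have hlev : lev1 fo = ∑ i, A i ^ 2 := by
    simp [lev1, hfo, coef_oddP, hA]
  have hbes := bessel fo
  rw [avg_oddP, hlev] at hbes
  have hfe0 : 0 ≤ avg (fun x => fe x ^ 2) := avg_nonneg fun _ => sq_nonneg _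
  have hfe1 : avg (fun x => fe x ^ 2) ≤ ε := by rw [hε]; linarith
  have hmle : |m| ≤ ε := by
    refine le_trans ?_ hfe1
    rw [hmdef, ← avg_evenP f]
    refine (abs_avg_le _).trans (avg_mono fun x => ?_)
    simp only [hfe, evenP]
    rcases hf x with h | h <;> rcases hf (anti x) with h' | h' <;> rw [h, h'] <;> norm_num
  have hε0 : 0 ≤ ε := (abs_nonneg m).trans hmle
  have hε1 : ε ≤ 1 := by
    have : 0 ≤ ∑ i, A i ^ 2 := sum_nonneg fun i _ => sq_nonneg _
    linarith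
  set L := lin A with hLdef
  have hL1 : ∑ i, A i ^ 2 ≤ avg fun x => |L x| := by
    have h := avg_mul_lin f A
    have e : ∑ i, A i ^ 2 = avg fun x => f x * L x := by
      rw [hLdef, h]; exact sum_congr rfl fun i _ => by rw [hA]; ring
    rw [e]
    refine avg_mono fun x => ?_
    rcases hf x with h | h <;> rw [h]
    · simp [le_abs_self]
    · simp [neg_le_abs]
  set u := T ρ f with hu
  set o := T ρ fo with ho
  set e := T ρ fe with he
  have hsplit : ∀ y, u y = e y + o y ∧ u (anti y) = e y - o y := by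
    intro y
    rw [hu, he, ho, ← T_anti ρ f y, ← T_add, ← T_sub]
    constructor <;> (congr 1; funext x; simp only [hfo, hfe, oddP, evenP]; ring)
  have heo : ∀ y, |e y| + |o y| ≤ 1 := by
    intro y
    obtain ⟨h1, h2⟩ := hsplit y
    have b1 := abs_le.1 (abs_T_le hρ1 hf1 y)
    have b2 := abs_le.1 (abs_T_le hρ1 hf1 (anti y))
    rw [← hu] at b1 b2
    rw [h1] at b1; rw [h2] at b2
    rcases abs_cases (e y) with ⟨a1, _⟩ | ⟨a1, _⟩ <;>
      rcases abs_cases (o y) with ⟨a2, _⟩ | ⟨a2, _⟩ <;> linarith [b1.1, b1.2, b2.1, b2.2]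
  have hinfo : info ρ f = avg (fun y => (phi (e y + o y) + phi (e y - o y)) / 2) - phi m := by
    unfold info
    rw [← hu, ← hmdef]
    congr 1
    have h := avg_anti (fun y => phi (u y))
    rw [show (fun y => (phi (e y + o y) + phi (e y - o y)) / 2)
      = fun y => (1 / 2 : ℝ) * (phi (u y) + phi (u (anti y))) by
        funext y; rw [(hsplit y).1, (hsplit y).2]; ring]
    rw [avg_const_mul, avg_add, h]
    ring
  have hpt := avg_mono fun y => pair_bound ha ha' hanch hm (heo y)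
  rw [show (fun y => phi m + atanhR m * (e y - m) + phi ρ + a * (o y ^ 2 - ρ ^ 2)
        + 1 / 5 * (o y ^ 2 - ρ ^ 2) ^ 2 + 7655 / 1000 * (e y - m) ^ 2
        + m ^ 2 * (858 / 1000 * o y ^ 2 + 2947 / 1000 * o y ^ 4))
      = fun y => phi m + phi ρ - a * r + atanhR m * (e y - m) + a * o y ^ 2
        + 1 / 5 * (o y ^ 2 - r) ^ 2 + 7655 / 1000 * (e y - m) ^ 2
        + (858 / 1000 * m ^ 2) * o y ^ 2 + (2947 / 1000 * m ^ 2) * o y ^ 4 by
      funext y; ring] at hpt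
  simp only [avg_add, avg_const_mul, avg_const, avg_sub] at hpt
  have hem : avg e = m := by rw [he, avg_T, hfe, avg_evenP]
  rw [hem, sub_self, mul_zero, add_zero] at hpt
  have ho2 : avg (fun y => o y ^ 2) ≤ r * (1 - ε) + r ^ 2 * ε := by
    have h := energy hρ2 fo
    rw [avg_oddP, hlev, ← ho] at h
    have : ρ ^ 4 * (avg (fun x => fo x ^ 2) - 0 ^ 2 - ∑ i, A i ^ 2) ≤ r ^ 2 * ε := by
      rw [hr, ← pow_mul]
      exact mul_le_mul_of_nonneg_left (by rw [hε]; linarith) (by positivity)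
    rw [← hr] at h
    linarith [show r * ∑ i, A i ^ 2 = r * (1 - ε) by rw [hε]; ring]
  have he2 : avg (fun y => (e y - m) ^ 2) ≤ r ^ 2 * ε := by
    have h := energy hρ2 fe
    have hz : lev1 fe = 0 := by simp [lev1, hfe, coef_evenP]
    rw [avg_evenP, hz, ← he, ← hmdef] at h
    rw [show (fun y => (e y - m) ^ 2) = fun y => e y ^ 2 + (-2 * m) * e y + m ^ 2 by funext y; ring]
    simp only [avg_add, avg_const_mul, avg_const]
    rw [hem]
    have : ρ ^ 4 * (avg (fun x => fe x ^ 2) - m ^ 2 - 0) ≤ r ^ 2 * ε := by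
      rw [hr, ← pow_mul]
      exact mul_le_mul_of_nonneg_left (by linarith [sq_nonneg m]) (by positivity)
    linarith
  set σ := Real.sqrt 3 * ρ with hσdef
  have hσ : σ ^ 2 = 3 * r := by rw [hσdef, mul_pow, Real.sq_sqrt (by norm_num)]
  have hσ1 : σ ^ 2 ≤ 1 := by linarith
  have hσ4 : σ ^ 4 = 9 * r ^ 2 := by
    rw [show σ ^ 4 = (σ ^ 2) ^ 2 by ring, hσ]; ring
  have ho4 : avg (fun y => o y ^ 4) ≤ 9 * r ^ 2 := by
    refine (fourth (σ := σ) (le_of_eq hσ.symm) fo).trans ?_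
    have h := energy hσ1 fo
    rw [avg_oddP, hlev, hσ, hσ4] at h
    have hr2 : 9 * r ^ 2 ≤ 3 * r := by nlinarith
    have hrest : 0 ≤ avg (fun x => fo x ^ 2) - 0 ^ 2 - ∑ i, A i ^ 2 := by linarith
    have := mul_le_mul_of_nonneg_right hr2 hrest
    have hle : avg (fun x => T σ fo x ^ 2) ≤ 3 * r := by
      have : 3 * r * avg (fun x => fo x ^ 2) ≤ 3 * r * 1 :=
        mul_le_mul_of_nonneg_left (by linarith) (by linarith)
      linarith
    calc avg (fun x => T σ fo x ^ 2) ^ 2 ≤ (3 * r) ^ 2 :=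
          pow_le_pow_left₀ (avg_nonneg fun _ => sq_nonneg _) hle 2
      _ = _ := by ring
  set h := fun x => fo x - L x with hh
  set w := T ρ h with hw
  have how : ∀ y, o y = ρ * L y + w y := by
    intro y
    rw [hw, hh, T_sub, ho, hLdef, T_lin]
    ring
  have hlh : lev1 h = 0 := by
    unfold lev1
    refine sum_eq_zero fun i _ => ?_
    have h1 := coef_lin A i
    have h2 := coef_oddP f i
    unfold coef at h1 h2 ⊢
    rw [show (fun x => h x * sgn (x i)) = fun x => fo x * sgn (x i) - L x * sgn (x i) by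
      funext x; simp only [hh]; ring, avg_sub, h2, h1]
    simp [hA, coef]
  have hh2 : avg (fun x => h x ^ 2) ≤ ε := by
    rw [show (fun x => h x ^ 2) = fun x => fo x ^ 2 + (-2) * (fo x * L x) + L x ^ 2 by
      funext x; simp only [hh]; ring]
    simp only [avg_add, avg_const_mul]
    rw [hLdef, avg_mul_lin, (lin_moments A).1]
    rw [show ∑ i, A i * coef fo i = ∑ i, A i ^ 2 from
      sum_congr rfl fun i _ => by rw [hfo, coef_oddP, hA]; ring]
    rw [hε]; linarith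
  have hw4 : avg (fun y => w y ^ 4) ≤ (9 * r ^ 2 * ε) ^ 2 := by
    refine (fourth (σ := σ) (le_of_eq hσ.symm) h).trans ?_
    refine pow_le_pow_left₀ (avg_nonneg fun _ => sq_nonneg _) ?_ 2
    have he := energy hσ1 h
    have h0 : avg h = 0 := by rw [hh, avg_sub, avg_oddP, hLdef, avg_lin, sub_zero]
    rw [h0, hlh, hσ4] at he
    have := mul_le_mul_of_nonneg_left hh2 (by positivity : (0:ℝ) ≤ 9 * r ^ 2)
    linarith
  have hQ := lin_sq_dev A (by linarith) hL1
  rw [← hε, ← hLdef] at hQ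
  have hcross : avg (fun y => L y ^ 2 * w y ^ 2) ≤ 156 / 10 * r ^ 2 * ε := by
    refine le_of_pow_le_pow_left₀ two_ne_zero (by positivity) ?_
    refine (avg_mul_sq_le _ _).trans ?_
    have h4 : avg (fun y => (L y ^ 2) ^ 2) ≤ 3 := by
      rw [show (fun y => (L y ^ 2) ^ 2) = fun y => L y ^ 4 by funext y; ring, hLdef,
        (lin_moments A).2.1]
      have h1 : (∑ i, A i ^ 2) ^ 2 ≤ 1 :=
        pow_le_one₀ (sum_nonneg fun i _ => sq_nonneg _) (by linarith)
      have h2 : 0 ≤ ∑ i, A i ^ 4 := sum_nonneg fun i _ => by positivity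
      linarith
    have hw4' : avg (fun y => (w y ^ 2) ^ 2) ≤ (9 * r ^ 2 * ε) ^ 2 := by
      rw [show (fun y => (w y ^ 2) ^ 2) = fun y => w y ^ 4 by funext y; ring]; exact hw4
    calc _ ≤ 3 * (9 * r ^ 2 * ε) ^ 2 :=
          mul_le_mul h4 hw4' (avg_nonneg fun _ => sq_nonneg _) (by norm_num)
      _ ≤ _ := by linarith [sq_nonneg (r ^ 2 * ε)]
  have hb : avg (fun y => (o y ^ 2 - r) ^ 2) ≤ 191 / 10 * r ^ 2 * ε :=
    sq_dev_bound L w o hr hr1 hr0 hε0 hε1 how hQ hcross hw4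
  rw [hinfo]
  exact collect hr0 hr1 hε0 ha hm hmle ho2 he2 (avg_nonneg fun _ => sq_nonneg _)
    (avg_nonneg fun _ => by positivity) ho4 hb hpt

end Vale.Agent.P322
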