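import Mathlib
import Vale.Agent.P322.Defs
import Vale.Agent.P322.PhiSeries
import Vale.Agent.P322.SmallCube
import Vale.Agent.P322.Compare
import Vale.Agent.P322.Small
import Vale.Agent.P322.Flow

/-!
Assembly: the strengthened logarithmic Sobolev inequality gives `info ρ f ≤ phi ρ` for all sign
functions and all correlations.
-/

namespace Vale.Agent.P322

open Real Set Vale.Agent.P322.Small

variable {n : ℕ}

/-- The gap `avg phi u - phi (avg u)`. -/
noncomputable def gap (u : Cube n → ℝ) : ℝ := avg (fun x => phi (u x)) - phi (avg u)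

lemma avg_eq_T (ρ : ℝ) (f : Cube n → ℝ) : gap (T ρ f) = info ρ f := by
  unfold gap info
  rw [avg_T]

/-- The whole range of correlations, given the form bound for functions with values in `(-1, 1)`. -/
theorem info_le_of_formBound {τ : ℝ} (hτ0 : 0 ≤ τ) (hτ1 : τ ≤ 3 / 100)
    (hlin : ∀ u : Cube n → ℝ, (∀ x, |u x| < 1) → 2 * gap u ≤ form u)
    (hR : ∀ u : Cube n → ℝ, (∀ x, |u x| < 1) → ∀ s : ℝ, 0 ≤ s → s < 1 →
      offs (avg u) τ + wgt (avg u) τ * phi s ≤ gap u →
      2 * gap u + wgt (avg u) τ * (s * atanhR s - 2 * phi s) ≤ form u)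
    (f : Cube n → ℝ) (hf : ∀ x, f x = 1 ∨ f x = -1) {ρ : ℝ} (hρ0 : 0 ≤ ρ) (hρ1 : ρ ≤ 1) :
    info ρ f ≤ phi ρ := by
  have hf1 : ∀ x, |f x| ≤ 1 := fun x => by rcases hf x with h | h <;> simp [h]
  have hm1 : |avg f| ≤ 1 := (abs_avg_le f).trans ((avg_mono hf1).trans_eq (avg_const 1))
  rcases hm1.lt_or_eq with hm | hm
  · rcases le_or_gt ρ (1 / 8) with hs | hl
    · rcases le_or_gt |avg f| (23 / 100) with hm' | hm'
      · exact info_small f hf hm' hρ0 hs
      rcases hρ0.lt_or_eq with h0 | h0
      · exact compare_low (K := fun t => info t f) (K' := fun t => form (T t f) / t) hm hm'.le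
          hτ0 hτ1 (continuousOn_info f _) (fun x hx => hasDerivAt_info hf1 hm hx.1 hx.2)
          (fun x hx => by
            have h := hlin (T x f) fun y =>
              abs_T_lt_one (abs_lt.2 ⟨by linarith [hx.1], hx.2⟩) hf1 hm y
            rw [avg_eq_T] at h
            rwa [mul_div_cancel₀ _ hx.1.ne'])
          (fun x hx s hs0 hs1 hK => by
            have h := hR (T x f) (fun y =>
              abs_T_lt_one (abs_lt.2 ⟨by linarith [hx.1], hx.2⟩) hf1 hm y) s hs0 hs1
            rw [avg_eq_T, avg_T] at h
            rw [mul_div_cancel₀ _ hx.1.ne']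
            exact h hK)
          (info_one f hf).le h0 hs
      · subst h0
        have : info 0 f = 0 := by
          unfold info
          have h : ∀ y, T 0 f y = avg f := fun y => by
            simp only [T, kern, zero_mul, add_zero, Finset.prod_const, Finset.card_univ,
              Fintype.card_fin, avg, Finset.sum_div]
            exact Finset.sum_congr rfl fun x _ => by rw [div_pow, one_pow]; ring
          simp only [h, avg_const, sub_self]
        rw [this, phi_zero]
    · exact compare (K := fun t => info t f) (K' := fun t => form (T t f) / t) hm hτ0 hτ1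
        (continuousOn_info f _) (fun x hx => hasDerivAt_info hf1 hm hx.1 hx.2)
        (fun x hx => by
          have h := hlin (T x f) fun y =>
            abs_T_lt_one (abs_lt.2 ⟨by linarith [hx.1], hx.2⟩) hf1 hm y
          rw [avg_eq_T] at h
          rwa [mul_div_cancel₀ _ hx.1.ne'])
        (fun x hx s hs0 hs1 hK => by
          have h := hR (T x f) (fun y =>
            abs_T_lt_one (abs_lt.2 ⟨by linarith [hx.1], hx.2⟩) hf1 hm y) s hs0 hs1
          rw [avg_eq_T, avg_T] at h
          rw [mul_div_cancel₀ _ hx.1.ne']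
          exact h hK)
        (info_one f hf).le hl.le hρ1
  · have hmm : phi (avg f) = log 2 := by
      rcases eq_or_eq_neg_of_abs_eq hm with h | h <;> rw [h] <;> simp [phi_neg, phi_one]
    have h1 : avg (fun y => phi (T ρ f y)) ≤ log 2 := by
      rw [← avg_const (n := n) (log 2)]
      refine avg_mono fun y => ?_
      have hy := abs_T_le (ρ := ρ) (abs_le.2 ⟨by linarith, hρ1⟩) hf1 y
      have h1 := phi_le_log_two_mul_sq hy
      have h2 : log 2 * (T ρ f y) ^ 2 ≤ log 2 * 1 :=
        mul_le_mul_of_nonneg_left ((sq_le_one_iff_abs_le_one _).2 hy) (log_pos one_lt_two).le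
      linarith
    have h0 := phi_nonneg (x := ρ) (abs_le.2 ⟨by linarith, hρ1⟩)
    unfold info
    rw [hmm]
    linarith

end Vale.Agent.P322
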