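import Mathlib
import Vale.Agent.P322.Defs
import Vale.Agent.P322.PhiSeries
import Vale.Agent.P322.Compare

/-!
Calculus helpers for the strengthened log-Sobolev inequality.
-/

namespace Vale.Agent.P322

open Real Set Filter Topology

lemma hasDerivAt_ent {x : ℝ} (h1 : -1 < x) (h2 : x < 1) : HasDerivAt ent (-atanhR x) x :=
  (hasDerivAt_phi h1 h2).const_sub (log 2)

lemma continuous_ent : Continuous ent := continuous_const.sub continuous_phi

lemma continuousAt_atanhR {x : ℝ} (h1 : -1 < x) (h2 : x < 1) : ContinuousAt atanhR x :=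
  (hasDerivAt_atanhR h1 h2).continuousAt

lemma atanhR_zero : atanhR 0 = 0 := by simp [atanhR]

lemma ent_zero : ent 0 = log 2 := by simp [ent, phi_zero]

lemma ent_one : ent 1 = 0 := by simp [ent, phi_one]

lemma ent_neg (x : ℝ) : ent (-x) = ent x := by simp [ent, phi_neg]

lemma self_le_atanhR {x : ℝ} (h0 : 0 ≤ x) (h1 : x < 1) : x ≤ atanhR x := by
  have := atanhR_ge_cubic h0 h1
  have : 0 ≤ x ^ 3 := pow_nonneg h0 3
  linarith

lemma atanhR_pos {x : ℝ} (h0 : 0 < x) (h1 : x < 1) : 0 < atanhR x :=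
  lt_of_lt_of_le h0 (self_le_atanhR h0.le h1)

/-- A function whose derivative changes sign at most once, from `+` to `-`, is nonnegative as soon
as it is nonnegative at both ends. -/
lemma nonneg_of_deriv_sign {f f' : ℝ → ℝ} {a b : ℝ} (hc : ContinuousOn f (Icc a b))
    (hd : ∀ x ∈ Ioo a b, HasDerivAt f (f' x) x)
    (hsgn : ∀ x ∈ Ioo a b, ∀ y ∈ Ioo a b, x ≤ y → f' x < 0 → f' y ≤ 0)
    (ha : 0 ≤ f a) (hb : 0 ≤ f b) {x : ℝ} (hx : x ∈ Icc a b) : 0 ≤ f x := by
  by_contra hneg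
  rw [not_le] at hneg
  have hax : a < x := by
    rcases hx.1.lt_or_eq with h | h
    · exact h
    · subst h; linarith
  obtain ⟨c, hc', hc''⟩ := exists_hasDerivAt_eq_slope f f' hax
    (hc.mono (Icc_subset_Icc le_rfl hx.2)) fun y hy => hd y ⟨hy.1, lt_of_lt_of_le hy.2 hx.2⟩
  have hfc : f' c < 0 := by
    rw [hc'']
    exact div_neg_of_neg_of_pos (by linarith) (by linarith)
  have hmono : AntitoneOn f (Icc x b) :=
    antitoneOn_of_hasDerivWithinAt_nonpos (convex_Icc x b)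
      (hc.mono (Icc_subset_Icc hx.1 le_rfl))
      (fun y hy => (hd y (by rw [interior_Icc] at hy; exact ⟨lt_trans hax hy.1, hy.2⟩)).hasDerivWithinAt)
      (fun y hy => by
        rw [interior_Icc] at hy
        exact hsgn c ⟨hc'.1, lt_of_lt_of_le hc'.2 hx.2⟩ y ⟨lt_trans hax hy.1, hy.2⟩
          (le_of_lt (lt_trans hc'.2 hy.1)) hfc)
  have := hmono (left_mem_Icc.2 hx.2) (right_mem_Icc.2 hx.2) hx.2
  linarith

/-- If the derivative changes sign at most once from `+` to `-` and `f` starts at `0`,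
then so does `f`. -/
lemma sign_of_deriv_sign {f f' : ℝ → ℝ} {a b : ℝ} (hc : ContinuousOn f (Ico a b))
    (hd : ∀ x ∈ Ioo a b, HasDerivAt f (f' x) x)
    (hsgn : ∀ x ∈ Ioo a b, ∀ y ∈ Ioo a b, x ≤ y → f' x < 0 → f' y ≤ 0)
    (ha : f a = 0) {x y : ℝ} (hx : x ∈ Ioo a b) (hy : y ∈ Ioo a b) (hxy : x ≤ y) (hneg : f x < 0) :
    f y ≤ 0 := by
  obtain ⟨c, hc', hc''⟩ := exists_hasDerivAt_eq_slope f f' hx.1
    (hc.mono fun z hz => ⟨hz.1, lt_of_le_of_lt hz.2 hx.2⟩)
    fun z hz => hd z ⟨hz.1, lt_trans hz.2 hx.2⟩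
  have hfc : f' c < 0 := by
    rw [hc'']
    exact div_neg_of_neg_of_pos (by linarith) (by linarith [hx.1])
  have hmono : AntitoneOn f (Icc x y) :=
    antitoneOn_of_hasDerivWithinAt_nonpos (convex_Icc x y)
      (hc.mono fun z hz => ⟨le_trans hx.1.le hz.1, lt_of_le_of_lt hz.2 hy.2⟩)
      (fun z hz => by
        rw [interior_Icc] at hz
        exact (hd z ⟨lt_trans hx.1 hz.1, lt_trans hz.2 hy.2⟩).hasDerivWithinAt)
      (fun z hz => by
        rw [interior_Icc] at hz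
        exact hsgn c ⟨hc'.1, lt_trans hc'.2 hx.2⟩ z ⟨lt_trans hx.1 hz.1, lt_trans hz.2 hy.2⟩
          (le_of_lt (lt_trans hc'.2 hz.1)) hfc)
  have := hmono (left_mem_Icc.2 hxy) (right_mem_Icc.2 hxy) hxy
  linarith

lemma ent_le_log_two {x : ℝ} (hx : |x| ≤ 1) : ent x ≤ log 2 := by
  unfold ent; linarith [phi_nonneg hx]

lemma ent_strictAntiOn : StrictAntiOn ent (Icc 0 1) := by
  refine strictAntiOn_of_hasDerivWithinAt_neg (convex_Icc 0 1) continuous_ent.continuousOn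
    (f' := fun x => -atanhR x) ?_ ?_
  · intro x hx
    rw [interior_Icc] at hx
    exact (hasDerivAt_ent (by linarith [hx.1]) hx.2).hasDerivWithinAt
  · intro x hx
    rw [interior_Icc] at hx
    exact neg_neg_of_pos (atanhR_pos hx.1 hx.2)

lemma ent_antitoneOn : AntitoneOn ent (Icc 0 1) := ent_strictAntiOn.antitoneOn

lemma ent_pos {x : ℝ} (h1 : -1 < x) (h2 : x < 1) : 0 < ent x := by
  rcases le_total 0 x with h | h
  · rw [← ent_one]
    exact ent_strictAntiOn ⟨h, h2.le⟩ (right_mem_Icc.2 zero_le_one) h2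
  · rw [← ent_neg, ← ent_one]
    exact ent_strictAntiOn ⟨by linarith, by linarith⟩ (right_mem_Icc.2 zero_le_one) (by linarith)

lemma ent_surj {z : ℝ} (h0 : 0 < z) (h1 : z ≤ log 2) : ∃ t ∈ Ico (0:ℝ) 1, ent t = z := by
  obtain ⟨t, ht, rfl⟩ := intermediate_value_Icc' (zero_le_one' ℝ) continuous_ent.continuousOn
    (show z ∈ Icc (ent 1) (ent 0) by rw [ent_one, ent_zero]; exact ⟨h0.le, h1⟩)
  refine ⟨t, ⟨ht.1, lt_of_le_of_ne ht.2 fun h => ?_⟩, rfl⟩
  rw [h, ent_one] at h0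
  exact lt_irrefl _ h0

lemma ent_eq {x : ℝ} (h1 : -1 < x) (h2 : x < 1) :
    ent x = log 2 - x * atanhR x - log (1 - x ^ 2) / 2 := by
  rw [show 1 - x ^ 2 = (1 + x) * (1 - x) by ring, log_mul (by linarith) (by linarith)]
  unfold ent phi atanhR
  ring

lemma phi_eq {x : ℝ} (h1 : -1 < x) (h2 : x < 1) :
    phi x = x * atanhR x + log (1 - x ^ 2) / 2 := by
  have := ent_eq h1 h2
  unfold ent at this
  linarith

lemma one_sub_sq_pos {x : ℝ} (h1 : -1 < x) (h2 : x < 1) : 0 < 1 - x ^ 2 := by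
  nlinarith [mul_pos (show 0 < 1 + x by linarith) (show 0 < 1 - x by linarith)]

end Vale.Agent.P322
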