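import Mathlib
import Vale.Agent.P322.Calc

/-!
The bound `((1+s²)·artanh s - s)·ent s ² ≤ (2/3)·(1-s²)²·(artanh s)³`.
-/

namespace Vale.Agent.P322

open Real Set Filter Topology

/-- `-log (1 - s²)`. -/
noncomputable def nlog (s : ℝ) : ℝ := -log (1 - s ^ 2)

lemma hasDerivAt_one_sub_sq (x : ℝ) : HasDerivAt (fun s : ℝ => 1 - s ^ 2) (-(2 * x)) x :=
  ((hasDerivAt_pow 2 x).const_sub 1).congr_deriv (by simp)

lemma hasDerivAt_nlog {x : ℝ} (h1 : -1 < x) (h2 : x < 1) :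
    HasDerivAt nlog (2 * x / (1 - x ^ 2)) x :=
  (((hasDerivAt_one_sub_sq x).log (one_sub_sq_pos h1 h2).ne').neg).congr_deriv (by ring)

lemma nlog_zero : nlog 0 = 0 := by simp [nlog]

/-- `L(R)/R` is nondecreasing: convexity of `-log (1-R)`. -/
lemma nlog_ratio {x y : ℝ} (h0 : 0 < x) (hxy : x ≤ y) (hy : y < 1) :
    y ^ 2 * nlog x ≤ x ^ 2 * nlog y := by
  set t := x ^ 2 / y ^ 2 with ht
  have hy2 : 0 < y ^ 2 := pow_pos (lt_of_lt_of_le h0 hxy) 2
  have ht0 : 0 < t := div_pos (pow_pos h0 2) hy2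
  have ht1 : t ≤ 1 := (div_le_one hy2).2 (pow_le_pow_left₀ h0.le hxy 2)
  have hvy := one_sub_sq_pos (show -1 < y by linarith) hy
  have h := strictConcaveOn_log_Ioi.concaveOn.2 (show (1:ℝ) ∈ Ioi (0:ℝ) from mem_Ioi.2 one_pos)
    (show 1 - y ^ 2 ∈ Ioi (0:ℝ) from hvy) (show (0:ℝ) ≤ 1 - t by linarith) ht0.le (by ring)
  simp only [smul_eq_mul, log_one, mul_zero, zero_add, mul_one] at h
  have e : 1 - t + t * (1 - y ^ 2) = 1 - x ^ 2 := by
    have hy0 : y ≠ 0 := (lt_of_lt_of_le h0 hxy).ne'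
    rw [ht]; field_simp
    ring
  rw [e] at h
  have := mul_le_mul_of_nonneg_left h hy2.le
  have e2 : y ^ 2 * (t * log (1 - y ^ 2)) = x ^ 2 * log (1 - y ^ 2) := by
    have hy0 : y ≠ 0 := (lt_of_lt_of_le h0 hxy).ne'
    rw [ht]; field_simp
  rw [e2] at this
  unfold nlog
  linarith

/-- `ent s ≤ (1-s²)(log 2 + (log 2 - 3/4) s² + L/4)`. -/
lemma ent_le_one_sub_sq_mul {s : ℝ} (h0 : 0 ≤ s) (h1 : s < 1) :
    ent s ≤ (1 - s ^ 2) * (log 2 + (log 2 - 3 / 4) * s ^ 2 + nlog s / 4) := by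
  set a := log 2 - 3 / 4 with ha
  set G : ℝ → ℝ := fun x => atanhR x - x - 4 * a * x ^ 3 - x * nlog x / 2 with hG
  have hG0 : G 0 = 0 := by simp [hG, atanhR_zero]
  have hG' : ∀ x ∈ Ioo (0:ℝ) 1, HasDerivAt G (-(12 * a) * x ^ 2 - nlog x / 2) x := by
    intro x hx
    have hv := one_sub_sq_pos (show -1 < x by linarith [hx.1]) hx.2
    have h := ((((hasDerivAt_atanhR (by linarith [hx.1]) hx.2).sub (hasDerivAt_id x)).sub
      ((hasDerivAt_pow 3 x).const_mul (4 * a))).sub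
      (((hasDerivAt_id x).mul (hasDerivAt_nlog (by linarith [hx.1]) hx.2)).div_const 2))
    refine h.congr_deriv ?_
    simp only [Nat.cast_ofNat, id_eq]
    field_simp
    ring
  have hGc : ContinuousOn G (Ico 0 1) := fun x hx => by
    refine ContinuousAt.continuousWithinAt ?_
    have h1 := continuousAt_atanhR (show -1 < x by linarith [hx.1]) hx.2
    have h2 := (hasDerivAt_nlog (show -1 < x by linarith [hx.1]) hx.2).continuousAt
    simp only [hG]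
    fun_prop
  have hGsgn : ∀ x ∈ Ioo (0:ℝ) 1, ∀ y ∈ Ioo (0:ℝ) 1, x ≤ y → G x < 0 → G y ≤ 0 := by
    intro x hx y hy hxy hneg
    refine sign_of_deriv_sign hGc hG' ?_ hG0 hx hy hxy hneg
    intro p hp q hq hpq hp'
    have := nlog_ratio hp.1 hpq hq.2
    have : q ^ 2 * (12 * -a * p ^ 2 - nlog p / 2) ≤ 0 :=
      mul_nonpos_of_nonneg_of_nonpos (sq_nonneg q) (by linarith)
    have hp2 : 0 < p ^ 2 := pow_pos hp.1 2
    by_contra hcon
    rw [not_le] at hcon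
    have := mul_pos hp2 hcon
    linarith
  set E : ℝ → ℝ := fun x =>
    (1 - x ^ 2) * (log 2 + a * x ^ 2) - (1 - x ^ 2) * log (1 - x ^ 2) / 4 - ent x with hE
  have key : 0 ≤ E s := by
    refine nonneg_of_deriv_sign (f := E) (f' := fun x => G x) (a := 0) (b := 1) ?_ ?_ hGsgn ?_ ?_
      ⟨h0, h1.le⟩
    · have hc : Continuous fun x : ℝ => (1 - x ^ 2) * log (1 - x ^ 2) :=
        continuous_mul_log.comp (by fun_prop)
      have := continuous_ent
      exact (by simp only [hE]; fun_prop : Continuous E).continuousOn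
    · intro x hx
      have hv := one_sub_sq_pos (show -1 < x by linarith [hx.1]) hx.2
      have hd := hasDerivAt_one_sub_sq x
      have h := ((hd.mul (((hasDerivAt_pow 2 x).const_mul a).const_add (log 2))).sub
        ((hd.mul (hd.log hv.ne')).div_const 4)).sub (hasDerivAt_ent (by linarith [hx.1]) hx.2)
      refine h.congr_deriv ?_
      simp only [hG, nlog, ha, Nat.cast_ofNat]
      field_simp
      ring
    · simp [hE, ent_zero]
    · simp [hE, ent_one]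
  have : (1 - s ^ 2) * (log 2 + a * s ^ 2 + nlog s / 4)
      = (1 - s ^ 2) * (log 2 + a * s ^ 2) - (1 - s ^ 2) * log (1 - s ^ 2) / 4 := by
    unfold nlog; ring
  simp only [hE] at key
  linarith

/-- Bounds on `artanh s / s - 1` by its power series. -/
lemma atanhR_series_bounds {s : ℝ} (h0 : 0 ≤ s) (h1 : s < 1) :
    s + s ^ 3 / 3 + s ^ 5 / 5 ≤ atanhR s ∧
      (atanhR s - s - s ^ 3 / 3) * (1 - s ^ 2) ≤ s ^ 5 / 5 := by
  have h := hasSum_atanhR (abs_lt.2 ⟨by linarith, h1⟩ : |s| < 1)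
  constructor
  · have := sum_le_hasSum (Finset.range 3) (fun k _ => by positivity) h
    norm_num [Finset.sum_range_succ] at this
    linarith
  · have hv := one_sub_sq_pos (show -1 < s by linarith) h1
    have ht := (hasSum_nat_add_iff' 2).2 h
    have hg := (hasSum_geometric_of_lt_one (sq_nonneg s) (by linarith)).mul_left (s ^ 5 / 5)
    have hle := hasSum_le (fun k => ?_) ht hg
    · norm_num [Finset.sum_range_succ] at hle
      have := mul_le_mul_of_nonneg_right hle hv.le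
      rw [add_mul, mul_assoc, inv_mul_cancel₀ hv.ne', mul_one] at this
      linarith
    · rw [show s ^ (2 * (k + 2) + 1) = s ^ 5 * (s ^ 2) ^ k by rw [← pow_mul, ← pow_add]; ring_nf,
        div_mul_eq_mul_div]
      refine div_le_div_of_nonneg_left (by positivity) (by norm_num) ?_
      push_cast
      linarith [(k.cast_nonneg : (0:ℝ) ≤ k)]

lemma sum_tail_le (n : ℕ) :
    ∑ k ∈ Finset.range n, 1 / ((2 * (k:ℝ) + 4) * (2 * k + 5)) ≤ 1405 / 10000 := by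
  have key : ∀ n : ℕ, ∑ k ∈ Finset.range (n + 3), 1 / ((2 * (k:ℝ) + 4) * (2 * k + 5))
      ≤ 1405 / 10000 - 1 / (4 * ((n:ℝ) + 3 + 7 / 4)) := by
    intro n
    induction n with
    | zero => norm_num [Finset.sum_range_succ]
    | succ n ih =>
      rw [show n + 1 + 3 = (n + 3) + 1 by ring, Finset.sum_range_succ]
      push_cast
      have h1 : (0:ℝ) < 4 * ((n:ℝ) + 3 + 7 / 4) := by positivity
      have h2 : (0:ℝ) < 4 * ((n:ℝ) + 1 + 3 + 7 / 4) := by positivity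
      have h3 : 1 / ((2 * ((n:ℝ) + 3) + 4) * (2 * ((n:ℝ) + 3) + 5))
          ≤ 1 / (4 * ((n:ℝ) + 3 + 7 / 4)) - 1 / (4 * ((n:ℝ) + 1 + 3 + 7 / 4)) := by
        rw [div_sub_div _ _ h1.ne' h2.ne', div_le_div_iff₀ (by positivity) (mul_pos h1 h2)]
        nlinarith [(n.cast_nonneg : (0:ℝ) ≤ n)]
      linarith
  refine le_trans (Finset.sum_le_sum_of_subset_of_nonneg
    (Finset.range_subset_range.2 (show n ≤ n + 3 by omega)) fun k _ _ => by positivity) ((key n).trans ?_)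
  have : (0:ℝ) < 1 / (4 * ((n:ℝ) + 3 + 7 / 4)) := by positivity
  linarith

/-- `L/2 - (artanh s / s - 1) ≤ R/6 + 0.1405 R²`, by comparing the series. -/
lemma nlog_le_atanhR {s : ℝ} (h0 : 0 ≤ s) (h1 : s < 1) :
    s * (nlog s / 2) ≤ atanhR s - s + s ^ 3 / 6 + (1405 / 10000) * s ^ 5 := by
  have hR : |s ^ 2| < 1 := by rw [abs_of_nonneg (sq_nonneg s)]; nlinarith
  have hL := (hasSum_pow_div_log_of_abs_lt_one hR).mul_left (s / 2)
  have hA := (hasSum_nat_add_iff' 1).2 (hasSum_atanhR (abs_lt.2 ⟨by linarith, h1⟩ : |s| < 1))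
  have hd := (hasSum_nat_add_iff' 1).2 (hL.sub hA)
  set w : ℕ → ℝ := fun k => 1 / ((2 * (k:ℝ) + 4) * (2 * k + 5)) with hw
  have hw0 : ∀ k, 0 ≤ w k := fun k => by simp only [hw]; positivity
  have hs : Summable w := summable_of_sum_range_le hw0 sum_tail_le
  have hle := hasSum_le (fun k => ?_) hd (hs.hasSum.mul_left (s ^ 5))
  · have := mul_le_mul_of_nonneg_left (Real.tsum_le_of_sum_range_le hw0 sum_tail_le)
      (pow_nonneg h0 5)
    norm_num [Finset.sum_range_succ] at hle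
    unfold nlog
    linarith
  · simp only [hw]
    push_cast
    have e1 : (s ^ 2) ^ (k + 1 + 1) = s ^ (2 * k + 4) := by rw [← pow_mul]; ring_nf
    rw [e1, show 2 * (k + 1 + 1) + 1 = 2 * k + 5 by ring]
    have e5 : s ^ (2 * k + 5) ≤ s ^ 5 := pow_le_pow_of_le_one h0 h1.le (by omega)
    have e4 : s * s ^ (2 * k + 4) = s ^ (2 * k + 5) := by ring
    have key : s / 2 * (s ^ (2 * k + 4) / ((k:ℝ) + 1 + 1))
        - s ^ (2 * k + 5) / (2 * ((k:ℝ) + 1 + 1) + 1)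
        = s ^ (2 * k + 5) * (1 / ((2 * (k:ℝ) + 4) * (2 * k + 5))) := by
      rw [← e4]
      field_simp
      ring
    rw [key]
    exact mul_le_mul_of_nonneg_right e5 (by positivity)

/-- The polynomial inequality behind `kbound`. -/
lemma kbound_poly {R Z : ℝ} (hR0 : 0 < R) (hR1 : R < 1) (hZlo : R / 3 + R ^ 2 / 5 ≤ Z)
    (hZhi : (Z - R / 3) * (1 - R) ≤ R ^ 2 / 5) :
    (R + Z + R * Z) * (6932 / 10000 + (6932 / 10000 - 3 / 4 + 1 / 12) * R + 703 / 10000 * R ^ 2 + Z / 2) ^ 2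
      ≤ 2 / 3 * R * (1 + Z) ^ 3 := by
  have h1R : (0:ℝ) ≤ 1 - R := by linarith
  set lo := R / 3 + R ^ 2 / 5 with hlo
  set D := 5 * (1 - R) with hD
  set P0 := 6932 / 10000 + (6932 / 10000 - 3 / 4 + 1 / 12) * R + 703 / 10000 * R ^ 2 + lo / 2 with hP0
  set N0 := R + (1 + R) * lo with hN0
  set F0 := 2 / 3 * R * (1 + lo) ^ 3 - N0 * P0 ^ 2 with hF0
  set F1 := 3 * (2 / 3 * R) * (1 + lo) ^ 2 - ((1 + R) * P0 ^ 2 + N0 * P0) with hF1
  set F2 := 3 * (2 / 3 * R) * (1 + lo) - ((1 + R) * P0 + N0 / 4) with hF2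
  set F3 := 2 / 3 * R - (1 + R) / 4 with hF3
  have hc0 : 0 ≤ F0 := by
    rw [show F0 = R * ((121711 / 4687500) * (R ^ 0 * (1 - R) ^ 6) + (2449681 / 11718750) * (R ^ 1 * (1 - R) ^ 5) + (189678037 / 281250000) * (R ^ 2 * (1 - R) ^ 4) + (715564477 / 632812500) * (R ^ 3 * (1 - R) ^ 3) + (3519293629 / 3375000000) * (R ^ 4 * (1 - R) ^ 2) + (842865437 / 1687500000) * (R ^ 5 * (1 - R) ^ 1) + (3875333707 / 40500000000) * (R ^ 6 * (1 - R) ^ 0)) by simp only [hF0, hF1, hF2, hF3, hD, hP0, hN0, hlo]; ring]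
    positivity
  have hc1 : 0 ≤ 3 * D * F0 + F1 * R ^ 3 := by
    rw [show 3 * D * F0 + F1 * R ^ 3 = R * ((121711 / 312500) * (R ^ 0 * (1 - R) ^ 7) + (2449681 / 781250) * (R ^ 1 * (1 - R) ^ 6) + (18066817 / 1875000) * (R ^ 2 * (1 - R) ^ 5) + (314006873 / 21093750) * (R ^ 3 * (1 - R) ^ 4) + (2769796147 / 225000000) * (R ^ 4 * (1 - R) ^ 3) + (6280636 / 1171875) * (R ^ 5 * (1 - R) ^ 2) + (220590853 / 168750000) * (R ^ 6 * (1 - R) ^ 1) + (128315599 / 450000000) * (R ^ 7 * (1 - R) ^ 0)) by simp only [hF0, hF1, hF2, hF3, hD, hP0, hN0, hlo]; ring]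
    positivity
  have hc2 : 0 ≤ 3 * D ^ 2 * F0 + 2 * D * R ^ 3 * F1 + R ^ 6 * F2 := by
    rw [show 3 * D ^ 2 * F0 + 2 * D * R ^ 3 * F1 + R ^ 6 * F2 = R * ((121711 / 62500) * (R ^ 0 * (1 - R) ^ 8) + (2449681 / 156250) * (R ^ 1 * (1 - R) ^ 7) + (171658303 / 3750000) * (R ^ 2 * (1 - R) ^ 6) + (108092603 / 1687500) * (R ^ 3 * (1 - R) ^ 5) + (404059733 / 9000000) * (R ^ 4 * (1 - R) ^ 4) + (13896787 / 900000) * (R ^ 5 * (1 - R) ^ 3) + (2481933589 / 540000000) * (R ^ 6 * (1 - R) ^ 2) + (112600099 / 45000000) * (R ^ 7 * (1 - R) ^ 1) + (2183 / 5000) * (R ^ 8 * (1 - R) ^ 0)) by simp only [hF0, hF1, hF2, hF3, hD, hP0, hN0, hlo]; ring]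
    positivity
  have hc3 : 0 ≤ D ^ 3 * F0 + D ^ 2 * R ^ 3 * F1 + D * R ^ 6 * F2 + R ^ 9 * F3 := by
    rw [show D ^ 3 * F0 + D ^ 2 * R ^ 3 * F1 + D * R ^ 6 * F2 + R ^ 9 * F3 = R * ((121711 / 37500) * (R ^ 0 * (1 - R) ^ 9) + (2449681 / 93750) * (R ^ 1 * (1 - R) ^ 8) + (40662109 / 562500) * (R ^ 2 * (1 - R) ^ 7) + (113228071 / 1265625) * (R ^ 3 * (1 - R) ^ 6) + (1270801183 / 27000000) * (R ^ 4 * (1 - R) ^ 5) + (38150647 / 6750000) * (R ^ 5 * (1 - R) ^ 4) + (73277353 / 32400000) * (R ^ 6 * (1 - R) ^ 3) + (96884599 / 18000000) * (R ^ 7 * (1 - R) ^ 2) + (1933 / 1000) * (R ^ 8 * (1 - R) ^ 1) + (1 / 6) * (R ^ 9 * (1 - R) ^ 0)) by simp only [hF0, hF1, hF2, hF3, hD, hP0, hN0, hlo]; ring]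
    positivity
  set u := Z - lo with hu
  have hT : 0 < R ^ 3 := pow_pos hR0 3
  set θ := u * D / R ^ 3 with hθ
  have hu0 : 0 ≤ u := by linarith
  have hD0 : 0 < D := by rw [hD]; linarith
  have hθ0 : 0 ≤ θ := by positivity
  have hθ1 : 0 ≤ 1 - θ := by
    rw [sub_nonneg, hθ, div_le_one hT, hu, hlo, hD]
    linarith
  have hue : u * D = θ * R ^ 3 := by rw [hθ]; field_simp
  have key : 0 ≤ D ^ 3 * (F0 + F1 * u + F2 * u ^ 2 + F3 * u ^ 3) := by
    rw [show D ^ 3 * (F0 + F1 * u + F2 * u ^ 2 + F3 * u ^ 3)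
      = D ^ 3 * F0 + D ^ 2 * F1 * (u * D) + D * F2 * (u * D) ^ 2 + F3 * (u * D) ^ 3 by ring, hue,
      show D ^ 3 * F0 + D ^ 2 * F1 * (θ * R ^ 3) + D * F2 * (θ * R ^ 3) ^ 2 + F3 * (θ * R ^ 3) ^ 3
      = D ^ 3 * F0 * (1 - θ) ^ 3 + (3 * D * F0 + F1 * R ^ 3) * (D ^ 2 * θ * (1 - θ) ^ 2)
        + (3 * D ^ 2 * F0 + 2 * D * R ^ 3 * F1 + R ^ 6 * F2) * (D * θ ^ 2 * (1 - θ))
        + (D ^ 3 * F0 + D ^ 2 * R ^ 3 * F1 + D * R ^ 6 * F2 + R ^ 9 * F3) * θ ^ 3 by ring]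
    positivity
  have := nonneg_of_mul_nonneg_right key (pow_pos hD0 3)
  have hZe : Z = lo + u := by rw [hu]; ring
  rw [hZe]
  simp only [hF0, hF1, hF2, hF3, hP0, hN0] at this
  linarith

/-- Key bound for the log-Lipschitz constant of the slope. -/
lemma kbound {s : ℝ} (h0 : 0 < s) (h1 : s < 1) :
    ((1 + s ^ 2) * atanhR s - s) * ent s ^ 2 ≤ 2 / 3 * (1 - s ^ 2) ^ 2 * atanhR s ^ 3 := by
  have hv := one_sub_sq_pos (show -1 < s by linarith) h1
  obtain ⟨hlo, hhi⟩ := atanhR_series_bounds h0.le h1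
  set σ := atanhR s with hσ
  set R := s ^ 2 with hR
  set Z := σ / s - 1 with hZ
  have hσe : σ = s * (1 + Z) := by rw [hZ]; field_simp; ring
  have hR0 : 0 < R := pow_pos h0 2
  have hR1 : R < 1 := by nlinarith
  have hZlo : R / 3 + R ^ 2 / 5 ≤ Z := by
    rw [hZ, hR, le_sub_iff_add_le, le_div_iff₀ h0]; nlinarith
  have hZhi : (Z - R / 3) * (1 - R) ≤ R ^ 2 / 5 := by
    have : s * ((Z - R / 3) * (1 - R)) ≤ s * (R ^ 2 / 5) := by
      rw [hσe] at hhi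
      rw [hR] at *
      nlinarith
    exact le_of_mul_le_mul_left this h0
  have hl := log_two_lt_d9
  have he := ent_le_one_sub_sq_mul h0.le h1
  have hn : nlog s / 2 ≤ Z + R / 6 + 1405 / 10000 * R ^ 2 := by
    have h := nlog_le_atanhR h0.le h1
    refine le_of_mul_le_mul_left ?_ h0
    rw [hR]
    rw [← hσ, hσe] at h
    nlinarith
  set P := 6932 / 10000 + (6932 / 10000 - 3 / 4 + 1 / 12) * R + 703 / 10000 * R ^ 2 + Z / 2 with hP
  have hP2 : ent s ≤ (1 - R) * P := by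
    refine he.trans (mul_le_mul_of_nonneg_left ?_ hv.le)
    rw [hP]
    nlinarith [mul_le_mul_of_nonneg_right (show log 2 ≤ 6932 / 10000 by linarith) hR0.le]
  have he0 : 0 ≤ ent s := (ent_pos (by linarith) h1).le
  have hsq : ent s ^ 2 ≤ ((1 - R) * P) ^ 2 := pow_le_pow_left₀ he0 hP2 2
  have hpoly : (R + Z + R * Z) * P ^ 2 ≤ 2 / 3 * R * (1 + Z) ^ 3 := by
    rw [hP]; exact kbound_poly hR0 hR1 hZlo hZhi
  calc ((1 + R) * σ - s) * ent s ^ 2 ≤ ((1 + R) * σ - s) * ((1 - R) * P) ^ 2 :=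
        mul_le_mul_of_nonneg_left hsq (by nlinarith [self_le_atanhR h0.le h1])
    _ = s * (1 - R) ^ 2 * ((R + Z + R * Z) * P ^ 2) := by rw [hσe]; ring
    _ ≤ s * (1 - R) ^ 2 * (2 / 3 * R * (1 + Z) ^ 3) :=
        mul_le_mul_of_nonneg_left hpoly (by positivity)
    _ = _ := by rw [hσe, hR]; ring

end Vale.Agent.P322
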