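import Mathlib
import Vale.Agent.P322.KBound

/-!
The tangent-line family `line s w η` and its upper envelope `env w η`.
-/

namespace Vale.Agent.P322

open Real Set Filter Topology

/-- The slope in `η` of the tangent line of parameter `s`. -/
noncomputable def beta (s : ℝ) : ℝ :=
  (s - (1 - s ^ 2) * atanhR s) / ((1 - s ^ 2) * atanhR s)

/-- `s artanh s - 2 phi s`. -/
noncomputable def r0 (s : ℝ) : ℝ := s * atanhR s - 2 * phi s

/-- The slope in `w` of the tangent line of parameter `s`. -/
noncomputable def aR (s : ℝ) : ℝ := r0 s + beta s * ent s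

/-- The tangent line of parameter `s`. -/
noncomputable def line (s w η : ℝ) : ℝ := aR s * w - beta s * η

/-- The derivative of `beta`. -/
noncomputable def beta' (s : ℝ) : ℝ :=
  ((1 + s ^ 2) * atanhR s - s) / ((1 - s ^ 2) ^ 2 * atanhR s ^ 2)

lemma beta_zero : beta 0 = 0 := by simp [beta, atanhR_zero]
lemma r0_zero : r0 0 = 0 := by simp [r0, phi_zero]
lemma aR_zero : aR 0 = 0 := by simp [aR, r0_zero, beta_zero]

lemma one_sub_sq_mul_atanhR_le {s : ℝ} (h0 : 0 ≤ s) (h1 : s < 1) :
    (1 - s ^ 2) * atanhR s ≤ s := by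
  have hv := one_sub_sq_pos (show -1 < s by linarith) h1
  have hb := (atanhR_series_bounds h0 h1).2
  have : s ^ 5 ≤ s ^ 3 := pow_le_pow_of_le_one h0 h1.le (by omega)
  nlinarith

lemma beta_nonneg {s : ℝ} (h0 : 0 ≤ s) (h1 : s < 1) : 0 ≤ beta s :=
  div_nonneg (by linarith [one_sub_sq_mul_atanhR_le h0 h1])
    (mul_nonneg (one_sub_sq_pos (show -1 < s by linarith) h1).le (atanhR_nonneg h0 h1))

lemma beta_le {s : ℝ} (h0 : 0 ≤ s) (h1 : s < 1) : beta s ≤ s ^ 2 / (1 - s ^ 2) := by
  rcases h0.lt_or_eq with h | h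
  · have hv := one_sub_sq_pos (show -1 < s by linarith) h1
    have hσ := self_le_atanhR h0 h1
    unfold beta
    rw [div_le_div_iff₀ (mul_pos hv (atanhR_pos h h1)) hv]
    have h2 := mul_le_mul_of_nonneg_left hσ hv.le
    linarith [mul_comm (1 - s ^ 2) (atanhR s)]
  · subst h; simp [beta_zero]

lemma hasDerivAt_beta {s : ℝ} (h0 : 0 < s) (h1 : s < 1) : HasDerivAt beta (beta' s) s := by
  have hv := one_sub_sq_pos (show -1 < s by linarith) h1
  have hσ := atanhR_pos h0 h1
  have hd := hasDerivAt_atanhR (show -1 < s by linarith) h1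
  have hp := (hasDerivAt_one_sub_sq s).mul hd
  have h := ((hasDerivAt_id s).sub hp).div hp (mul_pos hv hσ).ne'
  refine h.congr_deriv ?_
  unfold beta'
  simp only [id_eq, Pi.sub_apply, Pi.mul_apply]
  field_simp
  ring

lemma beta'_nonneg {s : ℝ} (h0 : 0 ≤ s) (h1 : s < 1) : 0 ≤ beta' s := by
  refine div_nonneg ?_ (by positivity)
  nlinarith [self_le_atanhR h0 h1, atanhR_nonneg h0 h1, sq_nonneg s]

lemma continuousOn_beta : ContinuousOn beta (Ico 0 1) := by
  intro x hx
  rcases hx.1.lt_or_eq with h | h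
  · exact (hasDerivAt_beta h hx.2).continuousAt.continuousWithinAt
  · subst h
    have hg : ContinuousWithinAt (fun s : ℝ => s ^ 2 / (1 - s ^ 2)) (Ico 0 1) 0 :=
      (ContinuousAt.div (by fun_prop) (by fun_prop) (by norm_num)).continuousWithinAt
    unfold ContinuousWithinAt
    rw [beta_zero]
    refine tendsto_of_tendsto_of_tendsto_of_le_of_le' tendsto_const_nhds
      (by simpa using hg.tendsto) ?_ ?_
    · filter_upwards [self_mem_nhdsWithin] with y hy using beta_nonneg hy.1 hy.2
    · filter_upwards [self_mem_nhdsWithin] with y hy using beta_le hy.1 hy.2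

lemma beta_monotoneOn : MonotoneOn beta (Ico 0 1) :=
  monotoneOn_of_hasDerivWithinAt_nonneg (convex_Ico 0 1) continuousOn_beta (f' := beta')
    (fun x hx => by rw [interior_Ico] at hx; exact (hasDerivAt_beta hx.1 hx.2).hasDerivWithinAt)
    (fun x hx => by rw [interior_Ico] at hx; exact beta'_nonneg hx.1.le hx.2)

lemma continuousOn_r0 : ContinuousOn r0 (Ico 0 1) := fun x hx => by
  refine ContinuousAt.continuousWithinAt ?_
  have h := continuousAt_atanhR (show -1 < x by linarith [hx.1]) hx.2
  have h2 := continuous_phi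
  unfold r0; fun_prop

lemma hasDerivAt_r0 {s : ℝ} (h0 : 0 < s) (h1 : s < 1) :
    HasDerivAt r0 (beta s * atanhR s) s := by
  have hv := one_sub_sq_pos (show -1 < s by linarith) h1
  have hσ := atanhR_pos h0 h1
  have h := ((hasDerivAt_id s).mul (hasDerivAt_atanhR (show -1 < s by linarith) h1)).sub
    ((hasDerivAt_phi (show -1 < s by linarith) h1).const_mul 2)
  refine h.congr_deriv ?_
  simp only [id_eq, beta]
  field_simp
  ring

lemma r0_nonneg {s : ℝ} (h0 : 0 ≤ s) (h1 : s < 1) : 0 ≤ r0 s := by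
  have := monotoneOn_of_hasDerivWithinAt_nonneg (convex_Ico 0 1) continuousOn_r0
    (f' := fun x => beta x * atanhR x)
    (fun x hx => by rw [interior_Ico] at hx; exact (hasDerivAt_r0 hx.1 hx.2).hasDerivWithinAt)
    (fun x hx => by
      rw [interior_Ico] at hx
      exact mul_nonneg (beta_nonneg hx.1.le hx.2) (atanhR_nonneg hx.1.le hx.2))
    (left_mem_Ico.2 one_pos) ⟨h0, h1⟩ h0
  rwa [r0_zero] at this

lemma continuousOn_aR : ContinuousOn aR (Ico 0 1) :=
  continuousOn_r0.add (continuousOn_beta.mul continuous_ent.continuousOn)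

lemma hasDerivAt_aR {s : ℝ} (h0 : 0 < s) (h1 : s < 1) :
    HasDerivAt aR (beta' s * ent s) s :=
  ((hasDerivAt_r0 h0 h1).add
    ((hasDerivAt_beta h0 h1).mul (hasDerivAt_ent (by linarith) h1))).congr_deriv (by ring)

lemma aR_monotoneOn : MonotoneOn aR (Ico 0 1) :=
  monotoneOn_of_hasDerivWithinAt_nonneg (convex_Ico 0 1) continuousOn_aR
    (f' := fun x => beta' x * ent x)
    (fun x hx => by rw [interior_Ico] at hx; exact (hasDerivAt_aR hx.1 hx.2).hasDerivWithinAt)
    (fun x hx => by
      rw [interior_Ico] at hx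
      exact mul_nonneg (beta'_nonneg hx.1.le hx.2) (ent_pos (by linarith [hx.1]) hx.2).le)

lemma aR_nonneg {s : ℝ} (h0 : 0 ≤ s) (h1 : s < 1) : 0 ≤ aR s :=
  add_nonneg (r0_nonneg h0 h1) (mul_nonneg (beta_nonneg h0 h1) (ent_pos (by linarith) h1).le)

lemma aR_log_lip {s t : ℝ} (h0 : 0 ≤ s) (hst : s ≤ t) (h1 : t < 1) :
    aR t - aR s ≤ 2 / 3 * (log (ent s) - log (ent t)) := by
  have key := monotoneOn_of_hasDerivWithinAt_nonneg (convex_Ico (0:ℝ) 1)
    (f := fun x => -(2 / 3 * log (ent x)) - aR x)
    (f' := fun x => -(2 / 3 * (-atanhR x / ent x)) - beta' x * ent x) ?_ ?_ ?_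
    ⟨h0, lt_of_le_of_lt hst h1⟩ ⟨le_trans h0 hst, h1⟩ hst
  · simp only at key
    linarith
  · refine (ContinuousOn.neg (continuousOn_const.mul
      (continuous_ent.continuousOn.log ?_))).sub continuousOn_aR
    intro x hx
    exact (ent_pos (by linarith [hx.1]) hx.2).ne'
  · intro x hx
    rw [interior_Ico] at hx
    have he := ent_pos (show -1 < x by linarith [hx.1]) hx.2
    exact ((((hasDerivAt_ent (by linarith [hx.1]) hx.2).log he.ne').const_mul (2 / 3 : ℝ)).neg.sub
      (hasDerivAt_aR hx.1 hx.2)).hasDerivWithinAt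
  · intro x hx
    rw [interior_Ico] at hx
    have he := ent_pos (show -1 < x by linarith [hx.1]) hx.2
    have hσ := atanhR_pos hx.1 hx.2
    have hv := one_sub_sq_pos (show -1 < x by linarith [hx.1]) hx.2
    have hk := kbound hx.1 hx.2
    have : beta' x * ent x ≤ 2 / 3 * (atanhR x / ent x) := by
      rw [beta', div_mul_eq_mul_div, ← mul_div_assoc, div_le_div_iff₀ (by positivity) he]
      linarith
    rw [neg_div]
    linarith

/-- Each tangent line is maximal at its contact point. -/
lemma line_le_contact {t s : ℝ} (ht0 : 0 ≤ t) (ht1 : t < 1) (hs0 : 0 ≤ s) (hs1 : s < 1) :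
    line s 1 (ent t) ≤ line t 1 (ent t) := by
  have hc : ContinuousOn (fun x => line x 1 (ent t)) (Ico 0 1) := by
    unfold line
    exact (continuousOn_aR.mul continuousOn_const).sub (continuousOn_beta.mul continuousOn_const)
  have hd : ∀ x ∈ Ioo (0:ℝ) 1,
      HasDerivAt (fun x => line x 1 (ent t)) (beta' x * (ent x - ent t)) x := fun x hx =>
    (((hasDerivAt_aR hx.1 hx.2).mul_const 1).sub
      ((hasDerivAt_beta hx.1 hx.2).mul_const (ent t))).congr_deriv (by ring)
  rcases le_total s t with h | h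
  · have sub : Icc 0 t ⊆ Ico (0:ℝ) 1 := fun x hx => ⟨hx.1, lt_of_le_of_lt hx.2 ht1⟩
    refine monotoneOn_of_hasDerivWithinAt_nonneg (convex_Icc 0 t) (hc.mono sub)
      (f' := fun x => beta' x * (ent x - ent t)) ?_ ?_ ⟨hs0, h⟩ (right_mem_Icc.2 ht0) h
    · intro x hx
      rw [interior_Icc] at hx
      exact (hd x ⟨hx.1, lt_trans hx.2 ht1⟩).hasDerivWithinAt
    · intro x hx
      rw [interior_Icc] at hx
      exact mul_nonneg (beta'_nonneg hx.1.le (lt_trans hx.2 ht1))
        (sub_nonneg.2 (ent_antitoneOn ⟨hx.1.le, by linarith [hx.2]⟩ ⟨ht0, ht1.le⟩ hx.2.le))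
  · have sub : Ico t 1 ⊆ Ico (0:ℝ) 1 := fun x hx => ⟨le_trans ht0 hx.1, hx.2⟩
    refine antitoneOn_of_hasDerivWithinAt_nonpos (convex_Ico t 1) (hc.mono sub)
      (f' := fun x => beta' x * (ent x - ent t)) ?_ ?_ (left_mem_Ico.2 ht1) ⟨h, hs1⟩ h
    · intro x hx
      rw [interior_Ico] at hx
      exact (hd x ⟨lt_of_le_of_lt ht0 hx.1, hx.2⟩).hasDerivWithinAt
    · intro x hx
      rw [interior_Ico] at hx
      exact mul_nonpos_of_nonneg_of_nonpos (beta'_nonneg (by linarith [hx.1]) hx.2)
        (sub_nonpos.2 (ent_antitoneOn ⟨ht0, ht1.le⟩ ⟨by linarith [hx.1], hx.2.le⟩ hx.1.le))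

/-- The contact parameter of the level `z`. -/
noncomputable def contact (z : ℝ) : ℝ :=
  if h : 0 < z ∧ z ≤ log 2 then (ent_surj h.1 h.2).choose else 0

lemma contact_mem (z : ℝ) : contact z ∈ Ico (0:ℝ) 1 := by
  unfold contact
  split_ifs with h
  · exact (ent_surj h.1 h.2).choose_spec.1
  · exact left_mem_Ico.2 one_pos

lemma ent_contact {z : ℝ} (h0 : 0 < z) : ent (contact z) = min z (log 2) := by
  unfold contact
  split_ifs with h
  · rw [min_eq_left h.2]; exact (ent_surj h.1 h.2).choose_spec.2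
  · rw [ent_zero, min_eq_right]
    by_contra hh
    exact h ⟨h0, (not_le.1 hh).le⟩

lemma contact_ent {t : ℝ} (ht : t ∈ Ico (0:ℝ) 1) : contact (ent t) = t := by
  have h := ent_contact (ent_pos (show -1 < t by linarith [ht.1]) ht.2)
  rw [min_eq_left (ent_le_log_two (abs_le.2 ⟨by linarith [ht.1], ht.2.le⟩))] at h
  exact ent_strictAntiOn.injOn ⟨(contact_mem _).1, (contact_mem _).2.le⟩ ⟨ht.1, ht.2.le⟩ h

lemma contact_anti {z₁ z₂ : ℝ} (h2 : 0 < z₂) (h : z₂ ≤ z₁) : contact z₁ ≤ contact z₂ := by
  by_contra hh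
  rw [not_le] at hh
  have := ent_strictAntiOn ⟨(contact_mem z₂).1, (contact_mem z₂).2.le⟩
    ⟨(contact_mem z₁).1, (contact_mem z₁).2.le⟩ hh
  rw [ent_contact h2, ent_contact (lt_of_lt_of_le h2 h)] at this
  exact absurd (min_le_min_right (log 2) h) (not_le.2 this)

lemma line_le_contact' {z s : ℝ} (hz : 0 < z) (hs0 : 0 ≤ s) (hs1 : s < 1) :
    line s 1 z ≤ line (contact z) 1 z := by
  rcases le_total z (log 2) with h | h
  · have e := ent_contact hz
    rw [min_eq_left h] at e
    have := line_le_contact (contact_mem z).1 (contact_mem z).2 hs0 hs1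
    rwa [e] at this
  · have hcz : contact z = 0 := by
      rcases h.lt_or_eq with h' | h'
      · unfold contact; rw [dif_neg (fun hh => absurd hh.2 (not_le.2 h'))]
      · rw [← h', ← ent_zero]; exact contact_ent (left_mem_Ico.2 one_pos)
    have h1 := line_le_contact le_rfl one_pos hs0 hs1
    have h2 : beta s * ent 0 ≤ beta s * z :=
      mul_le_mul_of_nonneg_left (by rw [ent_zero]; exact h) (beta_nonneg hs0 hs1)
    rw [hcz]
    simp only [line, aR_zero, beta_zero] at h1 ⊢
    linarith

/-- The upper envelope of the tangent lines. -/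
noncomputable def env (w η : ℝ) : ℝ := line (contact (η / w)) w η

/-- The slope of `env` in `w`. -/
noncomputable def slope' (w η : ℝ) : ℝ := aR (contact (η / w))

lemma line_le_env {w η s : ℝ} (hw : 0 < w) (hη : 0 < η) (hs0 : 0 ≤ s) (hs1 : s < 1) :
    line s w η ≤ env w η := by
  have h := mul_le_mul_of_nonneg_left (line_le_contact' (div_pos hη hw) hs0 hs1) hw.le
  have e : ∀ x, w * line x 1 (η / w) = line x w η := fun x => by unfold line; field_simp
  rwa [e, e] at h

lemma env_nonneg {w η : ℝ} (hw : 0 < w) (hη : 0 < η) : 0 ≤ env w η := by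
  have := line_le_env hw hη le_rfl one_pos
  simpa [line, aR_zero, beta_zero] using this

lemma env_eq {w t : ℝ} (hw : 0 < w) (ht : t ∈ Ico (0:ℝ) 1) :
    env w (w * ent t) = w * r0 t := by
  unfold env
  rw [mul_div_cancel_left₀ _ hw.ne', contact_ent ht]
  unfold line aR
  ring

lemma env_smul {c w η : ℝ} (hc : c ≠ 0) : env (c * w) (c * η) = c * env w η := by
  unfold env
  rw [mul_div_mul_left _ _ hc]
  unfold line
  ring

lemma slope'_nonneg (w η : ℝ) : 0 ≤ slope' w η :=
  aR_nonneg (contact_mem _).1 (contact_mem _).2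

lemma env_subgradient {w w' η : ℝ} (hw' : 0 < w') (hη : 0 < η) :
    (w' - w) * slope' w η ≤ env w' η - env w η := by
  have h := line_le_env hw' hη (contact_mem (η / w)).1 (contact_mem (η / w)).2
  unfold slope' env at *
  simp only [line] at *
  linarith

lemma env_mono {w w' η : ℝ} (hw : 0 < w) (hη : 0 < η) (h : w ≤ w') : env w η ≤ env w' η := by
  have := env_subgradient (w := w) (lt_of_lt_of_le hw h) hη
  have := mul_nonneg (sub_nonneg.2 h) (slope'_nonneg w η)
  linarith

lemma slope'_mono {w w' η : ℝ} (hw : 0 < w) (hη : 0 < η) (h : w ≤ w') :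
    slope' w η ≤ slope' w' η :=
  aR_monotoneOn (contact_mem _) (contact_mem _)
    (contact_anti (div_pos hη (lt_of_lt_of_le hw h))
      (div_le_div_of_nonneg_left hη.le hw h))

lemma slope'_log {w w' η : ℝ} (hw : 0 < w) (hη : 0 < η) (h : w ≤ w') :
    slope' w' η - slope' w η ≤ 2 / 3 * log (w' / w) := by
  have hw' := lt_of_lt_of_le hw h
  have hz : η / w' ≤ η / w := div_le_div_of_nonneg_left hη.le hw h
  have hz' : 0 < η / w' := div_pos hη hw'
  refine (aR_log_lip (contact_mem (η / w)).1 (contact_anti hz' hz) (contact_mem _).2).trans ?_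
  rw [ent_contact hz', ent_contact (lt_of_lt_of_le hz' hz)]
  refine mul_le_mul_of_nonneg_left ?_ (by norm_num)
  have hl := log_pos one_lt_two
  have hm1 : 0 < min (η / w) (log 2) := lt_min (div_pos hη hw) hl
  have hm2 : 0 < min (η / w') (log 2) := lt_min hz' hl
  rw [← log_div hm1.ne' hm2.ne']
  refine log_le_log (div_pos hm1 hm2) ?_
  rw [div_le_div_iff₀ hm2 hw]
  rcases le_total (η / w') (log 2) with h2 | h2
  · rw [min_eq_left h2]
    calc min (η / w) (log 2) * w ≤ η / w * w := mul_le_mul_of_nonneg_right (min_le_left _ _) hw.le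
      _ = w' * (η / w') := by field_simp
  · rw [min_eq_right h2]
    calc min (η / w) (log 2) * w ≤ log 2 * w := mul_le_mul_of_nonneg_right (min_le_right _ _) hw.le
      _ ≤ w' * log 2 := by nlinarith

lemma continuousAt_slope' {w η : ℝ} (hw : 0 < w) (hη : 0 < η) :
    Tendsto (fun y => |slope' y η - slope' w η|) (𝓝 w) (𝓝 0) := by
  have hb : Tendsto (fun y => 2 / 3 * |log (y / w)|) (𝓝 w) (𝓝 0) := by
    have hc : ContinuousAt (fun y => 2 / 3 * |log (y / w)|) w :=
      continuousAt_const.mul (((continuousAt_id.div_const w).log (by simp [hw.ne'])).abs)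
    simpa [hw.ne'] using hc.tendsto
  refine tendsto_of_tendsto_of_tendsto_of_le_of_le' tendsto_const_nhds hb
    (Eventually.of_forall fun y => abs_nonneg _) ?_
  filter_upwards [eventually_gt_nhds hw] with y hy
  rcases le_total w y with h | h
  · rw [abs_of_nonneg (sub_nonneg.2 (slope'_mono hw hη h))]
    exact (slope'_log hw hη h).trans (mul_le_mul_of_nonneg_left (le_abs_self _) (by norm_num))
  · rw [abs_sub_comm, abs_of_nonneg (sub_nonneg.2 (slope'_mono hy hη h))]
    refine (slope'_log hy hη h).trans (mul_le_mul_of_nonneg_left ?_ (by norm_num))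
    rw [← inv_div y w, log_inv]
    exact neg_le_abs _

lemma hasDerivAt_env {w η : ℝ} (hw : 0 < w) (hη : 0 < η) :
    HasDerivAt (fun y => env y η) (slope' w η) w := by
  rw [hasDerivAt_iff_tendsto_slope, tendsto_iff_norm_sub_tendsto_zero]
  refine squeeze_zero' (Eventually.of_forall fun y => norm_nonneg _) ?_
    ((continuousAt_slope' hw hη).mono_left nhdsWithin_le_nhds)
  filter_upwards [nhdsWithin_le_nhds (eventually_gt_nhds hw), self_mem_nhdsWithin] with y hy hne
  have h1 := env_subgradient (w := w) hy hη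
  have h2 := env_subgradient (w := y) hw hη
  rw [slope_def_field, Real.norm_eq_abs]
  rcases lt_or_gt_of_ne hne with h | h
  · have hd : y - w < 0 := by linarith
    rw [abs_le]
    have u1 : (env y η - env w η) / (y - w) ≤ slope' w η := by
      rw [div_le_iff_of_neg hd]; linarith
    have u2 : slope' y η ≤ (env y η - env w η) / (y - w) := by
      rw [le_div_iff_of_neg hd]; linarith
    exact ⟨by linarith [neg_abs_le (slope' y η - slope' w η)],
      by linarith [abs_nonneg (slope' y η - slope' w η)]⟩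
  · have hd : 0 < y - w := by linarith
    rw [abs_le]
    have u1 : (env y η - env w η) / (y - w) ≤ slope' y η := by
      rw [div_le_iff₀ hd]; linarith
    have u2 : slope' w η ≤ (env y η - env w η) / (y - w) := by
      rw [le_div_iff₀ hd]; linarith
    exact ⟨by linarith [abs_nonneg (slope' y η - slope' w η)],
      by linarith [le_abs_self (slope' y η - slope' w η)]⟩

/-- The decrease of `env` in `η` is submodular. -/
lemma env_submodular {w w' η η' : ℝ} (hw' : 0 < w') (hw : w' ≤ w) (hη' : 0 < η') (hη : η' ≤ η) :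
    env w η + env w' η' ≤ env w η' + env w' η := by
  have hwpos := lt_of_lt_of_le hw' hw
  have hηpos := lt_of_lt_of_le hη' hη
  set s := contact (η / w) with hs
  set t := contact (η' / w') with ht
  have hsm := contact_mem (η / w)
  have htm := contact_mem (η' / w')
  rw [← hs] at hsm
  rw [← ht] at htm
  have e1 : env w η = line s w η := rfl
  have e2 : env w' η' = line t w' η' := rfl
  rcases le_total t s with h | h
  · have := line_le_env hwpos hη' hsm.1 hsm.2
    have := line_le_env hw' hηpos htm.1 htm.2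
    have hb := mul_le_mul_of_nonneg_left (beta_monotoneOn htm hsm h) (sub_nonneg.2 hη)
    rw [e1, e2]; simp only [line] at *; linarith
  · have := line_le_env hwpos hη' htm.1 htm.2
    have := line_le_env hw' hηpos hsm.1 hsm.2
    have ha := mul_le_mul_of_nonneg_left (aR_monotoneOn hsm htm h) (sub_nonneg.2 hw)
    rw [e1, e2]; simp only [line] at *; linarith

/-- Quadratic upper bound for `env` to the right of the base weight `1`. -/
lemma env_le_right {w z : ℝ} (hz : 0 < z) (hw : 1 ≤ w) :
    env w z ≤ env 1 z + (w - 1) * slope' 1 z + 1 / 3 * (w - 1) ^ 2 := by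
  have key := monotoneOn_of_hasDerivWithinAt_nonneg (convex_Ici (1:ℝ))
    (f := fun y => (y - 1) * slope' 1 z + 1 / 3 * (y - 1) ^ 2 - env y z)
    (f' := fun y => slope' 1 z + 2 / 3 * (y - 1) - slope' y z) ?_ ?_ ?_
    self_mem_Ici hw hw
  · simp only [sub_self] at key
    linarith
  · intro y hy
    have := (hasDerivAt_env (lt_of_lt_of_le one_pos hy) hz).continuousAt
    exact ContinuousAt.continuousWithinAt (by fun_prop)
  · intro y hy
    rw [interior_Ici] at hy
    exact (((((hasDerivAt_id y).sub_const 1).mul_const (slope' 1 z)).add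
      ((((hasDerivAt_id y).sub_const 1).pow 2).const_mul (1 / 3 : ℝ))).sub
      (hasDerivAt_env (lt_trans one_pos hy) hz)).congr_deriv (by simp only [id_eq]; push_cast; ring)
      |>.hasDerivWithinAt
  · intro y hy
    rw [interior_Ici] at hy
    have h := slope'_log (η := z) one_pos hz hy.le
    rw [div_one] at h
    have := log_le_sub_one_of_pos (lt_trans one_pos hy)
    linarith

/-- Logarithmic lower bound for `env` to the left of the base weight `1`. -/
lemma env_ge_left {w z : ℝ} (hz : 0 < z) (hw0 : 0 < w) (hw : w ≤ 1) :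
    w * (slope' 1 z - 2 / 3 + 2 / 3 * log w) ≤ env w z := by
  set f : ℝ → ℝ := fun y => y * (slope' 1 z - 2 / 3) + 2 / 3 * (y * log y) - env y z with hf
  have anti : AntitoneOn f (Ioc 0 1) := by
    refine antitoneOn_of_hasDerivWithinAt_nonpos (convex_Ioc 0 1)
      (f' := fun y => slope' 1 z + 2 / 3 * log y - slope' y z) ?_ ?_ ?_
    · intro y hy
      have := (hasDerivAt_env hy.1 hz).continuousAt
      have := continuous_mul_log
      exact ContinuousAt.continuousWithinAt (by simp only [hf]; fun_prop)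
    · intro y hy
      rw [interior_Ioc] at hy
      exact ((((hasDerivAt_id y).mul_const (slope' 1 z - 2 / 3)).add
        ((hasDerivAt_mul_log hy.1.ne').const_mul (2 / 3 : ℝ))).sub
        (hasDerivAt_env hy.1 hz)).congr_deriv (by ring) |>.hasDerivWithinAt
    · intro y hy
      rw [interior_Ioc] at hy
      have h := slope'_log (η := z) hy.1 hz hy.2.le
      rw [one_div, log_inv] at h
      linarith
  have hlim : Tendsto (fun y => y * (slope' 1 z - 2 / 3) + 2 / 3 * (y * log y))
      (𝓝[>] 0) (𝓝 0) := by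
    have hc : Continuous fun y : ℝ => y * (slope' 1 z - 2 / 3) + 2 / 3 * (y * log y) := by
      have := continuous_mul_log; fun_prop
    simpa using (hc.tendsto 0).mono_left nhdsWithin_le_nhds
  have : f w ≤ 0 := by
    refine ge_of_tendsto hlim ?_
    filter_upwards [Ioo_mem_nhdsGT hw0] with y hy
    have h1 := anti ⟨hy.1, by linarith [hy.2]⟩ ⟨hw0, hw⟩ hy.2.le
    have h2 := env_nonneg hy.1 hz
    simp only [hf] at h1 ⊢
    linarith
  simp only [hf] at this
  linarith

end Vale.Agent.P322
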