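import Mathlib
import Vale.Agent.P322.Tangent

/-!
Pairs on the crossing curve `d = (1-p) r`, `m² = p (1 - r² + r² p)`: closed forms and concavity.
-/

namespace Vale.Agent.P322

open Real Set Filter Topology

/-- `S = 1 - R + R p`. -/
def cS (R p : ℝ) : ℝ := 1 - R + R * p

/-- The mean at the crossing, `√(p S)`. -/
noncomputable def cM (R p : ℝ) : ℝ := sqrt (p * cS R p)

/-- `artanh (R √(p/S))`. -/
noncomputable def cA (R p : ℝ) : ℝ := atanhR (R * cM R p / cS R p)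

/-- The budget, without its `(1-p) r0` part. -/
noncomputable def cL (R p : ℝ) : ℝ :=
  p * -log (1 - R) + log (1 + R * p) - 2 * cM R p * cA R p

/-- First derivative of `cL`. -/
noncomputable def cL1 (R p : ℝ) : ℝ :=
  -log (1 - R) - (1 - R + 2 * R * p) * (cA R p / cM R p)

/-- Second derivative of `cL`. -/
noncomputable def cL2 (R p : ℝ) : ℝ :=
  ((1 - R) ^ 2 * (cA R p / cM R p) - R * (1 - R + 2 * R * p) / (1 + R * p)) / (2 * (p * cS R p))

/-- `cL` divided by `1 - p`. -/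
noncomputable def bud (R p : ℝ) : ℝ := cL R p / (1 - p)

/-- The value of `bud` at `p = 1`. -/
noncomputable def budEnd (R : ℝ) : ℝ := (1 + R) * atanhR R + log (1 - R)

section
variable {R p : ℝ}

lemma cS_pos (hR1 : R < 1) (hR0 : 0 ≤ R) (hp0 : 0 ≤ p) : 0 < cS R p := by
  unfold cS; nlinarith

lemma le_cS (hR1 : R < 1) (hp1 : p ≤ 1) : p ≤ cS R p := by
  unfold cS; nlinarith

lemma cS_le_one (hR0 : 0 ≤ R) (hp1 : p ≤ 1) : cS R p ≤ 1 := by
  unfold cS; nlinarith

lemma cM_nonneg : 0 ≤ cM R p := sqrt_nonneg _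

lemma cM_sq (hR0 : 0 ≤ R) (hR1 : R < 1) (hp0 : 0 ≤ p) : cM R p ^ 2 = p * cS R p :=
  sq_sqrt (mul_nonneg hp0 (cS_pos hR1 hR0 hp0).le)

lemma cM_pos (hR0 : 0 ≤ R) (hR1 : R < 1) (hp0 : 0 < p) : 0 < cM R p :=
  sqrt_pos.2 (mul_pos hp0 (cS_pos hR1 hR0 hp0.le))

lemma cM_le_cS (hR0 : 0 ≤ R) (hR1 : R < 1) (hp0 : 0 ≤ p) (hp1 : p ≤ 1) : cM R p ≤ cS R p := by
  rw [cM, sqrt_le_iff]
  refine ⟨(cS_pos hR1 hR0 hp0).le, ?_⟩
  rw [sq]
  exact mul_le_mul_of_nonneg_right (le_cS hR1 hp1) (cS_pos hR1 hR0 hp0).le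

lemma cX_mem (hR0 : 0 ≤ R) (hR1 : R < 1) (hp0 : 0 ≤ p) (hp1 : p ≤ 1) :
    R * cM R p / cS R p ∈ Icc 0 R := by
  have hS := cS_pos hR1 hR0 hp0
  refine ⟨div_nonneg (mul_nonneg hR0 cM_nonneg) hS.le, ?_⟩
  rw [div_le_iff₀ hS]
  exact mul_le_mul_of_nonneg_left (cM_le_cS hR0 hR1 hp0 hp1) hR0

lemma one_sub_cX_sq (hR0 : 0 ≤ R) (hR1 : R < 1) (hp0 : 0 ≤ p) :
    1 - (R * cM R p / cS R p) ^ 2 = (1 - R) * (1 + R * p) / cS R p := by
  have hS := cS_pos hR1 hR0 hp0
  rw [div_pow, mul_pow, cM_sq hR0 hR1 hp0]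
  field_simp
  unfold cS
  ring

lemma cA_nonneg (hR0 : 0 ≤ R) (hR1 : R < 1) (hp0 : 0 ≤ p) (hp1 : p ≤ 1) : 0 ≤ cA R p :=
  atanhR_nonneg (cX_mem hR0 hR1 hp0 hp1).1 (lt_of_le_of_lt (cX_mem hR0 hR1 hp0 hp1).2 hR1)

lemma continuousOn_cA (hR0 : 0 ≤ R) (hR1 : R < 1) : ContinuousOn (cA R) (Icc 0 1) := by
  intro q hq
  have hS := (cS_pos hR1 hR0 hq.1).ne'
  have hx := cX_mem hR0 hR1 hq.1 hq.2
  have h1 : ContinuousAt (fun t => R * cM R t / cS R t) q := by
    unfold cM cS at *; fun_prop (disch := assumption)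
  have h2 : ContinuousAt atanhR (R * cM R q / cS R q) :=
    continuousAt_atanhR (by linarith [hx.1]) (lt_of_le_of_lt hx.2 hR1)
  exact (ContinuousAt.comp (f := fun t => R * cM R t / cS R t) (g := atanhR) h2 h1).continuousWithinAt

lemma continuousOn_cL (hR0 : 0 ≤ R) (hR1 : R < 1) : ContinuousOn (cL R) (Icc 0 1) := by
  have h1 := continuousOn_cA hR0 hR1
  have h2 : ContinuousOn (fun t => cM R t) (Icc 0 1) := by unfold cM cS; fun_prop
  have h3 : ContinuousOn (fun t => log (1 + R * t)) (Icc 0 1) :=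
    ContinuousOn.log (by fun_prop) fun t ht => by nlinarith [ht.1]
  unfold cL
  fun_prop

lemma cL_zero : cL R 0 = 0 := by simp [cL, cM]

lemma cL_one (hR0 : 0 ≤ R) (hR1 : R < 1) : cL R 1 = 0 := by
  unfold cL cA cM cS atanhR
  norm_num
  ring

lemma hasDerivAt_cM (hR0 : 0 ≤ R) (hR1 : R < 1) (hp0 : 0 < p) :
    HasDerivAt (cM R) ((1 - R + 2 * R * p) / (2 * cM R p)) p := by
  have h : HasDerivAt (fun t => t * cS R t) (1 - R + 2 * R * p) p := by
    unfold cS
    exact ((hasDerivAt_id p).mul (((hasDerivAt_id p).const_mul R).const_add (1 - R))).congr_deriv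
      (by simp only [id_eq]; ring)
  exact h.sqrt (mul_pos hp0 (cS_pos hR1 hR0 hp0.le)).ne'

lemma hasDerivAt_cA (hR0 : 0 ≤ R) (hR1 : R < 1) (hp0 : 0 < p) (hp1 : p ≤ 1) :
    HasDerivAt (cA R) (R / (2 * cM R p * (1 + R * p))) p := by
  have hS := cS_pos hR1 hR0 hp0.le
  have hm := cM_pos hR0 hR1 hp0
  have hv : 0 < 1 - R := by linarith
  have hg : 0 < 1 + R * p := by positivity
  have hx := cX_mem hR0 hR1 hp0.le hp1
  have hS' : HasDerivAt (cS R) R p := by
    unfold cS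
    exact (((hasDerivAt_id p).const_mul R).const_add (1 - R)).congr_deriv (by ring)
  have h := (((hasDerivAt_cM hR0 hR1 hp0).const_mul R).div hS' hS.ne')
  have h2 := (hasDerivAt_atanhR (show -1 < R * cM R p / cS R p by linarith [hx.1])
    (lt_of_le_of_lt hx.2 hR1)).comp p h
  refine h2.congr_deriv ?_
  rw [one_sub_cX_sq hR0 hR1 hp0.le]
  field_simp
  rw [cM_sq hR0 hR1 hp0.le]
  unfold cS
  ring

lemma hasDerivAt_cL (hR0 : 0 ≤ R) (hR1 : R < 1) (hp0 : 0 < p) (hp1 : p ≤ 1) :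
    HasDerivAt (cL R) (cL1 R p) p := by
  have hm := cM_pos hR0 hR1 hp0
  have hg : 0 < 1 + R * p := by positivity
  have h := (((hasDerivAt_id p).mul_const (-log (1 - R))).add
    ((((hasDerivAt_id p).const_mul R).const_add 1).log hg.ne')).sub
    (((hasDerivAt_cM hR0 hR1 hp0).const_mul 2).mul (hasDerivAt_cA hR0 hR1 hp0 hp1))
  refine h.congr_deriv ?_
  unfold cL1
  simp only [id_eq]
  field_simp
  ring

lemma hasDerivAt_cW (hR0 : 0 ≤ R) (hR1 : R < 1) (hp0 : 0 < p) (hp1 : p ≤ 1) :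
    HasDerivAt (fun t => cA R t / cM R t)
      ((R / (1 + R * p) - (cA R p / cM R p) * (1 - R + 2 * R * p)) / (2 * (p * cS R p))) p := by
  have hm := cM_pos hR0 hR1 hp0
  have hg : 0 < 1 + R * p := by positivity
  refine ((hasDerivAt_cA hR0 hR1 hp0 hp1).div (hasDerivAt_cM hR0 hR1 hp0) hm.ne').congr_deriv ?_
  rw [← cM_sq hR0 hR1 hp0.le]
  field_simp

lemma hasDerivAt_cL1 (hR0 : 0 ≤ R) (hR1 : R < 1) (hp0 : 0 < p) (hp1 : p ≤ 1) :
    HasDerivAt (cL1 R) (cL2 R p) p := by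
  have hS := cS_pos hR1 hR0 hp0.le
  have hg : 0 < 1 + R * p := by positivity
  have h := ((((hasDerivAt_id p).const_mul (2 * R)).const_add (1 - R)).mul
    (hasDerivAt_cW hR0 hR1 hp0 hp1)).const_sub (-log (1 - R))
  refine h.congr_deriv ?_
  unfold cL2
  simp only [id_eq]
  field_simp
  unfold cS
  ring

lemma cW_le (hR0 : 0 ≤ R) (hR1 : R < 1) (hp0 : 0 < p) (hp1 : p ≤ 1) :
    cA R p / cM R p ≤ R / cS R p * (1 + R ^ 2 * p / (3 * ((1 - R) * (1 + R * p)))) := by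
  have hS := cS_pos hR1 hR0 hp0.le
  have hm := cM_pos hR0 hR1 hp0
  have hx := cX_mem hR0 hR1 hp0.le hp1
  obtain ⟨x, hxdef⟩ : ∃ x, x = R * cM R p / cS R p := ⟨_, rfl⟩
  rw [← hxdef] at hx
  have hx1 : x < 1 := lt_of_le_of_lt hx.2 hR1
  have hv := one_sub_sq_pos (show -1 < x by linarith [hx.1]) hx1
  have hle : atanhR x ≤ x * (1 + x ^ 2 / (3 * (1 - x ^ 2))) := by
    have := (atanhR_series_bounds hx.1 hx1).2
    have h5 : 0 ≤ x ^ 5 := pow_nonneg hx.1 5
    rw [mul_add, mul_one, ← mul_div_assoc, ← sub_le_iff_le_add', le_div_iff₀ (by positivity)]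
    linarith
  have e1 : 1 - x ^ 2 = (1 - R) * (1 + R * p) / cS R p := by
    rw [hxdef]; exact one_sub_cX_sq hR0 hR1 hp0.le
  have e2 : x ^ 2 = R ^ 2 * p / cS R p := by
    rw [hxdef, div_pow, mul_pow, cM_sq hR0 hR1 hp0.le]; field_simp
  rw [div_le_iff₀ hm, cA, ← hxdef]
  refine hle.trans (le_of_eq ?_)
  rw [e1, e2, hxdef]
  have hv' : 0 < 1 - R := by linarith
  have hg : 0 < 1 + R * p := by positivity
  field_simp

lemma cL2_nonpos (hR0 : 0 ≤ R) (hR1 : R < 1) (hp0 : 0 < p) (hp1 : p ≤ 1) : cL2 R p ≤ 0 := by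
  have hS := cS_pos hR1 hR0 hp0.le
  have hv : 0 < 1 - R := by linarith
  have hg : 0 < 1 + R * p := by positivity
  refine div_nonpos_of_nonpos_of_nonneg ?_ (by positivity)
  have h := mul_le_mul_of_nonneg_left (cW_le hR0 hR1 hp0 hp1) (sq_nonneg (1 - R))
  have h2 : (1 - R) ^ 2 * (R / cS R p * (1 + R ^ 2 * p / (3 * ((1 - R) * (1 + R * p)))))
      ≤ R * (1 - R + 2 * R * p) / (1 + R * p) := by
    rw [← sub_nonneg]
    have e : R * (1 - R + 2 * R * p) / (1 + R * p)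
        - (1 - R) ^ 2 * (R / cS R p * (1 + R ^ 2 * p / (3 * ((1 - R) * (1 + R * p)))))
        = R * (3 * (cS R p * (1 - R + 2 * R * p)) - (1 - R) * (3 * (1 - R) * (1 + R * p) + R ^ 2 * p))
          / (3 * (cS R p * (1 + R * p))) := by
      field_simp
    rw [e]
    refine div_nonneg (mul_nonneg hR0 ?_) (by positivity)
    unfold cS
    nlinarith [mul_nonneg (mul_nonneg hR0 hp0.le) hv.le, sq_nonneg (R * p)]
  linarith

lemma cL_concaveOn (hR0 : 0 ≤ R) (hR1 : R < 1) : ConcaveOn ℝ (Icc 0 1) (cL R) :=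
  concaveOn_of_hasDerivWithinAt2_nonpos (convex_Icc 0 1) (continuousOn_cL hR0 hR1)
    (fun x hx => by
      rw [interior_Icc] at hx ⊢; exact (hasDerivAt_cL hR0 hR1 hx.1 hx.2.le).hasDerivWithinAt)
    (fun x hx => by
      rw [interior_Icc] at hx ⊢; exact (hasDerivAt_cL1 hR0 hR1 hx.1 hx.2.le).hasDerivWithinAt)
    (fun x hx => by rw [interior_Icc] at hx; exact cL2_nonpos hR0 hR1 hx.1 hx.2.le)

lemma cL_nonneg (hR0 : 0 ≤ R) (hR1 : R < 1) (hp0 : 0 ≤ p) (hp1 : p ≤ 1) : 0 ≤ cL R p := by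
  have h := (cL_concaveOn hR0 hR1).2 (left_mem_Icc.2 (zero_le_one' ℝ))
    (right_mem_Icc.2 (zero_le_one' ℝ)) (show 0 ≤ 1 - p by linarith) hp0 (by ring)
  simpa [cL_zero, cL_one hR0 hR1] using h

/-- Third derivative of `cL` times `2 P²`. -/
lemma hasDerivAt_cL2 (hR0 : 0 ≤ R) (hR1 : R < 1) (hp0 : 0 < p) (hp1 : p ≤ 1) :
    HasDerivAt (cL2 R)
      ((3 / 2 * (1 - R) ^ 2 * R / (1 + R * p) + 2 * R ^ 2 * (p * cS R p) / (1 + R * p)
        + R ^ 2 * (1 - R + 2 * R * p) * (p * cS R p) / (1 + R * p) ^ 2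
        - 3 / 2 * (1 - R) ^ 2 * (1 - R + 2 * R * p) * (cA R p / cM R p))
        / (2 * (p * cS R p) ^ 2)) p := by
  have hS := cS_pos hR1 hR0 hp0.le
  have hg : 0 < 1 + R * p := by positivity
  have hden : HasDerivAt (fun t => 2 * (t * cS R t)) (2 * (1 - R + 2 * R * p)) p := by
    unfold cS
    exact (((hasDerivAt_id p).mul (((hasDerivAt_id p).const_mul R).const_add (1 - R))).const_mul
      (2 : ℝ)).congr_deriv (by simp only [id_eq]; ring)
  have hnum := ((hasDerivAt_cW hR0 hR1 hp0 hp1).const_mul ((1 - R) ^ 2)).sub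
    ((((((hasDerivAt_id p).const_mul (2 * R)).const_add (1 - R)).const_mul R).div
      (((hasDerivAt_id p).const_mul R).const_add 1) hg.ne'))
  refine (hnum.div hden (by positivity)).congr_deriv ?_
  simp only [id_eq, Pi.sub_apply, Pi.div_apply]
  field_simp
  unfold cS
  ring

lemma cL3_nonneg (hR0 : 0 ≤ R) (hR1 : R < 1) (hp0 : 0 < p) (hp1 : p ≤ 1) :
    0 ≤ 3 / 2 * (1 - R) ^ 2 * R / (1 + R * p) + 2 * R ^ 2 * (p * cS R p) / (1 + R * p)
        + R ^ 2 * (1 - R + 2 * R * p) * (p * cS R p) / (1 + R * p) ^ 2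
        - 3 / 2 * (1 - R) ^ 2 * (1 - R + 2 * R * p) * (cA R p / cM R p) := by
  have hS := cS_pos hR1 hR0 hp0.le
  have hv : 0 < 1 - R := by linarith
  have hg : 0 < 1 + R * p := by positivity
  have h2 : 0 ≤ 1 - R + 2 * R * p := by positivity
  have h := mul_le_mul_of_nonneg_left (cW_le hR0 hR1 hp0 hp1)
    (show 0 ≤ 3 / 2 * (1 - R) ^ 2 * (1 - R + 2 * R * p) by positivity)
  refine le_trans ?_ (sub_le_sub_left h _)
  have e : 3 / 2 * (1 - R) ^ 2 * R / (1 + R * p) + 2 * R ^ 2 * (p * cS R p) / (1 + R * p)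
        + R ^ 2 * (1 - R + 2 * R * p) * (p * cS R p) / (1 + R * p) ^ 2
        - 3 / 2 * (1 - R) ^ 2 * (1 - R + 2 * R * p)
          * (R / cS R p * (1 + R ^ 2 * p / (3 * ((1 - R) * (1 + R * p)))))
      = R ^ 2 * p / (cS R p * (1 + R * p) ^ 2)
        * ((2 * cS R p ^ 2 - 3 / 2 * (1 - R) ^ 2 * (1 + (1 - R) + 2 * R * p)
          - 1 / 2 * (1 - R) * R * (1 - R + 2 * R * p)) * (1 + R * p)
          + (1 - R + 2 * R * p) * cS R p ^ 2) := by
    field_simp
    unfold cS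
    ring
  rw [e]
  refine mul_nonneg (by positivity) ?_
  unfold cS
  nlinarith [mul_nonneg (mul_nonneg hR0 hp0.le) hv.le, sq_nonneg (R * p),
    mul_nonneg (mul_nonneg (sq_nonneg (R * p)) hR0) hp0.le, mul_nonneg (sq_nonneg (R * p)) hv.le,
    mul_nonneg (mul_nonneg (mul_nonneg hR0 hp0.le) hv.le) hv.le, pow_pos hv 3]

lemma bud_concaveOn (hR0 : 0 ≤ R) (hR1 : R < 1) : ConcaveOn ℝ (Ico 0 1) (bud R) := by
  set N : ℝ → ℝ := fun t => (1 - t) ^ 2 * cL2 R t + 2 * (1 - t) * cL1 R t + 2 * cL R t with hN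
  have hN' : ∀ x ∈ Ioc (0:ℝ) 1, HasDerivAt N ((1 - x) ^ 2 * deriv (cL2 R) x) x := by
    intro x hx
    have h3 := hasDerivAt_cL2 hR0 hR1 hx.1 hx.2
    have h := (((((hasDerivAt_id x).const_sub 1).pow 2).mul h3).add
      ((((hasDerivAt_id x).const_sub 1).const_mul 2).mul (hasDerivAt_cL1 hR0 hR1 hx.1 hx.2))).add
      ((hasDerivAt_cL hR0 hR1 hx.1 hx.2).const_mul 2)
    refine h.congr_deriv ?_
    rw [h3.deriv]
    simp only [id_eq, Pi.pow_apply]
    push_cast
    ring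
  have hNle : ∀ x ∈ Ioo (0:ℝ) 1, N x ≤ 0 := by
    intro x hx
    have hmono : MonotoneOn N (Icc x 1) := monotoneOn_of_hasDerivWithinAt_nonneg (convex_Icc x 1)
      (fun t ht => (hN' t ⟨lt_of_lt_of_le hx.1 ht.1, ht.2⟩).continuousAt.continuousWithinAt)
      (fun t ht => by
        rw [interior_Icc] at ht
        exact (hN' t ⟨lt_trans hx.1 ht.1, ht.2.le⟩).hasDerivWithinAt)
      (fun t ht => by
        rw [interior_Icc] at ht
        refine mul_nonneg (sq_nonneg _) ?_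
        rw [(hasDerivAt_cL2 hR0 hR1 (lt_trans hx.1 ht.1) ht.2.le).deriv]
        exact div_nonneg (cL3_nonneg hR0 hR1 (lt_trans hx.1 ht.1) ht.2.le) (by positivity))
    have := hmono (left_mem_Icc.2 hx.2.le) (right_mem_Icc.2 hx.2.le) hx.2.le
    simpa [hN, cL_one hR0 hR1] using this
  refine concaveOn_of_hasDerivWithinAt2_nonpos (convex_Ico 0 1)
    (f' := fun x => (cL1 R x * (1 - x) + cL R x) / (1 - x) ^ 2)
    (f'' := fun x => N x / (1 - x) ^ 3) ?_ ?_ ?_ ?_
  · exact ((continuousOn_cL hR0 hR1).mono Ico_subset_Icc_self).div (by fun_prop)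
      fun t ht => by linarith [ht.2]
  · intro x hx
    rw [interior_Ico] at hx ⊢
    exact (((hasDerivAt_cL hR0 hR1 hx.1 hx.2.le).div ((hasDerivAt_id x).const_sub 1)
      (by simp only [id_eq]; linarith [hx.2])).congr_deriv (by simp only [id_eq]; ring)).hasDerivWithinAt
  · intro x hx
    rw [interior_Ico] at hx ⊢
    have hne : 1 - x ≠ 0 := by linarith [hx.2]
    refine ((((hasDerivAt_cL1 hR0 hR1 hx.1 hx.2.le).mul ((hasDerivAt_id x).const_sub 1)).add
      (hasDerivAt_cL hR0 hR1 hx.1 hx.2.le)).div (((hasDerivAt_id x).const_sub 1).pow 2)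
      (pow_ne_zero 2 hne)).congr_deriv ?_ |>.hasDerivWithinAt
    simp only [id_eq, hN, Pi.add_apply, Pi.mul_apply, Pi.pow_apply]
    push_cast
    field_simp
    ring
  · intro x hx
    rw [interior_Ico] at hx
    exact div_nonpos_of_nonpos_of_nonneg (hNle x hx) (pow_nonneg (by linarith [hx.2]) 3)

lemma bud_zero : bud R 0 = 0 := by simp [bud, cL_zero]

lemma tendsto_bud (hR0 : 0 ≤ R) (hR1 : R < 1) :
    Tendsto (bud R) (𝓝[<] 1) (𝓝 (budEnd R)) := by
  have h := hasDerivAt_cL hR0 hR1 one_pos le_rfl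
  rw [hasDerivAt_iff_tendsto_slope] at h
  have e : budEnd R = -cL1 R 1 := by
    unfold budEnd cL1 cA cM cS
    simp only [mul_one, one_mul, sub_add_cancel, sqrt_one, div_one]
    ring
  rw [e]
  refine (h.neg.mono_left (nhdsWithin_mono _ fun t (ht : t < 1) => ne_of_lt ht)).congr' ?_
  filter_upwards [self_mem_nhdsWithin] with t (ht : t < 1)
  rw [slope_def_field, cL_one hR0 hR1, sub_zero, bud, ← div_neg, neg_sub]

lemma crossing_identity {r : ℝ} (hr0 : 0 < r) (hr1 : r < 1) (hp0 : 0 ≤ p) (hp1 : p < 1) :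
    (1 - p) * r * atanhR r - 2 * gapJ (cM (r^2) p + (1 - p) * r) (cM (r^2) p - (1 - p) * r)
        = cL (r^2) p + (1 - p) * r0 r ∧
      (ent (cM (r^2) p + (1 - p) * r) + ent (cM (r^2) p - (1 - p) * r)) / 2 - (1 - p) * ent r
        = log 2 * p - phi (cM (r^2) p) + cL (r^2) p / 2 ∧
      cM (r^2) p + (1 - p) * r < 1 := by
  have hR0 : (0:ℝ) ≤ r ^ 2 := sq_nonneg r
  have hR1 : r ^ 2 < 1 := by nlinarith
  have hS := cS_pos hR1 hR0 hp0
  set u := sqrt p with hu
  set w := sqrt (cS (r^2) p) with hw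
  have hu2 : u ^ 2 = p := sq_sqrt hp0
  have hw2 : w ^ 2 = cS (r^2) p := sq_sqrt hS.le
  have hm : cM (r^2) p = u * w := sqrt_mul hp0 _
  have hw0 : 0 < w := sqrt_pos.2 hS
  have hu0 : 0 ≤ u := sqrt_nonneg _
  have huw : u < w := sqrt_lt_sqrt hp0 (by unfold cS; nlinarith)
  set d := (1 - p) * r with hd
  rw [hm]
  have hd0 : 0 < d := mul_pos (by linarith) hr0
  have hlt : u * w + d < 1 := by
    have h1 : u * w ≤ (u ^ 2 + w ^ 2) / 2 := by nlinarith [sq_nonneg (u - w)]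
    rw [hu2, hw2] at h1
    have : 0 < (1 - p) * (1 - r) ^ 2 := mul_pos (by linarith) (pow_pos (by linarith) 2)
    unfold cS at h1
    linarith
  have hm0 : 0 ≤ u * w := mul_nonneg hu0 hw0.le
  have pa : 0 < 1 + (u * w + d) := by linarith
  have na : 0 < 1 - (u * w + d) := by linarith
  have pb : 0 < 1 + (u * w - d) := by linarith
  have nb : 0 < 1 - (u * w - d) := by linarith
  have key : ∀ x y z t : ℝ, 0 < x → 0 < y → 0 < z → 0 < t → x * y = z * t →
      log x + log y = log z + log t := fun x y z t hx hy hz ht h => by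
    rw [← log_mul hx.ne' hy.ne', ← log_mul hz.ne' ht.ne', h]
  have hr1' : 0 < 1 - r := by linarith
  have hp1' : 0 < 1 - p := by linarith
  have e1 : log (1 + (u * w + d)) + log (1 + (u * w - d)) = log (w + u) + log (w + u) :=
    key _ _ _ _ pa pb (by linarith) (by linarith) (by
      simp only [hd]
      ring_nf
      rw [hu2, hw2]; unfold cS; ring)
  have e2 : log (1 - (u * w + d)) + log (1 - (u * w - d)) = log (w - u) + log (w - u) :=
    key _ _ _ _ na nb (by linarith) (by linarith) (by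
      simp only [hd]
      ring_nf
      rw [hu2, hw2]; unfold cS; ring)
  have e3 : log (1 + (u * w + d)) + log (1 - (u * w - d))
      = log (1 - p) + log ((1 + r) ^ 2) :=
    key _ _ _ _ pa nb hp1' (by positivity) (by
      simp only [hd]
      ring_nf
      rw [hu2, hw2]; unfold cS; ring)
  have e4 : log (1 - (u * w + d)) + log (1 + (u * w - d))
      = log (1 - p) + log ((1 - r) ^ 2) :=
    key _ _ _ _ na pb hp1' (by positivity) (by
      simp only [hd]
      ring_nf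
      rw [hu2, hw2]; unfold cS; ring)
  rw [log_pow] at e3 e4
  push_cast at e3 e4
  have hg : 0 < 1 + r ^ 2 * p := by positivity
  have hS2 : log (1 - r ^ 2) + log (1 - p) = log (w + u) + log (w - u) :=
    key _ _ _ _ (by linarith) hp1' (by linarith) (by linarith) (by
      ring_nf
      rw [hu2, hw2]; unfold cS; ring)
  have hM : log (1 + u * w) + log (1 - u * w) = log (1 - p) + log (1 + r ^ 2 * p) :=
    key _ _ _ _ (by linarith) (by linarith) hp1' hg (by
      ring_nf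
      rw [hu2, hw2]; unfold cS; ring)
  -- the angle `x = R m / S`
  have hx : r ^ 2 * (u * w) / cS (r^2) p = r ^ 2 * u / w := by
    rw [← hw2]; field_simp
  have hxm := cX_mem hR0 hR1 hp0 hp1.le
  rw [hm, hx] at hxm
  have hxp : 0 < 1 - r ^ 2 * u / w := by linarith [hxm.2]
  have hxp' : 0 < 1 + r ^ 2 * u / w := by linarith [hxm.1]
  have e5 : (log (1 + u * w) + log (1 + r ^ 2 * u / w)) + log (w - u)
      = (log (1 - u * w) + log (1 - r ^ 2 * u / w)) + log (w + u) := by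
    rw [← log_mul (by linarith) hxp'.ne', ← log_mul (by linarith) hxp.ne']
    refine key _ _ _ _ (by positivity) (by linarith) (mul_pos (by linarith) hxp) (by linarith) ?_
    field_simp
    ring_nf
    rw [show u ^ 3 = u ^ 2 * u by ring, show w ^ 3 = w ^ 2 * w by ring, hu2, hw2]
    unfold cS; ring
  have hA : cA (r^2) p = (log (1 + r ^ 2 * u / w) - log (1 - r ^ 2 * u / w)) / 2 := by
    unfold cA atanhR; rw [hm, hx]
  have hvlog : log (1 - r ^ 2) = log (1 + r) + log (1 - r) := by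
    rw [show 1 - r ^ 2 = (1 + r) * (1 - r) by ring, log_mul (by linarith) hr1'.ne']
  have hh : log (1 - r) + log (1 + r) = log (1 - r ^ 2) := by linarith
  refine ⟨?_, ?_, hlt⟩
  · unfold cL gapJ r0
    rw [hA, hm]
    unfold phi atanhR
    rw [show (u * w + d + (u * w - d)) / 2 = u * w by ring]
    simp only [hd] at *
    linear_combination (-(1 + u * w) / 2) * e1 + (-(1 - u * w) / 2) * e2
      - ((1 - p) * r / 2) * e3 + ((1 - p) * r / 2) * e4 + (u * w) * e5 + hM + hS2 + (1 - p) * hh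
  · unfold cL ent
    rw [hA, hm]
    unfold phi
    simp only [hd] at *
    linear_combination (-(1 + u * w) / 4) * e1 + (-(1 - u * w) / 4) * e2
      - ((1 - p) * r / 4) * e3 + ((1 - p) * r / 4) * e4 + (u * w / 2) * e5 + (1/2) * hM + (1/2) * hS2 + ((1 - p) / 2) * hh

end

end Vale.Agent.P322
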