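import Mathlib
import Vale.Agent.P322.Crossing

/-!
Weights on the crossing curve, scaled by `1 / (1-p)`.
-/

namespace Vale.Agent.P322

/-- The constant `τ` of the weight. -/
noncomputable def tau : ℝ := 3 / 100

/-- The weight of the mean, scaled. -/
noncomputable def omega (R p : ℝ) : ℝ := (1 + R * p) * (1 - tau * (p * cS R p))

/-- The lower bound on the averaged weight of the two halves, scaled. -/
noncomputable def omegaBar (R p : ℝ) : ℝ :=
  omega R p - (1 - p) * R * (1 + tau - tau * (1 - p) ^ 2 * R)

end Vale.Agent.P322
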