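import Mathlib
import Vale.Agent.P322.CrossingStmt

/-!
The crossing inequality from finitely many endpoint checks: the budget is concave and the bounds on
the envelope are affine or convex on each piece.
-/

namespace Vale.Agent.P322

open Real Set Filter Topology

/-- Coefficient of `p` in the bound on `omega`. -/
noncomputable def ex (R : ℝ) : ℝ := max 0 (R - tau * (1 - R))

/-- Upper bound on `env ω h - r0 r`. -/
noncomputable def upB (r p : ℝ) : ℝ :=
  p * ex (r ^ 2) * aR r + 1 / 3 * (p * ex (r ^ 2)) ^ 2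

/-- Affine lower bound on `omegaBar`. -/
noncomputable def wlin (R p : ℝ) : ℝ :=
  (1 - R) * (1 - tau * R) + p * (2 * R * (1 - tau * R) - tau * (1 + R))

/-- Tangent line of parameter `t` at the affine lower bound of `omegaBar`. -/
noncomputable def tl (r t p : ℝ) : ℝ := line t (wlin (r ^ 2) p) (ent r)

lemma ex_nonneg (R : ℝ) : 0 ≤ ex R := le_max_left _ _

lemma omega_le {R p : ℝ} (hR0 : 0 ≤ R) (hR1 : R < 1) (hp0 : 0 ≤ p) :
    omega R p ≤ 1 + p * ex R := by
  have h1 : p * (R - tau * (1 - R)) ≤ p * ex R := mul_le_mul_of_nonneg_left (le_max_right _ _) hp0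
  have hv : 0 ≤ 1 - R := by linarith
  have h2 : p * (1 - R) ≤ p * cS R p * (1 + R * p) := by
    have : 1 - R ≤ cS R p := by unfold cS; nlinarith
    calc p * (1 - R) ≤ p * cS R p * 1 := by rw [mul_one]; exact mul_le_mul_of_nonneg_left this hp0
      _ ≤ _ := mul_le_mul_of_nonneg_left (by nlinarith)
            (mul_nonneg hp0 (cS_pos hR1 hR0 hp0).le)
  unfold omega tau at *
  linarith

lemma omega_pos {R p : ℝ} (hR0 : 0 ≤ R) (hR1 : R < 1) (hp0 : 0 ≤ p) (hp1 : p ≤ 1) :
    0 < omega R p := by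
  have h1 := cS_le_one hR0 hp1
  have h2 := (cS_pos hR1 hR0 hp0).le
  have h3 : p * cS R p ≤ 1 := mul_le_one₀ hp1 h2 h1
  unfold omega tau
  exact mul_pos (by positivity) (by linarith)

lemma wlin_le {R p : ℝ} (hR0 : 0 ≤ R) (hR1 : R < 1) (hp0 : 0 ≤ p) (hp1 : p ≤ 1) :
    wlin R p ≤ omegaBar R p := by
  have hv : 0 ≤ 1 - R := by linarith
  have hq : 0 ≤ 1 - p := by linarith
  unfold wlin omegaBar omega cS tau
  nlinarith [mul_nonneg (mul_nonneg hR0 hp0) hv, mul_nonneg (mul_nonneg hp0 hq) hR0,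
    mul_nonneg (mul_nonneg hp0 hq) hv, mul_nonneg (mul_nonneg (mul_nonneg hp0 hq) hR0) hR0,
    mul_nonneg (mul_nonneg (mul_nonneg hp0 hq) hR0) hv,
    mul_nonneg (mul_nonneg (mul_nonneg (mul_nonneg hp0 hq) hR0) hR0) hp0]

lemma wlin_pos {R p : ℝ} (hR0 : 0 ≤ R) (hR1 : R < 1) (hp0 : 0 ≤ p) (hp1 : p ≤ 1) :
    0 < wlin R p := by
  have h0 : 0 < (1 - R) * (1 - tau * R) := by
    unfold tau; exact mul_pos (by linarith) (by linarith)
  have h1 : 0 < (1 + R) * (1 - tau - tau * R) := by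
    unfold tau; exact mul_pos (by linarith) (by linarith)
  have e : wlin R p
      = (1 - p) * ((1 - R) * (1 - tau * R)) + p * ((1 + R) * (1 - tau - tau * R)) := by
    unfold wlin; ring
  rw [e]
  rcases hp0.lt_or_eq with h | h
  · have := mul_pos h h1
    have := mul_nonneg (show 0 ≤ 1 - p by linarith) h0.le
    linarith
  · subst h; linarith

/-- It suffices to beat `upB` by the budget plus some tangent line, or by the budget alone. -/
lemma crossing_suffices {r p : ℝ} (hr0 : 0 < r) (hr1 : r < 1) (hp0 : 0 ≤ p) (hp1 : p < 1)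
    (h : upB r p ≤ bud (r ^ 2) p ∨ ∃ t ∈ Ico (0:ℝ) 1, upB r p ≤ bud (r ^ 2) p + tl r t p) :
    env (omega (r^2) p) (ent r) - env (omegaBar (r^2) p) (ent r) ≤ bud (r^2) p + r0 r := by
  have hR0 : (0:ℝ) ≤ r ^ 2 := sq_nonneg r
  have hR1 : r ^ 2 < 1 := by nlinarith
  have he := ent_pos (show -1 < r by linarith) hr1
  have hw := wlin_pos hR0 hR1 hp0 hp1.le
  have hwb := lt_of_lt_of_le hw (wlin_le hR0 hR1 hp0 hp1.le)
  have hex := mul_nonneg hp0 (ex_nonneg (r ^ 2))
  have h1 := env_mono (omega_pos hR0 hR1 hp0 hp1.le) he (omega_le hR0 hR1 hp0)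
  have h2 := env_le_right he (show 1 ≤ 1 + p * ex (r ^ 2) by linarith)
  have e1 : slope' 1 (ent r) = aR r := by
    unfold slope'; rw [div_one, contact_ent ⟨hr0.le, hr1⟩]
  have e2 := env_eq one_pos (show r ∈ Ico (0:ℝ) 1 from ⟨hr0.le, hr1⟩)
  rw [one_mul, one_mul] at e2
  rw [e1, e2, add_sub_cancel_left] at h2
  rcases h with h | ⟨t, ht, h⟩
  · have := env_nonneg hwb he
    unfold upB at h
    linarith
  · have h3 := line_le_env hw he ht.1 ht.2
    have h4 := env_mono hw he (wlin_le hR0 hR1 hp0 hp1.le)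
    unfold upB tl at h
    linarith

lemma upB_convexOn (r : ℝ) : ConvexOn ℝ univ (upB r) := by
  refine convexOn_univ_of_deriv2_nonneg ?_ ?_ ?_
  · unfold upB; fun_prop
  · have : deriv (upB r) = fun p => ex (r ^ 2) * aR r + 2 / 3 * p * ex (r ^ 2) ^ 2 := by
      funext p
      refine HasDerivAt.deriv ?_
      unfold upB
      exact ((((hasDerivAt_id p).mul_const (ex (r ^ 2))).mul_const (aR r)).add
        ((((hasDerivAt_id p).mul_const (ex (r ^ 2))).pow 2).const_mul (1 / 3 : ℝ))).congr_deriv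
        (by simp only [id_eq]; push_cast; ring)
    rw [this]; fun_prop
  · intro p
    have h1 : deriv (upB r) = fun p => ex (r ^ 2) * aR r + 2 / 3 * p * ex (r ^ 2) ^ 2 := by
      funext p
      refine HasDerivAt.deriv ?_
      unfold upB
      exact ((((hasDerivAt_id p).mul_const (ex (r ^ 2))).mul_const (aR r)).add
        ((((hasDerivAt_id p).mul_const (ex (r ^ 2))).pow 2).const_mul (1 / 3 : ℝ))).congr_deriv
        (by simp only [id_eq]; push_cast; ring)
    rw [Function.iterate_succ, Function.iterate_one, Function.comp_apply, h1]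
    have h2 : HasDerivAt (fun p => ex (r ^ 2) * aR r + 2 / 3 * p * ex (r ^ 2) ^ 2)
        (2 / 3 * ex (r ^ 2) ^ 2) p :=
      ((((hasDerivAt_id p).const_mul (2 / 3 : ℝ)).mul_const (ex (r ^ 2) ^ 2)).const_add _).congr_deriv
        (by ring)
    rw [h2.deriv]
    positivity

/-- The slack of the budget plus a multiple of a tangent line is concave in `p`. -/
lemma slack_concaveOn {r : ℝ} (hr0 : 0 ≤ r) (hr1 : r < 1) (c t : ℝ) :
    ConcaveOn ℝ (Ico 0 1) (fun p => bud (r ^ 2) p + c * tl r t p - upB r p) := by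
  have hR1 : r ^ 2 < 1 := by nlinarith
  refine ((bud_concaveOn (sq_nonneg r) hR1).add ?_).sub
    ((upB_convexOn r).subset (subset_univ _) (convex_Ico 0 1))
  refine ⟨convex_Ico 0 1, fun x _ y _ a b _ _ hab => le_of_eq ?_⟩
  unfold tl line wlin
  simp only [smul_eq_mul]
  obtain rfl : b = 1 - a := by linarith
  ring

lemma slack_between {r c t a b p : ℝ} (hr0 : 0 ≤ r) (hr1 : r < 1) (ha : 0 ≤ a) (hb : b < 1)
    (hp : p ∈ Icc a b)
    (h1 : upB r a ≤ bud (r ^ 2) a + c * tl r t a) (h2 : upB r b ≤ bud (r ^ 2) b + c * tl r t b) :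
    upB r p ≤ bud (r ^ 2) p + c * tl r t p := by
  rcases (hp.1.trans hp.2).lt_or_eq with hab | hab
  · set μ := (b - p) / (b - a) with hμ
    have hba : 0 < b - a := by linarith
    have hμ0 : 0 ≤ μ := div_nonneg (by linarith [hp.2]) hba.le
    have hμ1 : 0 ≤ 1 - μ := by rw [sub_nonneg, hμ, div_le_one hba]; linarith [hp.1]
    have he : μ * a + (1 - μ) * b = p := by rw [hμ]; field_simp; ring
    have h := (slack_concaveOn hr0 hr1 c t).2 (show a ∈ Ico (0:ℝ) 1 from ⟨ha, by linarith⟩)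
      (show b ∈ Ico (0:ℝ) 1 from ⟨by linarith, hb⟩) hμ0 hμ1 (by ring)
    simp only [smul_eq_mul, he] at h
    have := mul_nonneg hμ0 (sub_nonneg.2 h1)
    have := mul_nonneg hμ1 (sub_nonneg.2 h2)
    linarith
  · subst hab
    obtain rfl : p = a := le_antisymm hp.2 hp.1
    exact h1

lemma slack_tail {r c t a p : ℝ} (hr0 : 0 ≤ r) (hr1 : r < 1) (ha : 0 ≤ a)
    (hp : a ≤ p) (hp1 : p < 1)
    (h1 : upB r a ≤ bud (r ^ 2) a + c * tl r t a)
    (h2 : upB r 1 ≤ budEnd (r ^ 2) + c * tl r t 1) :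
    upB r p ≤ bud (r ^ 2) p + c * tl r t p := by
  have hR1 : r ^ 2 < 1 := by nlinarith
  rcases hp.lt_or_eq with hap | hap
  swap
  · subst hap; exact h1
  set F : ℝ → ℝ := fun x => bud (r ^ 2) x + c * tl r t x - upB r x with hF
  have hlim : Tendsto (fun q => ((q - p) * F a + (p - a) * F q) / (q - a)) (𝓝[<] 1)
      (𝓝 (((1 - p) * F a + (p - a) * (budEnd (r ^ 2) + c * tl r t 1 - upB r 1)) / (1 - a))) := by
    have hid : Tendsto (fun q : ℝ => q) (𝓝[<] 1) (𝓝 1) := tendsto_nhdsWithin_of_tendsto_nhds tendsto_id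
    have hc : Continuous fun q => c * tl r t q - upB r q := by
      unfold tl line wlin upB; fun_prop
    have hFl : Tendsto F (𝓝[<] 1) (𝓝 (budEnd (r ^ 2) + c * tl r t 1 - upB r 1)) := by
      have := (tendsto_bud (sq_nonneg r) hR1).add ((hc.tendsto 1).mono_left nhdsWithin_le_nhds)
      simpa only [hF, add_sub_assoc] using this
    exact (((hid.sub_const p).mul_const (F a)).add (hFl.const_mul (p - a))).div
      (hid.sub_const a) (by linarith)
  have h0 : 0 ≤ ((1 - p) * F a + (p - a) * (budEnd (r ^ 2) + c * tl r t 1 - upB r 1)) / (1 - a) :=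
    div_nonneg (add_nonneg (mul_nonneg (by linarith) (by simp only [hF]; linarith))
      (mul_nonneg (by linarith) (by linarith))) (by linarith)
  have : ((1 - p) * F a + (p - a) * (budEnd (r ^ 2) + c * tl r t 1 - upB r 1)) / (1 - a) ≤ F p := by
    refine le_of_tendsto hlim ?_
    filter_upwards [Ioo_mem_nhdsLT hp1] with q hq
    have hqa : 0 < q - a := by linarith [hq.1]
    have h := (slack_concaveOn hr0 hr1 c t).2 (show a ∈ Ico (0:ℝ) 1 from ⟨ha, by linarith⟩)
      (show q ∈ Ico (0:ℝ) 1 from ⟨by linarith [hq.1], hq.2⟩)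
      (div_nonneg (show 0 ≤ q - p by linarith [hq.1]) hqa.le)
      (div_nonneg (show 0 ≤ p - a by linarith) hqa.le) (by field_simp; ring)
    have e : (q - p) / (q - a) * a + (p - a) / (q - a) * q = p := by field_simp; ring
    simp only [smul_eq_mul, e] at h
    refine le_trans (le_of_eq ?_) h
    simp only [hF]; ring
  have := h0.trans this
  simp only [hF] at this
  linarith

lemma slack_zero (r : ℝ) : upB r 0 ≤ bud (r ^ 2) 0 + 0 * tl r 0 0 := by
  simp [upB, bud_zero]

/-- One check suffices when the budget alone beats `upB` at `p = 1`. -/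
theorem crossing_of_end {r p : ℝ} (hr0 : 0 < r) (hr1 : r < 1) (hp0 : 0 ≤ p) (hp1 : p < 1)
    (h : upB r 1 ≤ budEnd (r ^ 2)) :
    env (omega (r^2) p) (ent r) - env (omegaBar (r^2) p) (ent r) ≤ bud (r^2) p + r0 r := by
  refine crossing_suffices hr0 hr1 hp0 hp1 (Or.inl ?_)
  have := slack_tail (c := 0) (t := 0) hr0.le hr1 le_rfl hp0 hp1 (slack_zero r)
    (by simpa using h)
  simpa using this

/-- Three pieces `[0, P₁]`, `[P₁, P₂]`, `[P₂, 1)` and five checks. -/
theorem crossing_of_three {r p P1 P2 t1 t2 : ℝ} (hr0 : 0 < r) (hr1 : r < 1)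
    (hp0 : 0 ≤ p) (hp1 : p < 1) (hP1 : 0 ≤ P1) (hP2 : P1 ≤ P2) (hP2' : P2 < 1)
    (ht1 : t1 ∈ Ico (0:ℝ) 1) (ht2 : t2 ∈ Ico (0:ℝ) 1)
    (c1 : upB r P1 ≤ bud (r ^ 2) P1)
    (c2 : upB r P1 ≤ bud (r ^ 2) P1 + tl r t1 P1)
    (c3 : upB r P2 ≤ bud (r ^ 2) P2 + tl r t1 P2)
    (c4 : upB r P2 ≤ bud (r ^ 2) P2 + tl r t2 P2)
    (c5 : upB r 1 ≤ budEnd (r ^ 2) + tl r t2 1) :
    env (omega (r^2) p) (ent r) - env (omegaBar (r^2) p) (ent r) ≤ bud (r^2) p + r0 r := by
  refine crossing_suffices hr0 hr1 hp0 hp1 ?_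
  rcases le_total p P1 with h1 | h1
  · left
    have := slack_between (c := 0) (t := 0) hr0.le hr1 le_rfl (lt_of_le_of_lt hP2 hP2') ⟨hp0, h1⟩
      (slack_zero r) (by simpa using c1)
    simpa using this
  right
  rcases le_total p P2 with h2 | h2
  · refine ⟨t1, ht1, ?_⟩
    have := slack_between (c := 1) (t := t1) hr0.le hr1 hP1 hP2' ⟨h1, h2⟩ (by simpa using c2)
      (by simpa using c3)
    simpa using this
  · refine ⟨t2, ht2, ?_⟩
    have := slack_tail (c := 1) (t := t2) hr0.le hr1 (hP1.trans hP2) h2 hp1 (by simpa using c4)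
      (by simpa using c5)
    simpa using this

end Vale.Agent.P322
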