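import Mathlib
import Vale.Agent.P322.CrossingPieces

/-!
The crossing inequality for `r² ≥ 99/100`: crude bounds in the variable `u = exp (-artanh r / 5)`.
-/

namespace Vale.Agent.P322

open Real Set

/-- `tanh x`, written through `exp (-2 x)`. -/
noncomputable def expT (E : ℝ) : ℝ := (1 - E) / (1 + E)

lemma expT_mem {E : ℝ} (h0 : 0 < E) (h1 : E < 1) : 0 < expT E ∧ expT E < 1 := by
  unfold expT
  exact ⟨div_pos (by linarith) (by linarith), by rw [div_lt_one (by linarith)]; linarith⟩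

lemma atanhR_expT {E : ℝ} (h0 : 0 < E) (h1 : E < 1) : atanhR (expT E) = -log E / 2 := by
  have hp : (0:ℝ) < 1 + E := by linarith
  unfold atanhR expT
  rw [show 1 + (1 - E) / (1 + E) = 2 / (1 + E) by field_simp; ring,
    show 1 - (1 - E) / (1 + E) = 2 * E / (1 + E) by field_simp; ring,
    log_div two_ne_zero hp.ne', log_div (by positivity) hp.ne', log_mul two_ne_zero h0.ne']
  ring

lemma one_sub_expT_sq {E : ℝ} (h0 : 0 < E) : 1 - expT E ^ 2 = 4 * E / (1 + E) ^ 2 := by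
  unfold expT; field_simp; ring

lemma beta_expT {E x : ℝ} (h0 : 0 < E) (h1 : E < 1) (hx : x = -log E / 2) :
    beta (expT E) = (1 - E ^ 2) / (4 * E * x) - 1 := by
  have hx0 : 0 < x := by rw [hx]; linarith [log_neg h0 h1]
  unfold beta
  rw [atanhR_expT h0 h1, ← hx, one_sub_expT_sq h0]
  unfold expT
  field_simp
  ring

lemma ent_expT {E x : ℝ} (h0 : 0 < E) (h1 : E < 1) (hx : x = -log E / 2) :
    ent (expT E) = 2 * x * E / (1 + E) + log (1 + E) := by
  have hm := expT_mem h0 h1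
  rw [ent_eq (by linarith [hm.1]) hm.2, atanhR_expT h0 h1, ← hx, one_sub_expT_sq h0,
    log_div (by positivity) (by positivity), log_mul (by norm_num) h0.ne', log_pow,
    show (4:ℝ) = 2 ^ 2 by norm_num, log_pow, show log E = -2 * x by rw [hx]; ring]
  unfold expT
  push_cast
  field_simp
  ring

lemma aR_expT {E x : ℝ} (h0 : 0 < E) (h1 : E < 1) (hx : x = -log E / 2) :
    aR (expT E) = x + 2 * x * E / (1 + E) + 2 * log (1 + E) - 2 * log 2
      + beta (expT E) * (2 * x * E / (1 + E) + log (1 + E)) := by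
  have he := ent_expT h0 h1 hx
  have hphi : phi (expT E) = log 2 - ent (expT E) := by unfold ent; ring
  unfold aR r0
  rw [atanhR_expT h0 h1, ← hx, hphi, he]
  unfold expT
  field_simp
  ring

lemma aR_expT_ge {E x : ℝ} (h0 : 0 < E) (h1 : E ≤ 1 / 3) (hx : x = -log E / 2) :
    x - 2 * log 2 + 1 / 2 + (1 - E) / (4 * x) ≤ aR (expT E) := by
  have h1' : E < 1 := by linarith
  have hx0 : 0 < x := by rw [hx]; linarith [log_neg h0 h1']
  have hl1 : E / (1 + E) ≤ log (1 + E) := by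
    have h := log_le_sub_one_of_pos (show (0:ℝ) < 1 / (1 + E) by positivity)
    rw [one_div, log_inv] at h
    have : E / (1 + E) = 1 - (1 + E)⁻¹ := by field_simp; ring
    linarith
  have hl2 : log (1 + E) ≤ E := by linarith [log_le_sub_one_of_pos (show (0:ℝ) < 1 + E by linarith)]
  rw [aR_expT h0 h1' hx, beta_expT h0 h1' hx, sub_mul, one_mul]
  have hA : 0 ≤ (1 - E ^ 2) / (4 * E * x) := div_nonneg (by nlinarith) (by positivity)
  have h2 := mul_le_mul_of_nonneg_left
    (show 2 * x * E / (1 + E) + E / (1 + E) ≤ 2 * x * E / (1 + E) + log (1 + E) by linarith) hA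
  have e : (1 - E ^ 2) / (4 * E * x) * (2 * x * E / (1 + E) + E / (1 + E))
      = (1 - E) / 2 + (1 - E) / (4 * x) := by field_simp; ring
  rw [e] at h2
  have h3 : 3 / 2 * E ≤ 2 * (E / (1 + E)) := by
    rw [mul_div_assoc', le_div_iff₀ (by linarith)]; nlinarith
  linarith

lemma mul_log_mono {v w p : ℝ} (hv : 0 < v) (hvw : v ≤ w) (hp : 0 ≤ p) :
    v * log (4 + 4 * p / v) ≤ w * log (4 + 4 * p / w) := by
  have hw : 0 < w := lt_of_lt_of_le hv hvw
  have a : 0 < 4 + 4 * p / v := by positivity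
  have b : 0 < 4 + 4 * p / w := by positivity
  have h := log_le_sub_one_of_pos (div_pos a b)
  rw [log_div a.ne' b.ne'] at h
  have h2 : (4 + 4 * p / v) / (4 + 4 * p / w) - 1 ≤ (w - v) / v := by
    rw [div_sub_one b.ne', div_le_div_iff₀ b hv]
    have e1 : (4 + 4 * p / v - (4 + 4 * p / w)) * v = (w - v) * (4 * p / w) := by field_simp; ring
    rw [e1]
    refine mul_le_mul_of_nonneg_left ?_ (by linarith)
    linarith
  have h3 := mul_le_mul_of_nonneg_left (h.trans h2) hv.le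
  rw [show v * ((w - v) / v) = w - v by field_simp] at h3
  have h4 : 1 ≤ log (4 + 4 * p / w) := by
    have : log (4:ℝ) ≤ log (4 + 4 * p / w) := log_le_log (by norm_num) (by
      linarith [show 0 ≤ 4 * p / w by positivity])
    rw [show (4:ℝ) = 2 ^ 2 by norm_num, log_pow] at this
    norm_num at this ⊢
    linarith [log_two_gt_d9]
  have := mul_le_mul_of_nonneg_left h4 (sub_nonneg.2 hvw)
  linarith

/-- A decreasing exponential times a linear function. -/
lemma lin_exp_le {x x0 a : ℝ} (hx0 : 0 < x0) (hx : x0 ≤ x) (ha : 1 ≤ a * x0) :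
    x * exp (-(a * x)) ≤ x0 * exp (-(a * x0)) := by
  have h := add_one_le_exp (a * (x - x0))
  have h1 : x ≤ x0 * exp (a * (x - x0)) := by
    have h2 := mul_le_mul_of_nonneg_left h hx0.le
    have h3 := mul_le_mul_of_nonneg_right ha (sub_nonneg.2 hx)
    linarith
  calc x * exp (-(a * x)) ≤ x0 * exp (a * (x - x0)) * exp (-(a * x)) :=
        mul_le_mul_of_nonneg_right h1 (exp_pos _).le
    _ = x0 * exp (-(a * x0)) := by rw [mul_assoc, ← exp_add]; ring_nf

lemma exp_236 : exp (-(236 / 100 : ℝ)) ≤ 945 / 10000 ∧ (943 / 10000 : ℝ) ≤ exp (-(236 / 100 : ℝ)) := by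
  have h1 : exp (236 / 100 : ℝ) = exp 1 * exp 1 * exp (36 / 100) := by
    rw [← exp_add, ← exp_add]; norm_num
  have hlo := Real.sum_le_exp_of_nonneg (show (0:ℝ) ≤ 36 / 100 by norm_num) 4
  have hhi := Real.exp_bound' (x := (36 / 100 : ℝ)) (by norm_num) (by norm_num) (n := 4) (by norm_num)
  norm_num [Finset.sum_range_succ, Nat.factorial] at hlo hhi
  have a := Real.exp_one_gt_d9
  have b := Real.exp_one_lt_d9
  rw [exp_neg, h1]
  constructor
  · rw [inv_le_comm₀ (by positivity) (by norm_num)]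
    calc (945 / 10000 : ℝ)⁻¹ ≤ 2.7182818283 * 2.7182818283 * 1.43257 := by norm_num
      _ ≤ _ := by gcongr; linarith
  · rw [le_inv_comm₀ (by norm_num) (by positivity)]
    calc exp 1 * exp 1 * exp (36 / 100) ≤ 2.7182818286 * 2.7182818286 * 1.4343 := by
          gcongr; linarith
      _ ≤ _ := by norm_num

lemma exp_177 : exp (-(177 / 100 : ℝ)) ≤ 1705 / 10000 := by
  have h1 : exp (177 / 100 : ℝ) = exp 1 * exp (77 / 100) := by
    rw [← exp_add]; norm_num
  have hlo := Real.sum_le_exp_of_nonneg (show (0:ℝ) ≤ 77 / 100 by norm_num) 6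
  norm_num [Finset.sum_range_succ, Nat.factorial] at hlo
  have a := Real.exp_one_gt_d9
  rw [exp_neg, h1, inv_le_comm₀ (by positivity) (by norm_num)]
  calc (1705 / 10000 : ℝ)⁻¹ ≤ 2.7182818283 * 2.15943 := by norm_num
    _ ≤ _ := by gcongr; linarith

lemma exp_413 : exp (-(413 / 100 : ℝ)) ≤ 161 / 10000 := by
  have h1 : exp (413 / 100 : ℝ) = exp 1 * exp 1 * exp 1 * exp 1 * exp (13 / 100) := by
    rw [← exp_add, ← exp_add, ← exp_add, ← exp_add]; norm_num
  have hlo := Real.sum_le_exp_of_nonneg (show (0:ℝ) ≤ 13 / 100 by norm_num) 4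
  norm_num [Finset.sum_range_succ, Nat.factorial] at hlo
  have a := Real.exp_one_gt_d9
  rw [exp_neg, h1, inv_le_comm₀ (by positivity) (by norm_num)]
  calc (161 / 10000 : ℝ)⁻¹
      ≤ 2.7182818283 * 2.7182818283 * 2.7182818283 * 2.7182818283 * 1.1388 := by norm_num
    _ ≤ _ := by gcongr; linarith

/-- Everything used about `r` when `r² ≥ 99/100`. -/
structure LargeData (r σ e : ℝ) : Prop where
  r0 : 0 < r
  r1 : r < 1
  hR : 99 / 100 ≤ r ^ 2
  he : 0 < e
  he' : e ≤ 2526 / 1000000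
  hσ : σ = -log e / 2
  hσ' : 295 / 100 ≤ σ
  hr : r = expT e

lemma largeData {r : ℝ} (h0 : 0 < r) (h1 : r < 1) (hR : 99 / 100 ≤ r ^ 2) :
    LargeData r (atanhR r) ((1 - r) / (1 + r)) := by
  set e := (1 - r) / (1 + r) with he
  have he0 : 0 < e := div_pos (by linarith) (by linarith)
  have hr : r = expT e := by rw [he, expT]; field_simp; ring
  have hr99 : 99 / 100 ≤ r := by nlinarith
  have hee : e ≤ 1 / 396 := by
    rw [he, div_le_div_iff₀ (by linarith) (by norm_num)]; nlinarith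
  have hσ : atanhR r = -log e / 2 := by
    rw [hr]; exact atanhR_expT he0 (by linarith)
  refine ⟨h0, h1, hR, he0, by linarith, hσ, ?_, hr⟩
  have h396 : exp (59 / 10 : ℝ) ≤ 396 := by
    have h6 : exp (59 / 10 : ℝ) * exp (1 / 10) = exp 1 ^ 6 := by
      rw [← exp_add, ← exp_nat_mul]; norm_num
    have h2 := add_one_le_exp (1 / 10 : ℝ)
    have h3 : exp 1 ^ 6 ≤ 404 := by
      refine le_trans (pow_le_pow_left₀ (exp_pos 1).le Real.exp_one_lt_d9.le 6) ?_
      norm_num
    have h4 := mul_le_mul_of_nonneg_left h2 (exp_pos (59 / 10 : ℝ)).le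
    linarith
  have h := log_le_log he0 hee
  have h2 : (59 / 10 : ℝ) ≤ log 396 := by
    rw [le_log_iff_exp_le (by norm_num)]; exact h396
  rw [one_div, log_inv] at h
  linarith

variable {r σ e : ℝ}

lemma LargeData.exps (D : LargeData r σ e) :
    e = exp (-(σ / 5)) ^ 10 ∧ exp (-(σ / 5)) ^ 3 ≤ 1705 / 10000 ∧
    exp (-(σ / 5)) ^ 4 ≤ 945 / 10000 ∧ exp (-(σ / 5)) ^ 7 ≤ 161 / 10000 ∧
    σ * exp (-(σ / 5)) ^ 4 ≤ 2788 / 10000 ∧
    (16 / 10 * σ - 424 / 100) * exp (-(σ / 5)) ^ 7 ≤ 197 / 10000 ∧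
    943 / 10000 * (1 - 4 / 5 * (σ - 295 / 100)) ≤ exp (-(σ / 5)) ^ 4 ∧
    σ * e ≤ 81 / 10000 := by
  have hs := D.hσ'
  have hpow : ∀ k : ℕ, exp (-(σ / 5)) ^ k = exp (-((k:ℝ) / 5 * σ)) := fun k => by
    rw [← exp_nat_mul]; ring_nf
  have hee : e = exp (-(2 * σ)) := by
    rw [D.hσ, show -(2 * (-log e / 2)) = log e by ring, exp_log D.he]
  obtain ⟨a4, b4⟩ := exp_236
  refine ⟨?_, ?_, ?_, ?_, ?_, ?_, ?_, ?_⟩
  · rw [hpow, hee]; norm_num
  · rw [hpow]; exact (exp_le_exp.2 (by push_cast; linarith)).trans exp_177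
  · rw [hpow]; exact (exp_le_exp.2 (by push_cast; linarith)).trans a4
  · rw [hpow]; exact (exp_le_exp.2 (by push_cast; linarith)).trans exp_413
  · rw [hpow]
    refine (lin_exp_le (x0 := 295 / 100) (by norm_num) hs (by norm_num)).trans ?_
    rw [show -((4:ℕ) / 5 * (295 / 100) : ℝ) = -(236 / 100) by norm_num]
    linarith
  · have hy : 1 + 7 / 5 * (σ - 295 / 100) ≤ exp (7 / 5 * (σ - 295 / 100)) := by
      linarith [add_one_le_exp (7 / 5 * (σ - 295 / 100))]
    have h1 : 16 / 10 * σ - 424 / 100 ≤ 122 / 100 * exp (7 / 5 * (σ - 295 / 100)) := by linarith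
    refine (mul_le_mul_of_nonneg_right h1 (by positivity)).trans ?_
    rw [hpow, mul_assoc, ← exp_add]
    rw [show 7 / 5 * (σ - 295 / 100) + -((7:ℕ) / 5 * σ) = (-(413 / 100) : ℝ) by push_cast; ring]
    linarith [exp_413]
  · rw [hpow, show -((4:ℕ) / 5 * σ : ℝ) = -(236 / 100) + -(4 / 5 * (σ - 295 / 100)) by
      push_cast; ring, exp_add]
    rcases le_or_gt 0 (1 - 4 / 5 * (σ - 295 / 100)) with h | h
    · exact mul_le_mul b4 (by linarith [add_one_le_exp (-(4 / 5 * (σ - 295 / 100)))]) h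
        (exp_pos _).le
    · have := mul_pos (exp_pos (-(236 / 100) : ℝ)) (exp_pos (-(4 / 5 * (σ - 295 / 100))))
      linarith
  · rw [hee]
    refine (lin_exp_le (x0 := 295 / 100) (by norm_num) hs (by norm_num)).trans ?_
    rw [show (2 * (295 / 100) : ℝ) = 177 / 100 + 413 / 100 by norm_num, neg_add, exp_add]
    have := mul_le_mul exp_177 exp_413 (exp_pos _).le (by norm_num)
    linarith

lemma LargeData.ent_le (D : LargeData r σ e) : ent r ≤ (2 * σ + 1) * e := by
  have he := D.he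
  have hs := D.hσ'
  rw [D.hr, ent_expT he (by linarith [D.he']) D.hσ]
  have h2 : 2 * σ * e / (1 + e) ≤ 2 * σ * e := div_le_self (by positivity) (by linarith)
  linarith [log_le_sub_one_of_pos (show (0:ℝ) < 1 + e by linarith)]

lemma LargeData.aR_le (D : LargeData r σ e) : aR r ≤ σ - 2 * log 2 + 61 / 100 := by
  have he := D.he
  have he' := D.he'
  have hs := D.hσ'
  have hσe := D.exps.2.2.2.2.2.2.2
  have hent0 := ent_pos (show -1 < r by linarith [D.r0]) D.r1
  have h2 : 2 * σ * e / (1 + e) ≤ 2 * σ * e := div_le_self (by positivity) (by linarith)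
  have hl : log (1 + e) ≤ e := by linarith [log_le_sub_one_of_pos (show (0:ℝ) < 1 + e by linarith)]
  have hb : beta r ≤ 1 / (4 * e * σ) := by
    rw [D.hr, beta_expT he (by linarith) D.hσ]
    have : (1 - e ^ 2) / (4 * e * σ) ≤ 1 / (4 * e * σ) :=
      div_le_div_of_nonneg_right (by linarith [sq_nonneg e]) (by positivity)
    linarith
  have h3 := mul_le_mul hb D.ent_le hent0.le (by positivity)
  have h4 : 1 / (4 * e * σ) * ((2 * σ + 1) * e) ≤ 1 / 2 + 848 / 10000 := by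
    rw [show 1 / (4 * e * σ) * ((2 * σ + 1) * e) = (2 * σ + 1) / (4 * σ) by field_simp,
      div_le_iff₀ (by linarith)]
    linarith
  rw [D.hr] at h3 hb ⊢
  rw [aR_expT he (by linarith) D.hσ, ← ent_expT he (by linarith) D.hσ]
  linarith

/-- The budget minus `upB` at a small `p`, given a bound `Λ` on `log (4e + p)`. -/
lemma LargeData.slack_ge (D : LargeData r σ e) {p Λ : ℝ} (hp0 : 0 < p) (hp1 : p ≤ 1 / 2)
    (hΛ : log (4 * e + p) ≤ Λ) :
    p * (-Λ + 99 / 100 - σ - 61 / 100 - p / 3) - 2 * e * (Λ + 2 * σ)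
      ≤ bud (r ^ 2) p - upB r p := by
  set R := r ^ 2 with hRdef
  have hR := D.hR
  have hR0 : 0 ≤ R := sq_nonneg r
  have hR1 : R < 1 := by nlinarith [D.r0, D.r1]
  have he := D.he
  have hv : 1 - R = 4 * e / (1 + e) ^ 2 := by rw [hRdef, D.hr]; exact one_sub_expT_sq he
  have hv4 : 1 - R ≤ 4 * e := by
    rw [hv]; exact div_le_self (by positivity) (one_le_pow₀ (by linarith))
  have hS := cS_pos hR1 hR0 hp0.le
  have hSle : cS R p ≤ 1 - R + p := by unfold cS; nlinarith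
  have hSge : 1 - R ≤ cS R p := by unfold cS; nlinarith
  have hg : 0 < 1 + R * p := by positivity
  -- upper bound on the artanh
  have hx := cX_mem hR0 hR1 hp0.le (by linarith : p ≤ 1)
  have hA0 := cA_nonneg hR0 hR1 hp0.le (by linarith : p ≤ 1)
  have hA : cA R p ≤ log 2 + (log (cS R p) - log (1 - R) - log (1 + R * p)) / 2 := by
    set x := R * cM R p / cS R p with hxdef
    have hx1 : x < 1 := lt_of_le_of_lt hx.2 hR1
    have e1 : 1 - x ^ 2 = (1 - R) * (1 + R * p) / cS R p := one_sub_cX_sq hR0 hR1 hp0.le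
    have h1 : atanhR x = log (1 + x) - log (1 - x ^ 2) / 2 := by
      rw [show 1 - x ^ 2 = (1 + x) * (1 - x) by ring, log_mul (by linarith [hx.1]) (by linarith)]
      unfold atanhR; ring
    have h2 : log (1 + x) ≤ log 2 := log_le_log (by linarith [hx.1]) (by linarith)
    rw [e1, log_div (mul_pos (by linarith) hg).ne' hS.ne', log_mul (by linarith) hg.ne'] at h1
    show atanhR x ≤ _
    linarith
  have hm : 2 * cM R p ≤ 2 * p + (1 - R) := by
    have h := cM_sq hR0 hR1 hp0.le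
    have h1 : 2 * cM R p ≤ p + cS R p := by
      nlinarith [sq_nonneg (p - cS R p), cM_nonneg (R := R) (p := p)]
    have : cS R p ≤ p + (1 - R) := by linarith
    linarith
  have hmA := mul_le_mul hm hA hA0 (by linarith : 0 ≤ 2 * p + (1 - R))
  have hlg : 0 ≤ log (1 + R * p) := log_nonneg (by nlinarith)
  have hlg' : 99 / 100 * p ≤ (1 + p) * log (1 + R * p) := by
    have h := log_le_sub_one_of_pos (inv_pos.2 hg)
    rw [log_inv] at h
    have h2 : R * p / (1 + R * p) ≤ log (1 + R * p) := by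
      have : R * p / (1 + R * p) = 1 - (1 + R * p)⁻¹ := by field_simp; ring
      linarith
    refine le_trans ?_ (mul_le_mul_of_nonneg_left h2 (by linarith : 0 ≤ 1 + p))
    rw [mul_div_assoc', le_div_iff₀ hg]
    nlinarith [mul_nonneg hp0.le (sub_nonneg.2 hR), mul_nonneg (sq_nonneg p) hR0]
  have hpen : (1 - R) / 2 * (2 * log 2 - log (1 - R) + log (cS R p))
      ≤ 2 * e * (Λ + 2 * σ) := by
    have h1 : 2 * log 2 - log (1 - R) + log (cS R p) ≤ log (4 + 4 * p / (1 - R)) := by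
      rw [show 4 + 4 * p / (1 - R) = (2:ℝ) ^ 2 * (1 - R + p) / (1 - R) by
          field_simp [show (1 - R) ≠ 0 by linarith]; ring,
        log_div (by nlinarith) (by linarith), log_mul (by norm_num) (by linarith), log_pow]
      push_cast
      linarith [log_le_log hS hSle]
    have h2 := mul_log_mono (by linarith : 0 < 1 - R) hv4 hp0.le
    have h3 : log (4 + 4 * p / (4 * e)) = log (4 * e + p) + 2 * σ := by
      rw [D.hσ, show 4 + 4 * p / (4 * e) = (4 * e + p) / e by field_simp,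
        log_div (by positivity) he.ne']
      ring
    rw [h3] at h2
    have h4 := mul_le_mul_of_nonneg_left h1 (show 0 ≤ (1 - R) / 2 by linarith)
    have h5 := mul_le_mul_of_nonneg_left hΛ (show 0 ≤ 2 * e by linarith)
    linarith
  have hlS : log (cS R p) ≤ Λ := (log_le_log hS (by linarith)).trans hΛ
  have hbud : cL R p ≤ bud R p := by
    rw [bud, le_div_iff₀ (by linarith : 0 < 1 - p)]
    nlinarith [cL_nonneg hR0 hR1 hp0.le (by linarith : p ≤ 1)]
  have hup : upB r p ≤ p * (σ - 2 * log 2 + 61 / 100) + p ^ 2 / 3 := by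
    have ha := D.aR_le
    have hex : ex R ≤ 1 := max_le zero_le_one (by unfold tau; linarith)
    have hex0 := ex_nonneg R
    have ha0 := aR_nonneg D.r0.le D.r1
    have h1 : p * ex R * aR r ≤ p * 1 * (σ - 2 * log 2 + 61 / 100) :=
      mul_le_mul (mul_le_mul_of_nonneg_left hex hp0.le) ha ha0 (by linarith)
    have h2 : (p * ex R) ^ 2 ≤ p ^ 2 := by
      refine pow_le_pow_left₀ (by positivity) ?_ 2
      calc p * ex R ≤ p * 1 := mul_le_mul_of_nonneg_left hex hp0.le
        _ = p := mul_one p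
    unfold upB
    rw [← hRdef]
    linarith
  have hp' := mul_le_mul_of_nonneg_left hlS hp0.le
  have hgv := mul_nonneg (show 0 ≤ 1 - R by linarith) hlg
  unfold cL at hbud
  linarith

/-- The tangent line of parameter `expT E` at a point `p`. -/
lemma LargeData.tl_ge (D : LargeData r σ e) {E x p A : ℝ} (hE : 0 < E) (hE3 : E ≤ 1 / 3)
    (hx : x = -log E / 2) (hp0 : 0 ≤ p) (hA0 : 0 ≤ A) (hA : A ≤ aR (expT E)) :
    A * (186 / 100 * p + 385 / 100 * e) - (1 / (4 * E * x) - 1) * ((2 * σ + 1) * e)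
      ≤ tl r (expT E) p := by
  have hE1 : E < 1 := by linarith
  have hm := expT_mem hE hE1
  have hx0 : 0 < x := by rw [hx]; linarith [log_neg hE hE1]
  have he := D.he
  have hR := D.hR
  have hR1 : r ^ 2 < 1 := by nlinarith [D.r0, D.r1]
  have hw : 186 / 100 * p + 385 / 100 * e ≤ wlin (r ^ 2) p := by
    have hv : 385 / 100 * e ≤ (1 - r ^ 2) * (1 - tau * r ^ 2) := by
      have h1 : 397 / 100 * e ≤ 1 - r ^ 2 := by
        rw [D.hr, one_sub_expT_sq he, le_div_iff₀ (by positivity)]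
        have h2 : (1 + e) ^ 2 ≤ 1 + 201 / 100 * e := by nlinarith [D.he']
        calc 397 / 100 * e * (1 + e) ^ 2 ≤ 397 / 100 * e * (1 + 201 / 100 * e) :=
              mul_le_mul_of_nonneg_left h2 (by positivity)
          _ ≤ 397 / 100 * e * (10051 / 10000) :=
              mul_le_mul_of_nonneg_left (by linarith [D.he']) (by positivity)
          _ ≤ 4 * e := by linarith
      have h3 : (97 / 100 : ℝ) ≤ 1 - tau * r ^ 2 := by unfold tau; linarith
      have := mul_le_mul h1 h3 (by norm_num) (by linarith)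
      linarith
    have hb : 186 / 100 ≤ 2 * r ^ 2 * (1 - tau * r ^ 2) - tau * (1 + r ^ 2) := by
      unfold tau
      nlinarith [mul_nonneg (sub_nonneg.2 hR) (sub_nonneg.2 hR1.le)]
    have := mul_le_mul_of_nonneg_left hb hp0
    unfold wlin
    linarith
  have hb : beta (expT E) ≤ 1 / (4 * E * x) - 1 := by
    rw [beta_expT hE hE1 hx]
    have : (1 - E ^ 2) / (4 * E * x) ≤ 1 / (4 * E * x) :=
      div_le_div_of_nonneg_right (by linarith [sq_nonneg E]) (by positivity)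
    linarith
  have hb0 := beta_nonneg hm.1.le hm.2
  have h1 := mul_le_mul hA hw (by positivity) (hA0.trans hA)
  have h2 := mul_le_mul hb D.ent_le (ent_pos (by linarith [D.r0]) D.r1).le (hb0.trans hb)
  unfold tl line
  linarith

/-- The tangent parameter at `P₁`. -/
noncomputable def largeA1 (σ : ℝ) : ℝ := 33496 / 100000 * σ - 5028 / 10000

/-- The tangent parameter at `P₂`. -/
noncomputable def largeA2 (σ : ℝ) : ℝ := 7 / 10 * σ - 8863 / 10000

lemma LargeData.logs (D : LargeData r σ e) :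
    log (4 * e + 7 / 10 * exp (-(σ / 5)) ^ 6) ≤ -(6 / 5 * σ) + 79 / 1000 ∧
    log (4 * e + 1 / 2 * exp (-(σ / 5)) ^ 3) ≤ -(3 / 5 * σ) - 56 / 100 := by
  obtain ⟨he10, hu3, hu4, hu7, -⟩ := D.exps
  set u := exp (-(σ / 5)) with hudef
  have hu0 : 0 < u := exp_pos _
  have hlu : log u = -(σ / 5) := log_exp _
  have hl2 := log_two_gt_d9
  constructor
  · rw [show 4 * e + 7 / 10 * u ^ 6 = u ^ 6 * (4 * u ^ 4 + 7 / 10) by rw [he10]; ring,
      log_mul (by positivity) (by positivity), log_pow, hlu]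
    have h := log_le_sub_one_of_pos (show (0:ℝ) < 4 * u ^ 4 + 7 / 10 by positivity)
    push_cast
    linarith
  · rw [show 4 * e + 1 / 2 * u ^ 3 = u ^ 3 * (4 * u ^ 7 + 1 / 2) by rw [he10]; ring,
      log_mul (by positivity) (by positivity), log_pow, hlu]
    have h := log_le_sub_one_of_pos (show (0:ℝ) < 2 * (4 * u ^ 7 + 1 / 2) by positivity)
    rw [log_mul two_ne_zero (by positivity)] at h
    push_cast
    linarith

lemma LargeData.tl1 (D : LargeData r σ e) {p : ℝ} (hp : 0 ≤ p) :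
    largeA1 σ * (186 / 100 * p + 385 / 100 * e)
        - (1 / (4 * exp (-(σ / 5)) ^ 4 * (2 / 5 * σ)) - 1) * ((2 * σ + 1) * e)
      ≤ tl r (expT (exp (-(σ / 5)) ^ 4)) p ∧ 48 / 100 ≤ largeA1 σ := by
  obtain ⟨-, -, hu4, -⟩ := D.exps
  have hs := D.hσ'
  set u := exp (-(σ / 5)) with hudef
  have hx : 2 / 5 * σ = -log (u ^ 4) / 2 := by
    rw [log_pow, hudef, log_exp]; push_cast; ring
  have hE : 0 < u ^ 4 := pow_pos (exp_pos _) 4
  have hA0 : 48 / 100 ≤ largeA1 σ := by unfold largeA1; linarith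
  refine ⟨D.tl_ge hE (by linarith) hx hp (by linarith) ?_, hA0⟩
  refine le_trans ?_ (aR_expT_ge hE (by linarith) hx)
  have h1 : (9055 / 10000 : ℝ) / (4 * (2 / 5 * σ)) ≤ (1 - u ^ 4) / (4 * (2 / 5 * σ)) :=
    div_le_div_of_nonneg_right (by linarith) (by positivity)
  have h2 : 3836 / 10000 - 1626 / 10000 * (2 / 5 * σ) ≤ (9055 / 10000 : ℝ) / (4 * (2 / 5 * σ)) := by
    rw [le_div_iff₀ (by positivity)]
    nlinarith [sq_nonneg (2 / 5 * σ - 11796 / 10000)]
  have := log_two_lt_d9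
  unfold largeA1
  linarith

lemma LargeData.tl2 (D : LargeData r σ e) {p : ℝ} (hp : 0 ≤ p) :
    largeA2 σ * (186 / 100 * p + 385 / 100 * e)
        - (1 / (4 * exp (-(σ / 5)) ^ 7 * (7 / 10 * σ)) - 1) * ((2 * σ + 1) * e)
      ≤ tl r (expT (exp (-(σ / 5)) ^ 7)) p ∧ 0 ≤ largeA2 σ := by
  obtain ⟨-, -, -, hu7, -⟩ := D.exps
  have hs := D.hσ'
  set u := exp (-(σ / 5)) with hudef
  have hx : 7 / 10 * σ = -log (u ^ 7) / 2 := by
    rw [log_pow, hudef, log_exp]; push_cast; ring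
  have hE : 0 < u ^ 7 := pow_pos (exp_pos _) 7
  have hA0 : 0 ≤ largeA2 σ := by unfold largeA2; linarith
  refine ⟨D.tl_ge hE (by linarith) hx hp hA0 ?_, hA0⟩
  refine le_trans ?_ (aR_expT_ge hE (by linarith) hx)
  have : 0 ≤ (1 - u ^ 7) / (4 * (7 / 10 * σ)) := div_nonneg (by linarith) (by positivity)
  have := log_two_lt_d9
  unfold largeA2
  linarith

lemma LargeData.checks_P1 (D : LargeData r σ e) :
    upB r (7 / 10 * exp (-(σ / 5)) ^ 6) ≤ bud (r ^ 2) (7 / 10 * exp (-(σ / 5)) ^ 6) ∧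
    upB r (7 / 10 * exp (-(σ / 5)) ^ 6) ≤ bud (r ^ 2) (7 / 10 * exp (-(σ / 5)) ^ 6)
      + tl r (expT (exp (-(σ / 5)) ^ 4)) (7 / 10 * exp (-(σ / 5)) ^ 6) := by
  obtain ⟨he10, hu3, hu4, -, hσu4, -, hlow, -⟩ := D.exps
  obtain ⟨hΛ, -⟩ := D.logs
  have hs := D.hσ'
  set u := exp (-(σ / 5)) with hudef
  have hu0 : 0 < u := exp_pos _
  set P := 7 / 10 * u ^ 6 with hP
  have hu6 : u ^ 6 ≤ 291 / 10000 := by
    calc u ^ 6 = u ^ 3 * u ^ 3 := by ring
      _ ≤ (1705 / 10000) * (1705 / 10000) := mul_le_mul hu3 hu3 (by positivity) (by norm_num)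
      _ ≤ _ := by norm_num
  have hPp : 0 < P := by positivity
  have heP : e = 10 / 7 * (u ^ 4 * P) := by rw [hP, he10]; ring
  have F := D.slack_ge hPp (by linarith) hΛ
  obtain ⟨T, hA0⟩ := D.tl1 hPp.le
  rw [← hudef] at T
  have q : (1 / (4 * u ^ 4 * (2 / 5 * σ)) - 1) * ((2 * σ + 1) * e)
      ≤ P * (20886 / 10000 - 10 / 7 * ((2 * σ + 1) * u ^ 4)) := by
    have h : (2 * σ + 1) / (8 / 5 * σ) * (10 / 7) ≤ 20886 / 10000 := by
      rw [div_mul_eq_mul_div, div_le_iff₀ (by positivity)]; linarith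
    have hσ0 : σ ≠ 0 := by linarith
    have e1 : (1 / (4 * u ^ 4 * (2 / 5 * σ)) - 1) * ((2 * σ + 1) * e)
        = P * ((2 * σ + 1) / (8 / 5 * σ) * (10 / 7) - 10 / 7 * ((2 * σ + 1) * u ^ 4)) := by
      rw [heP]; field_simp; ring
    rw [e1]
    exact mul_le_mul_of_nonneg_left (by linarith) hPp.le
  rw [heP] at F T q
  have hu40 : 0 ≤ u ^ 4 := by positivity
  constructor
  · have h : 0 ≤ -(-(6 / 5 * σ) + 79 / 1000) + 99 / 100 - σ - 61 / 100 - P / 3
        - 2 * (10 / 7 * u ^ 4) * (-(6 / 5 * σ) + 79 / 1000 + 2 * σ) := by linarith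
    have := mul_nonneg hPp.le h
    linarith
  · have hA := mul_le_mul_of_nonneg_right hA0 hu40
    have hK := mul_le_mul_of_nonneg_right hs hu40
    have h : 0 ≤ (-(-(6 / 5 * σ) + 79 / 1000) + 99 / 100 - σ - 61 / 100 - P / 3
        - 2 * (10 / 7 * u ^ 4) * (-(6 / 5 * σ) + 79 / 1000 + 2 * σ))
        + (186 / 100 * largeA1 σ + 55 / 10 * (largeA1 σ * u ^ 4))
        - (20886 / 10000 - 10 / 7 * ((2 * σ + 1) * u ^ 4)) := by
      have : largeA1 σ = 33496 / 100000 * σ - 5028 / 10000 := rfl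
      linarith
    have := mul_nonneg hPp.le h
    linarith

lemma LargeData.checks_P2 (D : LargeData r σ e) :
    upB r (1 / 2 * exp (-(σ / 5)) ^ 3) ≤ bud (r ^ 2) (1 / 2 * exp (-(σ / 5)) ^ 3)
      + tl r (expT (exp (-(σ / 5)) ^ 4)) (1 / 2 * exp (-(σ / 5)) ^ 3) ∧
    upB r (1 / 2 * exp (-(σ / 5)) ^ 3) ≤ bud (r ^ 2) (1 / 2 * exp (-(σ / 5)) ^ 3)
      + tl r (expT (exp (-(σ / 5)) ^ 7)) (1 / 2 * exp (-(σ / 5)) ^ 3) := by
  obtain ⟨he10, hu3, -, hu7, -, hmix, -, -⟩ := D.exps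
  obtain ⟨-, hΛ⟩ := D.logs
  have hs := D.hσ'
  have he := D.he
  set u := exp (-(σ / 5)) with hudef
  have hu0 : 0 < u := exp_pos _
  set P := 1 / 2 * u ^ 3 with hP
  have hPp : 0 < P := by positivity
  have hσ0 : σ ≠ 0 := by linarith
  have heP : e = 2 * (u ^ 7 * P) := by rw [hP, he10]; ring
  have F := D.slack_ge hPp (by linarith) hΛ
  obtain ⟨T1, hA10⟩ := D.tl1 hPp.le
  obtain ⟨T2, hA20⟩ := D.tl2 hPp.le
  rw [← hudef] at T1 T2
  have heq : 2 * e * (-(3 / 5 * σ) - 56 / 100 + 2 * σ)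
      = P * (2 * (2 * u ^ 7) * (-(3 / 5 * σ) - 56 / 100 + 2 * σ)) := by
    rw [heP]; ring
  constructor
  · have q : (1 / (4 * u ^ 4 * (2 / 5 * σ)) - 1) * ((2 * σ + 1) * e)
        ≤ P * (4988 / 10000 - 2 * ((2 * σ + 1) * u ^ 7)) := by
      have h : (2 * σ + 1) / (8 / 5 * σ) ≤ 14625 / 10000 := by
        rw [div_le_iff₀ (by positivity)]; linarith
      have h' := mul_le_mul h (mul_le_mul_of_nonneg_left hu3 zero_le_two) (by positivity) (by norm_num)
      have e1 : (1 / (4 * u ^ 4 * (2 / 5 * σ)) - 1) * ((2 * σ + 1) * e)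
          = P * ((2 * σ + 1) / (8 / 5 * σ) * (2 * u ^ 3) - 2 * ((2 * σ + 1) * u ^ 7)) := by
        rw [heP]; field_simp; ring
      rw [e1]
      exact mul_le_mul_of_nonneg_left (by linarith) hPp.le
    have h : 0 ≤ (-(-(3 / 5 * σ) - 56 / 100) + 99 / 100 - σ - 61 / 100 - P / 3
        - 2 * (2 * u ^ 7) * (-(3 / 5 * σ) - 56 / 100 + 2 * σ))
        + 186 / 100 * largeA1 σ - (4988 / 10000 - 2 * ((2 * σ + 1) * u ^ 7)) := by
      have : largeA1 σ = 33496 / 100000 * σ - 5028 / 10000 := rfl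
      linarith
    have := mul_nonneg hPp.le h
    have : 0 ≤ largeA1 σ * e := mul_nonneg (by linarith) he.le
    linarith
  · have q : (1 / (4 * u ^ 7 * (7 / 10 * σ)) - 1) * ((2 * σ + 1) * e)
        ≤ P * (16708 / 10000 - 2 * ((2 * σ + 1) * u ^ 7)) := by
      have h : (2 * σ + 1) / (14 / 5 * σ) ≤ 8354 / 10000 := by
        rw [div_le_iff₀ (by positivity)]; linarith
      have e1 : (1 / (4 * u ^ 7 * (7 / 10 * σ)) - 1) * ((2 * σ + 1) * e)
          = P * ((2 * σ + 1) / (14 / 5 * σ) * 2 - 2 * ((2 * σ + 1) * u ^ 7)) := by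
        rw [heP]; field_simp; ring
      rw [e1]
      exact mul_le_mul_of_nonneg_left (by linarith) hPp.le
    have h : 0 ≤ (-(-(3 / 5 * σ) - 56 / 100) + 99 / 100 - σ - 61 / 100 - P / 3
        - 2 * (2 * u ^ 7) * (-(3 / 5 * σ) - 56 / 100 + 2 * σ))
        + 186 / 100 * largeA2 σ - (16708 / 10000 - 2 * ((2 * σ + 1) * u ^ 7)) := by
      have : largeA2 σ = 7 / 10 * σ - 8863 / 10000 := rfl
      linarith
    have := mul_nonneg hPp.le h
    have : 0 ≤ largeA2 σ * e := mul_nonneg hA20 he.le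
    linarith

lemma LargeData.check_end (D : LargeData r σ e) :
    upB r 1 ≤ budEnd (r ^ 2) + tl r (expT (exp (-(σ / 5)) ^ 7)) 1 := by
  obtain ⟨he10, hu3, -, -, -, -, -, hσe⟩ := D.exps
  have hs := D.hσ'
  have he := D.he
  have he' := D.he'
  have hl2a := log_two_gt_d9
  obtain ⟨T, hA20⟩ := D.tl2 zero_le_one
  set u := exp (-(σ / 5)) with hudef
  have hu0 : 0 < u := exp_pos _
  have hσ0 : σ ≠ 0 := by linarith
  have q : (1 / (4 * u ^ 7 * (7 / 10 * σ)) - 1) * ((2 * σ + 1) * e) ≤ 1425 / 10000 := by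
    have e1 : (1 / (4 * u ^ 7 * (7 / 10 * σ)) - 1) * ((2 * σ + 1) * e)
        = (2 * σ + 1) / (14 / 5 * σ) * u ^ 3 - (2 * σ + 1) * e := by
      rw [he10]; field_simp; ring
    rw [e1]
    have h : (2 * σ + 1) / (14 / 5 * σ) ≤ 8354 / 10000 := by
      rw [div_le_iff₀ (by positivity)]; linarith
    have := mul_le_mul h hu3 (by positivity) (by norm_num)
    have : 0 ≤ (2 * σ + 1) * e := by positivity
    linarith
  set R := r ^ 2 with hRdef
  have hR := D.hR
  have hR1 : R < 1 := by nlinarith [D.r0, D.r1]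
  have hup : upB r 1 ≤ σ - 2 * log 2 + 61 / 100 + 1 / 3 := by
    have hex : ex R ≤ 1 := max_le zero_le_one (by unfold tau; linarith)
    have hex0 := ex_nonneg R
    have h1 := mul_le_mul hex D.aR_le (aR_nonneg D.r0.le D.r1) zero_le_one
    have h2 : ex R ^ 2 ≤ 1 := pow_le_one₀ hex0 hex
    unfold upB
    rw [← hRdef]
    linarith
  have hbud : 651 / 1000 ≤ budEnd R := by
    have e1 : budEnd R = (1 + R) / 2 * log (1 + R) + (1 - R) / 2 * log (1 - R) := by
      unfold budEnd atanhR; ring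
    have hl : log 2 - 10 / 1990 ≤ log (1 + R) := by
      have h := log_le_sub_one_of_pos (show (0:ℝ) < 2 / (199 / 100) by norm_num)
      rw [log_div two_ne_zero (by norm_num)] at h
      have := log_le_log (show (0:ℝ) < 199 / 100 by norm_num) (show (199:ℝ) / 100 ≤ 1 + R by linarith)
      norm_num at h this ⊢
      linarith
    have hv : 1 - R = 4 * e / (1 + e) ^ 2 := by rw [hRdef, D.hr]; exact one_sub_expT_sq he
    have hlv : -(2 * σ) ≤ log (1 - R) := by
      rw [D.hσ, show -(2 * (-log e / 2)) = log e by ring]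
      refine log_le_log he ?_
      rw [hv, le_div_iff₀ (by positivity)]
      have h2 : (1 + e) ^ 2 ≤ 4 := by nlinarith
      nlinarith
    have hv4 : 1 - R ≤ 4 * e := by
      rw [hv]; exact div_le_self (by positivity) (one_le_pow₀ (by linarith))
    have h3 := mul_le_mul (show (199:ℝ) / 200 ≤ (1 + R) / 2 by linarith) hl (by linarith) (by linarith)
    have h4 := mul_le_mul_of_nonneg_left hlv (show 0 ≤ (1 - R) / 2 by linarith)
    have h5 := mul_le_mul_of_nonneg_right hv4 (show 0 ≤ σ by linarith)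
    rw [e1]
    linarith
  have : largeA2 σ = 7 / 10 * σ - 8863 / 10000 := rfl
  have hA : 0 ≤ largeA2 σ * e := mul_nonneg hA20 he.le
  linarith

/-- The crossing inequality for `r² ≥ 99/100`. -/
theorem crossing_large {r p : ℝ} (hr : 99 / 100 ≤ r ^ 2) (hr0 : 0 < r) (hr1 : r < 1)
    (hp0 : 0 ≤ p) (hp1 : p < 1) :
    env (omega (r^2) p) (ent r) - env (omegaBar (r^2) p) (ent r) ≤ bud (r^2) p + r0 r := by
  have D := largeData hr0 hr1 hr
  obtain ⟨c1, c2⟩ := D.checks_P1
  obtain ⟨c3, c4⟩ := D.checks_P2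
  obtain ⟨-, hu3, hu4, hu7, -⟩ := D.exps
  set u := exp (-(atanhR r / 5)) with hudef
  have hu0 : 0 < u := exp_pos _
  have m1 := expT_mem (pow_pos hu0 4) (by linarith : u ^ 4 < 1)
  have m2 := expT_mem (pow_pos hu0 7) (by linarith : u ^ 7 < 1)
  refine crossing_of_three hr0 hr1 hp0 hp1 (by positivity) ?_ ?_ ⟨m1.1.le, m1.2⟩ ⟨m2.1.le, m2.2⟩
    c1 c2 c3 c4 D.check_end
  · have : u ^ 6 ≤ 1705 / 10000 * u ^ 3 := by
      calc u ^ 6 = u ^ 3 * u ^ 3 := by ring
        _ ≤ _ := mul_le_mul_of_nonneg_right hu3 (by positivity)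
    linarith [pow_pos hu0 3]
  · linarith

end Vale.Agent.P322
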