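import Mathlib
import Vale.Agent.P322.CrossingLarge
import Vale.Agent.P322.Mid.Small
import Vale.Agent.P322.Mid.I00
import Vale.Agent.P322.Mid.I01
import Vale.Agent.P322.Mid.I02
import Vale.Agent.P322.Mid.I03
import Vale.Agent.P322.Mid.I04
import Vale.Agent.P322.Mid.I05
import Vale.Agent.P322.Mid.I06
import Vale.Agent.P322.Mid.I07
import Vale.Agent.P322.Mid.I08
import Vale.Agent.P322.Mid.I09
import Vale.Agent.P322.Mid.I10
import Vale.Agent.P322.Mid.I11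
import Vale.Agent.P322.Mid.I12
import Vale.Agent.P322.Mid.I13
import Vale.Agent.P322.Mid.I14
import Vale.Agent.P322.Mid.I15

/-!
The crossing inequality for every `r ∈ (0, 1)`.
-/

namespace Vale.Agent.P322

open Real Set Filter Topology

theorem crossing_ineq {r p : ℝ} (hr0 : 0 < r) (hr1 : r < 1) (hp0 : 0 ≤ p) (hp1 : p < 1) :
    env (omega (r^2) p) (ent r) - env (omegaBar (r^2) p) (ent r) ≤ bud (r^2) p + r0 r := by
  rcases le_total (r ^ 2) ((80089 : ℝ) / 1000000) with h | h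
  · exact MidSmall.crossing hr0 hr1 h hp0 hp1
  rcases le_total (r ^ 2) ((1190281 : ℝ) / 6250000) with h0 | h0
  · exact Mid0.crossing hr0 hr1 ⟨h, h0⟩ hp0 hp1
  rcases le_total (r ^ 2) ((1247689 : ℝ) / 4000000) with h1 | h1
  · exact Mid1.crossing hr0 hr1 ⟨h0, h1⟩ hp0 hp1
  rcases le_total (r ^ 2) ((46335249 : ℝ) / 100000000) with h2 | h2
  · exact Mid2.crossing hr0 hr1 ⟨h1, h2⟩ hp0 hp1
  rcases le_total (r ^ 2) ((2518569 : ℝ) / 4000000) with h3 | h3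
  · exact Mid3.crossing hr0 hr1 ⟨h2, h3⟩ hp0 hp1
  rcases le_total (r ^ 2) ((77035729 : ℝ) / 100000000) with h4 | h4
  · exact Mid4.crossing hr0 hr1 ⟨h3, h4⟩ hp0 hp1
  rcases le_total (r ^ 2) ((87366409 : ℝ) / 100000000) with h5 | h5
  · exact Mid5.crossing hr0 hr1 ⟨h4, h5⟩ hp0 hp1
  rcases le_total (r ^ 2) ((576 : ℝ) / 625) with h6 | h6
  · exact Mid6.crossing hr0 hr1 ⟨h5, h6⟩ hp0 hp1
  rcases le_total (r ^ 2) ((23648769 : ℝ) / 25000000) with h7 | h7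
  · exact Mid7.crossing hr0 hr1 ⟨h6, h7⟩ hp0 hp1
  rcases le_total (r ^ 2) ((6017209 : ℝ) / 6250000) with h8 | h8
  · exact Mid8.crossing hr0 hr1 ⟨h7, h8⟩ hp0 hp1
  rcases le_total (r ^ 2) ((97239321 : ℝ) / 100000000) with h9 | h9
  · exact Mid9.crossing hr0 hr1 ⟨h8, h9⟩ hp0 hp1
  rcases le_total (r ^ 2) ((6115729 : ℝ) / 6250000) with h10 | h10
  · exact Mid10.crossing hr0 hr1 ⟨h9, h10⟩ hp0 hp1
  rcases le_total (r ^ 2) ((1535121 : ℝ) / 1562500) with h11 | h11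
  · exact Mid11.crossing hr0 hr1 ⟨h10, h11⟩ hp0 hp1
  rcases le_total (r ^ 2) ((1540081 : ℝ) / 1562500) with h12 | h12
  · exact Mid12.crossing hr0 hr1 ⟨h11, h12⟩ hp0 hp1
  rcases le_total (r ^ 2) ((98783721 : ℝ) / 100000000) with h13 | h13
  · exact Mid13.crossing hr0 hr1 ⟨h12, h13⟩ hp0 hp1
  rcases le_total (r ^ 2) ((6185169 : ℝ) / 6250000) with h14 | h14
  · exact Mid14.crossing hr0 hr1 ⟨h13, h14⟩ hp0 hp1
  rcases le_total (r ^ 2) ((39601 : ℝ) / 40000) with h15 | h15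
  · exact Mid15.crossing hr0 hr1 ⟨h14, h15⟩ hp0 hp1
  exact crossing_large (le_trans (by norm_num) h15) hr0 hr1 hp0 hp1

end Vale.Agent.P322
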