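import Mathlib
import Vale.Agent.P322.CrossingPieces

/-!
Polynomial sufficient conditions for the endpoint checks, in `R = r²` and `L = -log (1-R)`.
-/

namespace Vale.Agent.P322

open Real Set Filter Topology

/-- Upper bound for `L/2 - (artanh r / r - 1)`. -/
noncomputable def psiUp (T R : ℝ) : ℝ :=
  R / 6 + R ^ 2 / 20 + R ^ 3 / 42 + R ^ 4 / 72 + R ^ 5 / 110 + T * R ^ 6

/-- Lower bound for `artanh r / r`. -/
noncomputable def qA (T R L : ℝ) : ℝ := 1 + L / 2 - psiUp T R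

/-- Upper bound for `ent r`. -/
noncomputable def hA (T R L : ℝ) : ℝ := 693148 / 1000000 + L / 2 - R * qA T R L

/-- `(1-R) qA`. -/
noncomputable def vqA (T R L : ℝ) : ℝ := (1 - R) * qA T R L

/-- Upper bound for `aR r * vqA`. -/
noncomputable def numA (T R L : ℝ) : ℝ :=
  (L - R * qA T R L) * vqA T R L + (1 - vqA T R L) * hA T R L

/-- The check at `p = P`. -/
noncomputable def chk (T P A B κ R L : ℝ) : ℝ :=
  ((P * L + (R * P - (R * P) ^ 2 / 2 + (R * P) ^ 3 / 3 - (R * P) ^ 4 / 4) - 2 * P * R) * cS R P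
      - 2 * κ * P ^ 2 * R ^ 3) * vqA T R L / (1 - P)
    - cS R P * (P * (R - tau * (1 - R)) * numA T R L
      + 1 / 3 * (P * (R - tau * (1 - R))) ^ 2 * vqA T R L)
    + cS R P * vqA T R L * (A * wlin R P - B * hA T R L)

/-- The check at `p = 1`, from a lower bound `E` on `(1+R) log (1+R)`. -/
noncomputable def chkEnd (T E A B R L : ℝ) : ℝ :=
  vqA T R L * ((E - (1 - R) * L) / 2 + (A * wlin R 1 - B * hA T R L))
    - ((R - tau * (1 - R)) * numA T R L + 1 / 3 * (R - tau * (1 - R)) ^ 2 * vqA T R L)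

lemma quad_nonneg {F : ℝ → ℝ}
    (hq : ∀ L, F L = F 0 + (F 1 - F (-1)) / 2 * L + ((F 1 + F (-1)) / 2 - F 0) * L ^ 2)
    {lo hi L : ℝ} (hL : L ∈ Icc lo hi) (h0 : 0 ≤ F lo)
    (h1 : 0 ≤ 2 * F ((lo + hi) / 2) - (F lo + F hi) / 2) (h2 : 0 ≤ F hi) : 0 ≤ F L := by
  rcases (hL.1.trans hL.2).lt_or_eq with h | h
  · set θ := (L - lo) / (hi - lo) with hθ
    have hd : 0 < hi - lo := by linarith
    have t0 : 0 ≤ θ := div_nonneg (by linarith [hL.1]) hd.le
    have t1 : 0 ≤ 1 - θ := by rw [sub_nonneg, hθ, div_le_one hd]; linarith [hL.2]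
    have e : F L = (1 - θ) ^ 2 * F lo
        + 2 * θ * (1 - θ) * (2 * F ((lo + hi) / 2) - (F lo + F hi) / 2) + θ ^ 2 * F hi := by
      have eL : L = lo + θ * (hi - lo) := by rw [hθ]; field_simp; ring
      rw [hq L, hq lo, hq hi, hq ((lo + hi) / 2), eL]
      ring
    rw [e]; positivity
  · obtain rfl : L = lo := le_antisymm (by rw [h]; exact hL.2) hL.1
    exact h0

lemma chk_quad (T P A B κ R : ℝ) : ∀ L, chk T P A B κ R L = chk T P A B κ R 0
    + (chk T P A B κ R 1 - chk T P A B κ R (-1)) / 2 * L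
    + ((chk T P A B κ R 1 + chk T P A B κ R (-1)) / 2 - chk T P A B κ R 0) * L ^ 2 := by
  intro L; unfold chk numA hA vqA qA; ring

lemma chkEnd_quad (T E A B R : ℝ) : ∀ L, chkEnd T E A B R L = chkEnd T E A B R 0
    + (chkEnd T E A B R 1 - chkEnd T E A B R (-1)) / 2 * L
    + ((chkEnd T E A B R 1 + chkEnd T E A B R (-1)) / 2 - chkEnd T E A B R 0) * L ^ 2 := by
  intro L; unfold chkEnd numA hA vqA qA; ring

/-- Two-sided bounds on `-log (1-R)` from a base point. -/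
lemma nlog_bounds {Ra Rb R l0 l1 : ℝ} (h1 : Ra < 1) (hb : Rb < 1)
    (hR : R ∈ Icc Ra Rb) (hl0 : l0 ≤ -log (1 - Ra)) (hl1 : -log (1 - Ra) ≤ l1) :
    -log (1 - R) ∈ Icc
      (l0 + ((R - Ra) / (1 - Ra) + ((R - Ra) / (1 - Ra)) ^ 2 / 2 + ((R - Ra) / (1 - Ra)) ^ 3 / 3))
      (l1 + ((R - Ra) / (1 - Ra) + ((R - Ra) / (1 - Ra)) ^ 2 / 2 + ((R - Ra) / (1 - Ra)) ^ 3 / 3)
        + ((R - Ra) / (1 - Ra)) ^ 4 * (1 / (4 * (1 - (Rb - Ra) / (1 - Ra))))) := by
  have hv : 0 < 1 - Ra := by linarith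
  set u := (R - Ra) / (1 - Ra) with hu
  have hu0 : 0 ≤ u := div_nonneg (by linarith [hR.1]) hv.le
  have hum : u ≤ (Rb - Ra) / (1 - Ra) := div_le_div_of_nonneg_right (by linarith [hR.2]) hv.le
  have hum1 : (Rb - Ra) / (1 - Ra) < 1 := (div_lt_one hv).2 (by linarith)
  have hu1 : |u| < 1 := by rw [abs_of_nonneg hu0]; linarith
  have e : -log (1 - R) = -log (1 - Ra) + -log (1 - u) := by
    rw [show 1 - R = (1 - Ra) * (1 - u) by rw [hu]; field_simp; ring,
      log_mul hv.ne' (by linarith)]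
    ring
  have hs := hasSum_pow_div_log_of_abs_lt_one hu1
  have lo := sum_le_hasSum (Finset.range 3) (fun k _ => by positivity) hs
  norm_num [Finset.sum_range_succ] at lo
  have ht := (hasSum_nat_add_iff' 3).2 hs
  have hg := (hasSum_geometric_of_lt_one hu0 (by linarith)).mul_left (u ^ 4 / 4)
  have hle := hasSum_le (fun k => ?_) ht hg
  · norm_num [Finset.sum_range_succ] at hle
    have hle' : u ^ 4 / 4 * (1 - u)⁻¹ ≤ u ^ 4 * (1 / (4 * (1 - (Rb - Ra) / (1 - Ra)))) := by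
      have e4 : u ^ 4 / 4 * (1 - u)⁻¹ = u ^ 4 * (1 / (4 * (1 - u))) := by
        rw [one_div, mul_inv]; ring
      rw [e4]
      refine mul_le_mul_of_nonneg_left (one_div_le_one_div_of_le (by linarith) (by linarith))
        (pow_nonneg hu0 4)
    rw [e]
    exact ⟨by linarith, by linarith⟩
  · rw [show u ^ (k + 3 + 1) = u ^ 4 * u ^ k by rw [← pow_add]; ring_nf, div_mul_eq_mul_div]
    refine div_le_div_of_nonneg_left (by positivity) (by norm_num) ?_
    push_cast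
    linarith [(k.cast_nonneg : (0:ℝ) ≤ k)]

lemma hasSum_psi {s : ℝ} (h0 : 0 ≤ s) (h1 : s < 1) :
    HasSum (fun k : ℕ => s ^ (2 * k + 3) * (1 / ((2 * (k:ℝ) + 2) * (2 * k + 3))))
      (s * (nlog s / 2) - (atanhR s - s)) := by
  have hR : |s ^ 2| < 1 := by rw [abs_of_nonneg (sq_nonneg s)]; nlinarith
  have hL := (hasSum_pow_div_log_of_abs_lt_one hR).mul_left (s / 2)
  have hA := (hasSum_nat_add_iff' 1).2 (hasSum_atanhR (abs_lt.2 ⟨by linarith, h1⟩ : |s| < 1))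
  have e : s / 2 * -log (1 - s ^ 2)
      - (atanhR s - ∑ i ∈ Finset.range 1, s ^ (2 * i + 1) / (2 * (i:ℝ) + 1))
      = s * (nlog s / 2) - (atanhR s - s) := by
    norm_num [Finset.sum_range_succ]
    unfold nlog; ring
  rw [← e]
  refine (hL.sub hA).congr_fun fun k => ?_
  push_cast
  rw [← pow_mul, show 2 * (k + 1) + 1 = 2 * k + 3 by ring, show 2 * (k + 1) = 2 * k + 2 by ring,
    show s ^ (2 * k + 3) = s * s ^ (2 * k + 2) by ring]
  field_simp
  ring

/-- `qA ≤ artanh r / r` once `T` is large enough at the right end `rb`. -/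
lemma qA_le {T rb r : ℝ} (hr0 : 0 < r) (hr : r ≤ rb) (hrb : rb < 1)
    (hT : rb * (nlog rb / 2) - (atanhR rb - rb) ≤ rb * psiUp T (rb ^ 2)) :
    r * qA T (r ^ 2) (nlog r) ≤ atanhR r := by
  have hrb0 : 0 < rb := lt_of_lt_of_le hr0 hr
  have hs := (hasSum_nat_add_iff' 5).2 (hasSum_psi hr0.le (lt_of_le_of_lt hr hrb))
  have hb := ((hasSum_nat_add_iff' 5).2 (hasSum_psi hrb0.le hrb)).mul_left ((r / rb) ^ 13)
  have hle := hasSum_le (fun k => ?_) hs hb
  · norm_num [Finset.sum_range_succ] at hle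
    have hq : (r / rb) ^ 13 * (rb * psiUp T (rb ^ 2) - rb * (rb ^ 2 / 6 + (rb ^ 2) ^ 2 / 20
        + (rb ^ 2) ^ 3 / 42 + (rb ^ 2) ^ 4 / 72 + (rb ^ 2) ^ 5 / 110)) = T * r ^ 13 := by
      unfold psiUp; field_simp; ring
    have hm := mul_le_mul_of_nonneg_left hT (pow_nonneg (div_nonneg hr0.le hrb0.le) 13)
    unfold qA psiUp
    linarith
  · have e : (r / rb) ^ 13 * (rb ^ (2 * (k + 5) + 3)
          * (1 / ((2 * ((k + 5 : ℕ) : ℝ) + 2) * (2 * ((k + 5 : ℕ) : ℝ) + 3))))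
        = (r ^ 13 * rb ^ (2 * k)) * (1 / ((2 * ((k + 5 : ℕ) : ℝ) + 2) * (2 * ((k + 5 : ℕ) : ℝ) + 3))) := by
      rw [show 2 * (k + 5) + 3 = 13 + 2 * k by ring, pow_add, div_pow]
      field_simp
    rw [e]
    refine mul_le_mul_of_nonneg_right ?_ (by positivity)
    rw [show 2 * (k + 5) + 3 = 13 + 2 * k by ring, pow_add]
    exact mul_le_mul_of_nonneg_left (pow_le_pow_left₀ hr0.le hr _) (by positivity)

lemma poly_le_log_one_add {z : ℝ} (hz : 0 ≤ z) :
    z - z ^ 2 / 2 + z ^ 3 / 3 - z ^ 4 / 4 ≤ log (1 + z) := by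
  have key := monotoneOn_of_hasDerivWithinAt_nonneg (convex_Ici (0:ℝ))
    (f := fun x => log (1 + x) - (x - x ^ 2 / 2 + x ^ 3 / 3 - x ^ 4 / 4))
    (f' := fun x => x ^ 4 / (1 + x)) ?_ ?_ ?_ self_mem_Ici hz hz
  · norm_num at key
    linarith
  · exact (ContinuousOn.log (by fun_prop) fun x hx => by
      have : (0:ℝ) ≤ x := hx
      linarith).sub (by fun_prop)
  · intro x hx
    rw [interior_Ici] at hx
    have hx' : (0:ℝ) < x := hx
    have h := (((hasDerivAt_id x).const_add 1).log (show 1 + id x ≠ 0 by simp only [id_eq]; linarith)).sub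
      ((((hasDerivAt_id x).sub ((hasDerivAt_pow 2 x).div_const 2)).add
        ((hasDerivAt_pow 3 x).div_const 3)).sub ((hasDerivAt_pow 4 x).div_const 4))
    refine (h.congr_deriv ?_).hasDerivWithinAt
    simp only [id_eq, Nat.cast_ofNat]
    field_simp
    ring
  · intro x hx
    rw [interior_Ici] at hx
    have hx' : (0:ℝ) < x := hx
    positivity

section
variable {r T L0 : ℝ}

/-- Facts about the surrogates, given `qA ≤ artanh r / r`. -/
lemma surrogate_facts (hr0 : 0 < r) (hr1 : r < 1) (hT : T ≤ 1 / 2)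
    (hq : r * qA T (r ^ 2) (nlog r) ≤ atanhR r) :
    0 < vqA T (r ^ 2) (nlog r) ∧ ent r ≤ hA T (r ^ 2) (nlog r) ∧
      aR r * vqA T (r ^ 2) (nlog r) ≤ numA T (r ^ 2) (nlog r) := by
  have hv := one_sub_sq_pos (show -1 < r by linarith) hr1
  have hL : 0 ≤ nlog r := by
    have := log_nonpos hv.le (by nlinarith)
    unfold nlog; linarith
  set R := r ^ 2 with hR
  have hR0 : 0 ≤ R := sq_nonneg r
  have hR1 : R ≤ 1 := by linarith
  have hq0 : 0 < qA T R (nlog r) := by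
    have h2 : R ^ 2 ≤ 1 := pow_le_one₀ hR0 hR1
    have h3 : R ^ 3 ≤ 1 := pow_le_one₀ hR0 hR1
    have h4 : R ^ 4 ≤ 1 := pow_le_one₀ hR0 hR1
    have h5 : R ^ 5 ≤ 1 := pow_le_one₀ hR0 hR1
    have h6 : R ^ 6 ≤ 1 := pow_le_one₀ hR0 hR1
    have h6' : T * R ^ 6 ≤ 1 / 2 := by
      calc T * R ^ 6 ≤ 1 / 2 * R ^ 6 := mul_le_mul_of_nonneg_right hT (pow_nonneg hR0 6)
        _ ≤ _ := by linarith
    unfold qA psiUp; linarith
  set q := qA T R (nlog r)
  have hvq : 0 < (1 - R) * q := mul_pos hv hq0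
  have hent : ent r = log 2 + nlog r / 2 - r * atanhR r := by
    rw [ent_eq (by linarith) hr1]; unfold nlog; ring
  have he : ent r ≤ hA T R (nlog r) := by
    have h1 := mul_le_mul_of_nonneg_left hq hr0.le
    have := log_two_lt_d9
    rw [hent]; unfold hA; rw [hR] at *
    linarith
  refine ⟨hvq, he, ?_⟩
  have hσ := atanhR_pos hr0 hr1
  have hb1 : beta r * ((1 - R) * q) ≤ 1 - (1 - R) * q := by
    unfold beta
    rw [← hR, div_mul_eq_mul_div, div_le_iff₀ (mul_pos hv hσ)]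
    have hkey := mul_le_mul_of_nonneg_left hq hv.le
    have := mul_le_mul_of_nonneg_left hkey (show (0:ℝ) ≤ 1 by norm_num)
    nlinarith
  have hr0' : r0 r ≤ nlog r - R * q := by
    have h1 := mul_le_mul_of_nonneg_left hq hr0.le
    unfold r0
    rw [phi_eq (by linarith) hr1]
    unfold nlog
    have e : R * q = r * (r * q) := by rw [hR]; ring
    linarith
  have h1 := mul_le_mul_of_nonneg_right hr0' hvq.le
  have h2 : beta r * ((1 - R) * q) * ent r ≤ (1 - (1 - R) * q) * hA T R (nlog r) :=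
    mul_le_mul hb1 he (ent_pos (by linarith) hr1).le
      (le_trans (mul_nonneg (beta_nonneg hr0.le hr1) hvq.le) hb1)
  unfold aR numA vqA
  linarith

lemma tl_ge {t A B P : ℝ} (hr0 : 0 < r) (hr1 : r < 1) (hP0 : 0 ≤ P) (hP1 : P ≤ 1)
    (ht : t ∈ Ico (0:ℝ) 1) (hA' : A ≤ aR t) (hB : beta t ≤ B)
    (he : ent r ≤ hA T (r ^ 2) (nlog r)) :
    A * wlin (r ^ 2) P - B * hA T (r ^ 2) (nlog r) ≤ tl r t P := by
  have h1 := mul_le_mul_of_nonneg_right hA'
    (wlin_pos (sq_nonneg r) (by nlinarith) hP0 hP1).le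
  have h2 := mul_le_mul hB he (ent_pos (by linarith) hr1).le
    ((beta_nonneg ht.1 ht.2).trans hB)
  unfold tl line
  linarith

lemma ex_eq (hR : 3 / 103 ≤ r ^ 2) : ex (r ^ 2) = r ^ 2 - tau * (1 - r ^ 2) :=
  max_eq_right (by unfold tau; linarith)

/-- Soundness of `chk` for the budget plus a tangent line. -/
lemma chk_sound {t A B κ P ym : ℝ} (hr0 : 0 < r) (hr1 : r < 1) (hR : 3 / 103 ≤ r ^ 2)
    (hT : T ≤ 1 / 2) (hq : r * qA T (r ^ 2) (nlog r) ≤ atanhR r) (hP0 : 0 < P) (hP1 : P < 1)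
    (ht : t ∈ Ico (0:ℝ) 1) (hA' : A ≤ aR t) (hB : beta t ≤ B)
    (hym : (r ^ 2) ^ 2 * P ≤ ym * cS (r ^ 2) P) (hκ : ym ≤ 5 * (1 - ym) * (κ - 1 / 3))
    (hym1 : ym < 1) (h : 0 ≤ chk T P A B κ (r ^ 2) (nlog r)) :
    upB r P ≤ bud (r ^ 2) P + tl r t P := by
  obtain ⟨hvq, he, hnum⟩ := surrogate_facts hr0 hr1 hT hq
  have htl := tl_ge hr0 hr1 hP0.le hP1.le ht hA' hB he
  have hex := ex_eq hR
  set R := r ^ 2 with hRdef
  have hR0 : 0 ≤ R := sq_nonneg r
  have hR1 : R < 1 := by rw [hRdef]; nlinarith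
  have hS := cS_pos hR1 hR0 hP0.le
  have hm := cM_pos hR0 hR1 hP0
  have hx := cX_mem hR0 hR1 hP0.le hP1.le
  have hm2 := cM_sq hR0 hR1 hP0.le
  obtain ⟨x, hxd⟩ : ∃ x, x = R * cM R P / cS R P := ⟨_, rfl⟩
  rw [← hxd] at hx
  have hx1 : x < 1 := lt_of_le_of_lt hx.2 hR1
  have hy : x ^ 2 = R ^ 2 * P / cS R P := by
    rw [hxd, div_pow, mul_pow, hm2]; field_simp
  have hym' : x ^ 2 ≤ ym := by rw [hy, div_le_iff₀ hS]; exact hym
  have hat : atanhR x ≤ x * (1 + κ * x ^ 2) := by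
    have hb := (atanhR_series_bounds hx.1 hx1).2
    have hv := one_sub_sq_pos (show -1 < x by linarith [hx.1]) hx1
    have hκ0 : 0 ≤ κ - 1 / 3 := by
      by_contra hc
      rw [not_le] at hc
      have := mul_neg_of_pos_of_neg (show 0 < 5 * (1 - ym) by linarith) hc
      linarith [sq_nonneg x]
    have hk : x ^ 2 ≤ 5 * (1 - x ^ 2) * (κ - 1 / 3) := by
      have : 5 * (1 - ym) * (κ - 1 / 3) ≤ 5 * (1 - x ^ 2) * (κ - 1 / 3) :=
        mul_le_mul_of_nonneg_right (by linarith) hκ0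
      linarith
    have hk' := mul_le_mul_of_nonneg_left hk (pow_nonneg hx.1 3)
    by_contra hc
    rw [not_le] at hc
    have := mul_lt_mul_of_pos_right hc hv
    linarith
  have hbud : ((P * nlog r + (R * P - (R * P) ^ 2 / 2 + (R * P) ^ 3 / 3 - (R * P) ^ 4 / 4)
        - 2 * P * R) * cS R P - 2 * κ * P ^ 2 * R ^ 3) ≤ cL R P * cS R P := by
    have hl := poly_le_log_one_add (mul_nonneg hR0 hP0.le)
    have h2 : 2 * cM R P * cA R P * cS R P
        ≤ 2 * P * R * cS R P + 2 * κ * P ^ 2 * R ^ 3 := by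
      unfold cA
      rw [← hxd]
      have e : 2 * cM R P * (x * (1 + κ * x ^ 2)) * cS R P
          = 2 * P * R * cS R P + 2 * κ * P ^ 2 * R ^ 3 := by
        rw [hy, hxd]; field_simp; rw [hm2]; ring
      rw [← e]
      refine mul_le_mul_of_nonneg_right (mul_le_mul_of_nonneg_left hat (by positivity)) hS.le
    have := mul_le_mul_of_nonneg_right hl hS.le
    unfold cL nlog
    rw [← hRdef]
    linarith
  unfold chk at h
  unfold upB
  rw [← hRdef, hex]
  by_contra hc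
  rw [not_le] at hc
  have hexP : 0 ≤ P * (R - tau * (1 - R)) := by
    rw [← hex]; exact mul_nonneg hP0.le (ex_nonneg R)
  have k1 := mul_le_mul_of_nonneg_right hbud
    (show 0 ≤ vqA T R (nlog r) / (1 - P) by exact div_nonneg hvq.le (by linarith))
  have k2 := mul_le_mul_of_nonneg_left hnum (mul_nonneg hexP hS.le)
  have k3 := mul_le_mul_of_nonneg_left htl (mul_nonneg hS.le hvq.le)
  have k4 := mul_lt_mul_of_pos_left hc (mul_pos hS hvq)
  have e : cS R P * vqA T R (nlog r) * bud R P = cL R P * cS R P * (vqA T R (nlog r) / (1 - P)) := by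
    unfold bud; ring
  refine absurd k4 (not_lt.2 ?_)
  linear_combination h + k1 + k2 + k3 - e

/-- Soundness of `chkEnd`. -/
lemma chkEnd_sound {t A B E : ℝ} (hr0 : 0 < r) (hr1 : r < 1) (hR : 3 / 103 ≤ r ^ 2)
    (hT : T ≤ 1 / 2) (hq : r * qA T (r ^ 2) (nlog r) ≤ atanhR r)
    (ht : t ∈ Ico (0:ℝ) 1) (hA' : A ≤ aR t) (hB : beta t ≤ B)
    (hE : E ≤ (1 + r ^ 2) * log (1 + r ^ 2))
    (h : 0 ≤ chkEnd T E A B (r ^ 2) (nlog r)) :
    upB r 1 ≤ budEnd (r ^ 2) + tl r t 1 := by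
  obtain ⟨hvq, he, hnum⟩ := surrogate_facts hr0 hr1 hT hq
  have htl := tl_ge hr0 hr1 zero_le_one le_rfl ht hA' hB he
  have hex := ex_eq hR
  have hex0 : 0 ≤ r ^ 2 - tau * (1 - r ^ 2) := by rw [← hex]; exact ex_nonneg _
  have hbe : budEnd (r ^ 2) = ((1 + r ^ 2) * log (1 + r ^ 2) - (1 - r ^ 2) * nlog r) / 2 := by
    unfold budEnd nlog atanhR; ring
  unfold chkEnd at h
  unfold upB
  rw [hex, one_mul, hbe]
  by_contra hc
  rw [not_le] at hc
  have k2 := mul_le_mul_of_nonneg_left hnum hex0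
  have k3 := mul_le_mul_of_nonneg_left htl hvq.le
  have k4 := mul_lt_mul_of_pos_left hc hvq
  have k5 := mul_le_mul_of_nonneg_left hE hvq.le
  linarith

end

/-- Tangent lower bound on `(1+x) log (1+x)`. -/
lemma entropy_tangent {c x l : ℝ} (hc : 0 ≤ c) (hx : 0 ≤ x) (hcx : c ≤ x) (hl : l ≤ log (1 + c)) :
    (1 + c) * l + (l + 1) * (x - c) ≤ (1 + x) * log (1 + x) := by
  have h := one_sub_inv_le_log_of_pos (show 0 < (1 + x) / (1 + c) by positivity)
  rw [log_div (by linarith) (by linarith), inv_div] at h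
  have h2 := mul_le_mul_of_nonneg_left h (show (0:ℝ) ≤ 1 + x by linarith)
  have e : (1 + x) * (1 - (1 + c) / (1 + x)) = x - c := by field_simp; ring
  rw [e] at h2
  have h3 := mul_le_mul_of_nonneg_left hl (show (0:ℝ) ≤ 1 + x by linarith)
  linarith

/-- Second order lower bound on `(1+x) log (1+x)` near `0`. -/
lemma entropy_taylor {x : ℝ} (hx : 0 ≤ x) (hx1 : x ≤ 1 / 3) :
    x + x ^ 2 / 2 - x ^ 3 / 6 ≤ (1 + x) * log (1 + x) := by
  have h := mul_le_mul_of_nonneg_left (poly_le_log_one_add hx) (show (0:ℝ) ≤ 1 + x by linarith)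
  linarith [mul_nonneg (pow_nonneg hx 4) (show 0 ≤ 1 / 3 - x by linarith)]

/-- Numeric bounds on the slope and intercept of a tangent line. -/
lemma tconst {t sl sh Ll A B : ℝ} (ht0 : 0 < t) (ht1 : t < 1) (hsl0 : 0 < sl)
    (hsl : sl ≤ atanhR t) (hsh : atanhR t ≤ sh) (hLl : Ll ≤ nlog t)
    (hb : (1 - t ^ 2) * sh ≤ t) (hh0 : 0 ≤ 6931471803 / 10000000000 + Ll / 2 - t * sh)
    (hA : A ≤ (Ll - t * sh)
      + (t / ((1 - t ^ 2) * sh) - 1) * (6931471803 / 10000000000 + Ll / 2 - t * sh))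
    (hB : t / ((1 - t ^ 2) * sl) - 1 ≤ B) :
    t ∈ Ico (0:ℝ) 1 ∧ A ≤ aR t ∧ beta t ≤ B := by
  have hv := one_sub_sq_pos (show -1 < t by linarith) ht1
  have hσ := atanhR_pos ht0 ht1
  have hsh0 : 0 < sh := lt_of_lt_of_le hσ hsh
  have e : beta t = t / ((1 - t ^ 2) * atanhR t) - 1 := by
    unfold beta; field_simp
  have hts : t * atanhR t ≤ t * sh := mul_le_mul_of_nonneg_left hsh ht0.le
  have hb1 : t / ((1 - t ^ 2) * sh) - 1 ≤ beta t := by
    rw [e]
    exact sub_le_sub_right (div_le_div_of_nonneg_left ht0.le (mul_pos hv hσ)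
      (mul_le_mul_of_nonneg_left hsh hv.le)) 1
  have hb0 : 0 ≤ t / ((1 - t ^ 2) * sh) - 1 := by
    rw [sub_nonneg, one_le_div (mul_pos hv hsh0)]; exact hb
  refine ⟨⟨ht0.le, ht1⟩, hA.trans ?_, le_trans (le_of_eq e) (le_trans (sub_le_sub_right
    (div_le_div_of_nonneg_left ht0.le (mul_pos hv hsl0) (mul_le_mul_of_nonneg_left hsl hv.le)) 1) hB)⟩
  have hl2 := log_two_gt_d9
  have hent : 6931471803 / 10000000000 + Ll / 2 - t * sh ≤ ent t := by
    rw [ent_eq (by linarith) ht1]; unfold nlog at hLl; linarith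
  have hr : Ll - t * sh ≤ r0 t := by
    unfold r0; rw [phi_eq (by linarith) ht1]; unfold nlog at hLl; linarith
  have := mul_le_mul hb1 hent hh0 (le_trans hb0 hb1)
  unfold aR
  linarith

/-- Rigorous bounds on the logarithm of `2 ^ k (1+z)/(1-z)`. -/
lemma log_enclosure_up (k : ℕ) {z N lo hi : ℝ} (h0 : 0 ≤ z) (h1 : z < 1)
    (hN : N = 2 ^ k * ((1 + z) / (1 - z)))
    (hlo : lo ≤ k * (6931471803 / 10000000000) + 2 * ∑ i ∈ Finset.range 5, z ^ (2 * i + 1) / (2 * i + 1))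
    (hhi : k * (6931471808 / 10000000000) + 2 * (∑ i ∈ Finset.range 5, z ^ (2 * i + 1) / (2 * i + 1)
      + z ^ (2 * 5 + 1) / (1 - z ^ 2)) ≤ hi) :
    lo ≤ log N ∧ log N ≤ hi := by
  have a := sum_range_le_log_div h0 h1 5
  have b := log_div_le_sum_range_add h0 h1 5
  have e : log N = k * log 2 + log ((1 + z) / (1 - z)) := by
    rw [hN, log_mul (by positivity) (div_pos (by linarith) (by linarith)).ne', log_pow]
  have c1 := mul_le_mul_of_nonneg_left log_two_gt_d9.le (Nat.cast_nonneg (α := ℝ) k)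
  have c2 := mul_le_mul_of_nonneg_left log_two_lt_d9.le (Nat.cast_nonneg (α := ℝ) k)
  norm_num at a b c1 c2 hlo hhi ⊢
  rw [e]
  constructor <;> linarith

/-- Rigorous bounds on the logarithm of `2 ^ k (1-z)/(1+z)`. -/
lemma log_enclosure_down (k : ℕ) {z N lo hi : ℝ} (h0 : 0 ≤ z) (h1 : z < 1)
    (hN : N = 2 ^ k * ((1 - z) / (1 + z)))
    (hlo : lo ≤ k * (6931471803 / 10000000000) - 2 * (∑ i ∈ Finset.range 5, z ^ (2 * i + 1) / (2 * i + 1)
      + z ^ (2 * 5 + 1) / (1 - z ^ 2)))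
    (hhi : k * (6931471808 / 10000000000) - 2 * ∑ i ∈ Finset.range 5, z ^ (2 * i + 1) / (2 * i + 1) ≤ hi) :
    lo ≤ log N ∧ log N ≤ hi := by
  have a := sum_range_le_log_div h0 h1 5
  have b := log_div_le_sum_range_add h0 h1 5
  have e : log N = k * log 2 - log ((1 + z) / (1 - z)) := by
    rw [hN, log_mul (by positivity) (div_pos (by linarith) (by linarith)).ne', log_pow,
      show (1 - z) / (1 + z) = ((1 + z) / (1 - z))⁻¹ by rw [inv_div], log_inv]
    ring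
  have c1 := mul_le_mul_of_nonneg_left log_two_gt_d9.le (Nat.cast_nonneg (α := ℝ) k)
  have c2 := mul_le_mul_of_nonneg_left log_two_lt_d9.le (Nat.cast_nonneg (α := ℝ) k)
  norm_num at a b c1 c2 hlo hhi ⊢
  rw [e]
  constructor <;> linarith

end Vale.Agent.P322
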