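import Mathlib
import Vale.Agent.P322.Defs
import Vale.Agent.P322.PhiSeries
import Vale.Agent.P322.SmallCube

/-!
Mutual information, in bits, between a Boolean function of a uniform input and the output of
independent binary symmetric channels, and its expression through `info`.
-/

namespace Vale.Agent.P322

open Real Finset Vale.Agent.P322.Small

/-- The probability that `n` independent binary symmetric channels with crossover probability `ε`
send `x` to `y`. -/
noncomputable def bscProb {n : ℕ} (ε : ℝ) (x y : Fin n → Bool) : ℝ :=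
  ∏ i, if x i = y i then 1 - ε else ε

/-- The joint law of `(f X, Y)`, for `X` uniform and `Y` the channel output on input `X`. -/
noncomputable def jointLaw {n : ℕ} (ε : ℝ) (f : (Fin n → Bool) → Bool) (b : Bool)
    (y : Fin n → Bool) : ℝ :=
  ∑ x, if f x = b then (1 / 2 ^ n) * bscProb ε x y else 0

/-- Mutual information, in bits, of a law on a product of two finite types. -/
noncomputable def mutualInfoBits {α β : Type*} [Fintype α] [Fintype β] (p : α → β → ℝ) : ℝ :=
  ∑ a, ∑ b, p a b * logb 2 (p a b / ((∑ b', p a b') * ∑ a', p a' b))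

variable {n : ℕ}

lemma bscProb_eq_kern (ε : ℝ) (x y : Cube n) : bscProb ε x y = kern (1 - 2 * ε) x y := by
  refine prod_congr rfl fun i _ => ?_
  cases x i <;> cases y i <;> simp [sgn] <;> ring

lemma jointLaw_eq (ε : ℝ) (f : Cube n → Bool) (b : Bool) (y : Cube n) :
    jointLaw ε f b y
      = (1 / 2 ^ n) * ((1 + sgn b * T (1 - 2 * ε) (fun x => sgn (f x)) y) / 2) := by
  rw [show 1 + sgn b * T (1 - 2 * ε) (fun x => sgn (f x)) y
      = T (1 - 2 * ε) (fun x => 1 + sgn b * sgn (f x)) y by rw [T_add, T_const, T_const_mul]]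
  unfold jointLaw T
  rw [sum_div, mul_sum]
  refine sum_congr rfl fun x _ => ?_
  rw [bscProb_eq_kern]
  cases b <;> cases hfx : f x <;> simp [sgn, hfx] <;> ring

lemma mul_log_div' {s m u : ℝ} (hu : 0 ≤ 1 + s * u) (hm : 0 ≤ 1 + s * m)
    (h0 : 1 + s * m = 0 → 1 + s * u = 0) :
    (1 + s * u) * log ((1 + s * u) / (1 + s * m))
      = (1 + s * u) * (log (1 + s * u) - log (1 + s * m)) := by
  rcases hu.lt_or_eq with h | h
  · have : 1 + s * m ≠ 0 := fun e => h.ne' (h0 e)
    rw [log_div h.ne' this]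
  · rw [← h]; ring

theorem mutualInfoBits_eq (f : Cube n → Bool) {ε : ℝ} (h0 : 0 ≤ ε) (h1 : ε ≤ 1) :
    mutualInfoBits (jointLaw ε f) = info (1 - 2 * ε) (fun x => sgn (f x)) / log 2 := by
  set ρ := 1 - 2 * ε with hρ
  set F := fun x => sgn (f x) with hF
  set u := T ρ F with hu
  set m := avg F with hm
  set c := (1 : ℝ) / 2 ^ n with hc
  have hc0 : 0 < c := by positivity
  have hρ1 : |ρ| ≤ 1 := abs_le.2 ⟨by linarith, by linarith⟩
  have hFle : ∀ x, |F x| ≤ 1 := fun x => by simp only [hF]; cases f x <;> simp [sgn]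
  have huy : ∀ y b, 0 ≤ 1 + sgn b * u y := fun y b => by
    obtain ⟨a1, a2⟩ := abs_le.1 (abs_T_le hρ1 hFle y)
    rw [← hu] at a1 a2
    cases b <;> simp [sgn] <;> linarith
  have hpb : ∀ b, ∑ y, jointLaw ε f b y = (1 + sgn b * m) / 2 := fun b => by
    have h : avg (fun y => (1 + sgn b * u y) / 2) = (1 + sgn b * m) / 2 := by
      simp only [div_eq_inv_mul, avg_const_mul, avg_add, avg_const, hu, avg_T, hm]
    rw [← h, avg, sum_div]
    refine sum_congr rfl fun y _ => ?_
    rw [jointLaw_eq, ← hρ, ← hF, ← hu]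
    ring
  have hpy : ∀ y, ∑ b, jointLaw ε f b y = c := fun y => by
    simp only [Fintype.sum_bool, jointLaw_eq, sgn, if_true, Bool.false_eq_true, if_false, ← hρ,
      ← hc]
    ring
  have hzero : ∀ y b, 1 + sgn b * m = 0 → 1 + sgn b * u y = 0 := fun y b hb => by
    have hsum := hpb b
    rw [hb, zero_div] at hsum
    have hnn : ∀ z ∈ (univ : Finset (Cube n)), 0 ≤ jointLaw ε f b z := fun z _ => by
      rw [jointLaw_eq, ← hρ, ← hF, ← hu, ← hc]
      exact mul_nonneg hc0.le (div_nonneg (huy z b) two_pos.le)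
    have := (sum_eq_zero_iff_of_nonneg hnn).1 hsum y (mem_univ y)
    rw [jointLaw_eq, ← hρ, ← hF, ← hu, ← hc] at this
    rcases mul_eq_zero.1 this with h | h
    · linarith
    · linarith
  have hmb : ∀ b, 0 ≤ 1 + sgn b * m := fun b => by
    have h : |m| ≤ 1 := (abs_avg_le F).trans ((avg_mono hFle).trans_eq (avg_const 1))
    obtain ⟨a1, a2⟩ := abs_le.1 h
    cases b <;> simp [sgn] <;> linarith
  have hterm : ∀ b y, jointLaw ε f b y
        * logb 2 (jointLaw ε f b y / ((∑ y', jointLaw ε f b y') * ∑ b', jointLaw ε f b' y))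
      = c / (2 * log 2) * ((1 + sgn b * u y) * (log (1 + sgn b * u y) - log (1 + sgn b * m))) := by
    intro b y
    rw [hpb, hpy, jointLaw_eq, ← hρ, ← hF, ← hu, ← hc, ← mul_log_div' (huy y b) (hmb b) (hzero y b),
      logb, show c * ((1 + sgn b * u y) / 2) / ((1 + sgn b * m) / 2 * c)
        = (1 + sgn b * u y) / (1 + sgn b * m) by field_simp]
    field_simp
  unfold mutualInfoBits
  simp only [hterm]
  rw [Fintype.sum_bool, ← sum_add_distrib, info, ← hu, ← hm]
  have e : ∀ y, c / (2 * log 2)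
        * ((1 + sgn true * u y) * (log (1 + sgn true * u y) - log (1 + sgn true * m)))
      + c / (2 * log 2)
        * ((1 + sgn false * u y) * (log (1 + sgn false * u y) - log (1 + sgn false * m)))
      = (phi (u y) - ((log (1 + m) + log (1 - m)) / 2 + u y * atanhR m)) * c / log 2 := by
    intro y
    simp only [sgn, if_true, Bool.false_eq_true, if_false, phi, atanhR, one_mul, neg_one_mul,
      ← sub_eq_add_neg]
    field_simp
    ring
  simp only [e]
  have hlin : avg (fun y => (log (1 + m) + log (1 - m)) / 2 + u y * atanhR m) = phi m := by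
    rw [show (fun y => (log (1 + m) + log (1 - m)) / 2 + u y * atanhR m)
      = fun y => (log (1 + m) + log (1 - m)) / 2 + atanhR m * u y by funext y; ring]
    simp only [avg_add, avg_const, avg_const_mul, hu, avg_T, ← hm]
    unfold phi atanhR
    ring
  rw [← hlin, ← avg_sub, avg, ← sum_div, ← sum_mul, hc]
  ring

lemma one_sub_h2 {ε : ℝ} :
    1 - binEntropy ε / log 2 = phi (1 - 2 * ε) / log 2 := by
  have hl : log 2 ≠ 0 := (log_pos one_lt_two).ne'
  rw [eq_div_iff hl, sub_mul, one_mul, div_mul_cancel₀ _ hl]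
  have hmul : ∀ p : ℝ, p * log (2 * p) = p * log 2 + p * log p := fun p => by
    rcases eq_or_ne p 0 with rfl | hp
    · simp
    · rw [log_mul (by norm_num) hp]; ring
  rw [binEntropy, phi, show 1 + (1 - 2 * ε) = 2 * (1 - ε) by ring,
    show 1 - (1 - 2 * ε) = 2 * ε by ring, log_inv, log_inv, mul_assoc 2, mul_assoc 2,
    hmul, hmul]
  ring

/-- Bits version from the nats version. -/
theorem bits_of_info (h : ∀ (n : ℕ) (f : Cube n → ℝ), (∀ x, f x = 1 ∨ f x = -1) →
      ∀ ρ : ℝ, 0 ≤ ρ → ρ ≤ 1 → info ρ f ≤ phi ρ)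
    (n : ℕ) (f : (Fin n → Bool) → Bool) {ε : ℝ} (h0 : 0 ≤ ε) (h1 : ε ≤ 1 / 2) :
    mutualInfoBits (jointLaw ε f) ≤ 1 - binEntropy ε / log 2 := by
  rw [mutualInfoBits_eq f h0 (by linarith), one_sub_h2]
  exact div_le_div_of_nonneg_right
    (h n _ (fun x => by cases f x <;> simp [sgn]) _ (by linarith) (by linarith))
    (log_pos one_lt_two).le

end Vale.Agent.P322
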