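import Mathlib
import Vale.Agent.P322.CrossingIneq

/-!
The two-point step of the induction.
-/

namespace Vale.Agent.P322

open Real Set Filter Topology

/-- The symmetrised Bregman divergence of `phi`. -/
noncomputable def dd (a b : ℝ) : ℝ := (a - b) * (atanhR a - atanhR b)

/-- Slope of the tangent to `artanh` as a function of `ent r / r`. -/
noncomputable def kap (r : ℝ) : ℝ := r ^ 2 / ((1 - r ^ 2) * (log 2 + nlog r / 2))

/-- The bound `g ≥ W - W̄` on the loss of weight. -/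
noncomputable def gcap (d : ℝ) : ℝ := (1 + tau) * d ^ 2 - tau * d ^ 4

lemma nlog_nonneg {r : ℝ} (h0 : -1 < r) (h1 : r < 1) : 0 ≤ nlog r := by
  have := log_nonpos (one_sub_sq_pos h0 h1).le (by nlinarith [sq_nonneg r])
  unfold nlog; linarith

lemma kap_nonneg {r : ℝ} (h0 : -1 < r) (h1 : r < 1) : 0 ≤ kap r := by
  have := nlog_nonneg h0 h1
  have := one_sub_sq_pos h0 h1
  have := log_pos one_lt_two
  unfold kap; positivity

lemma pair_std (a b : ℝ) :
    dd a b = dd (|(a + b) / 2| + |a - b| / 2) (|(a + b) / 2| - |a - b| / 2) ∧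
    gapJ a b = gapJ (|(a + b) / 2| + |a - b| / 2) (|(a + b) / 2| - |a - b| / 2) ∧
    ent a + ent b = ent (|(a + b) / 2| + |a - b| / 2) + ent (|(a + b) / 2| - |a - b| / 2) := by
  have hswap : ∀ x y : ℝ, dd x y = dd y x ∧ gapJ x y = gapJ y x ∧ ent x + ent y = ent y + ent x :=
    fun x y => ⟨by unfold dd; ring, by unfold gapJ; rw [add_comm x y]; ring, add_comm _ _⟩
  have hneg : ∀ x y : ℝ, dd x y = dd (-x) (-y) ∧ gapJ x y = gapJ (-x) (-y) ∧
      ent x + ent y = ent (-x) + ent (-y) := fun x y =>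
    ⟨by unfold dd; rw [atanhR_neg, atanhR_neg]; ring,
      by unfold gapJ; rw [← neg_add, neg_div, phi_neg, phi_neg, phi_neg],
      by rw [ent_neg, ent_neg]⟩
  rcases le_total 0 ((a + b) / 2) with h | h <;> rcases le_total 0 (a - b) with h' | h'
  · rw [abs_of_nonneg h, abs_of_nonneg h', show (a + b) / 2 + (a - b) / 2 = a by ring,
      show (a + b) / 2 - (a - b) / 2 = b by ring]
    exact ⟨rfl, rfl, rfl⟩
  · rw [abs_of_nonneg h, abs_of_nonpos h', show (a + b) / 2 + -(a - b) / 2 = b by ring,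
      show (a + b) / 2 - -(a - b) / 2 = a by ring]
    exact hswap a b
  · rw [abs_of_nonpos h, abs_of_nonneg h', show -((a + b) / 2) + (a - b) / 2 = -b by ring,
      show -((a + b) / 2) - (a - b) / 2 = -a by ring]
    have u := hswap a b
    have v := hneg b a
    exact ⟨u.1.trans v.1, u.2.1.trans v.2.1, u.2.2.trans v.2.2⟩
  · rw [abs_of_nonpos h, abs_of_nonpos h', show -((a + b) / 2) + -(a - b) / 2 = -a by ring,
      show -((a + b) / 2) - -(a - b) / 2 = -b by ring]
    exact hneg a b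

/-- Coordinates `(r, p)` of the crossing pair with given `m ≥ 0` and `d > 0`. -/
lemma exists_crossing {m d : ℝ} (hm : 0 ≤ m) (hd : 0 < d) (h : m + d < 1) :
    ∃ r ∈ Ico d 1, ∃ p ∈ Ico (0:ℝ) 1, d = (1 - p) * r ∧ m = cM (r ^ 2) p ∧
      m ^ 2 * r = (r - d) * (1 - r * d) := by
  have hsq : m ^ 2 < (1 - d) ^ 2 := by nlinarith
  obtain ⟨r, hr, hf⟩ := intermediate_value_Icc (show d ≤ 1 by linarith)
    (f := fun x => (x - d) * (1 - x * d) - m ^ 2 * x) (by fun_prop)
    (show (0:ℝ) ∈ Icc ((d - d) * (1 - d * d) - m ^ 2 * d) ((1 - d) * (1 - 1 * d) - m ^ 2 * 1) from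
      ⟨by nlinarith [mul_nonneg (sq_nonneg m) hd.le], by nlinarith⟩)
  simp only at hf
  have hr1 : r < 1 := by
    rcases hr.2.lt_or_eq with h' | h'
    · exact h'
    · subst h'; nlinarith
  have hr0 : 0 < r := lt_of_lt_of_le hd hr.1
  refine ⟨r, ⟨hr.1, hr1⟩, 1 - d / r, ⟨?_, ?_⟩, ?_, ?_, by linarith⟩
  · have : d / r ≤ 1 := (div_le_one hr0).2 hr.1
    linarith
  · have : 0 < d / r := div_pos hd hr0
    linarith
  · field_simp; ring
  · rw [cM, cS, eq_comm, sqrt_eq_iff_eq_sq ?_ hm]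
    · field_simp
      linarith
    · have : 0 ≤ 1 - d / r := by
        have : d / r ≤ 1 := (div_le_one hr0).2 hr.1
        linarith
      have : 0 ≤ 1 - r ^ 2 := by nlinarith
      positivity

lemma crossing_dd {r p : ℝ} (hr0 : 0 < r) (hr1 : r < 1) (hp0 : 0 ≤ p) (hp1 : p < 1) :
    dd (cM (r^2) p + (1 - p) * r) (cM (r^2) p - (1 - p) * r) / 4 = (1 - p) * r * atanhR r := by
  have hR1 : r ^ 2 < 1 := by nlinarith
  have hlt := (crossing_identity hr0 hr1 hp0 hp1).2.2
  have hm0 : 0 ≤ cM (r^2) p := cM_nonneg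
  have hm2 := cM_sq (sq_nonneg r) hR1 hp0
  set m := cM (r^2) p
  set d := (1 - p) * r with hd
  have hd0 : 0 < d := mul_pos (by linarith) hr0
  have e : (1 + (m + d)) * (1 - (m - d)) * (1 - r) ^ 2
      = (1 - (m + d)) * (1 + (m - d)) * (1 + r) ^ 2 := by
    ring_nf
    rw [hm2, hd]; unfold cS; ring
  have h := congrArg log e
  have e1 : (1 + (m + d)) ≠ 0 := by linarith
  have e2 : (1 - (m + d)) ≠ 0 := by linarith
  have e3 : (1 + (m - d)) ≠ 0 := by linarith
  have e4 : (1 - (m - d)) ≠ 0 := by linarith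
  have e5 : (1 - r) ≠ 0 := by linarith
  have e6 : (1 + r) ≠ 0 := by linarith
  rw [log_mul (mul_ne_zero e1 e4) (pow_ne_zero 2 e5), log_mul e1 e4,
    log_mul (mul_ne_zero e2 e3) (pow_ne_zero 2 e6), log_mul e2 e3, log_pow, log_pow] at h
  push_cast at h
  unfold dd atanhR
  linear_combination (d / 4) * h

/-- Pointwise tangent bound for the divergence of a pair in terms of its entropy. -/
lemma dd_tangent {a b ρ : ℝ} (ha : |a| < 1) (hb : |b| < 1) (hρ0 : 0 < ρ) (hρ1 : ρ < 1) :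
    |a - b| / 2 * (atanhR ρ + kap ρ * (ent ρ / ρ)) - kap ρ * ((ent a + ent b) / 2) ≤ dd a b / 4 := by
  rw [abs_lt] at ha hb
  have hκ := kap_nonneg (show -1 < ρ by linarith) hρ1
  have hea := ent_pos ha.1 ha.2
  have heb := ent_pos hb.1 hb.2
  by_cases hab : a - b = 0
  · have : 0 ≤ kap ρ * ((ent a + ent b) / 2) := mul_nonneg hκ (by linarith)
    simp [dd, hab]; linarith
  set m := |(a + b) / 2| with hm
  set d := |a - b| / 2 with hd
  have hd0 : 0 < d := by rw [hd]; have := abs_pos.2 hab; linarith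
  have hmd : m + d < 1 := by
    rw [hm, hd]
    cases abs_cases ((a + b) / 2) <;> cases abs_cases (a - b) <;> linarith
  obtain ⟨hD, -, hE⟩ := pair_std a b
  rw [← hm, ← hd] at hD hE
  obtain ⟨r, hr, p, hp, hdp, hmp, -⟩ := exists_crossing (abs_nonneg _) hd0 hmd
  have hr0 : 0 < r := lt_of_lt_of_le hd0 hr.1
  rw [← hm] at hmp
  have hdd : dd a b / 4 = d * atanhR r := by
    rw [hD, hmp, hdp]; exact crossing_dd hr0 hr.2 hp.1 hp.2
  have hR1 : r ^ 2 < 1 := by nlinarith [hr.2]
  have hH : (1 - p) * ent r ≤ (ent a + ent b) / 2 := by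
    have h := (crossing_identity hr0 hr.2 hp.1 hp.2).2.1
    rw [← hdp, ← hmp] at h
    have h2 := phi_le_log_two_mul_sq (m := m) (by rw [abs_of_nonneg (abs_nonneg _)]; linarith)
    have h3 : m ^ 2 = p * cS (r^2) p := by rw [hmp]; exact cM_sq (sq_nonneg r) hR1 hp.1
    have h4 : log 2 * m ^ 2 ≤ log 2 * p := by
      refine mul_le_mul_of_nonneg_left ?_ (log_pos one_lt_two).le
      rw [h3]; exact mul_le_of_le_one_right hp.1 (cS_le_one (sq_nonneg r) hp.2.le)
    have := cL_nonneg (sq_nonneg r) hR1 hp.1 hp.2.le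
    rw [hE]
    linarith
  -- `ρ` minimises `artanh + kap ρ · ent/id`
  have key : atanhR ρ + kap ρ * (ent ρ / ρ) ≤ atanhR r + kap ρ * (ent r / r) := by
    set F : ℝ → ℝ := fun x => atanhR x + kap ρ * (ent x / x) with hF
    have hF' : ∀ x ∈ Ioo (0:ℝ) 1,
        HasDerivAt F ((log 2 + nlog x / 2) / x ^ 2 * (kap x - kap ρ)) x := by
      intro x hx
      have hv := one_sub_sq_pos (show -1 < x by linarith [hx.1]) hx.2
      have hN : 0 < log 2 + nlog x / 2 := by
        have := nlog_nonneg (show -1 < x by linarith [hx.1]) hx.2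
        have := log_pos one_lt_two
        linarith
      have h := (hasDerivAt_atanhR (show -1 < x by linarith [hx.1]) hx.2).add
        ((((hasDerivAt_ent (show -1 < x by linarith [hx.1]) hx.2).div (hasDerivAt_id x)
          hx.1.ne')).const_mul (kap ρ))
      refine h.congr_deriv ?_
      have he := ent_eq (show -1 < x by linarith [hx.1]) hx.2
      simp only [id_eq]
      have hN' : ent x + x * atanhR x = log 2 + nlog x / 2 := by unfold nlog; linarith
      rw [show (-atanhR x * x - ent x * 1) = -(log 2 + nlog x / 2) by rw [← hN']; ring,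
        show kap x = x ^ 2 / ((1 - x ^ 2) * (log 2 + nlog x / 2)) from rfl]
      generalize log 2 + nlog x / 2 = N at hN ⊢
      have hx0 : x ≠ 0 := hx.1.ne'
      field_simp
      ring
    have hkmono : MonotoneOn kap (Ioo 0 1) := by
      intro x hx y hy hxy
      have hvx := one_sub_sq_pos (show -1 < x by linarith [hx.1]) hx.2
      have hvy := one_sub_sq_pos (show -1 < y by linarith [hy.1]) hy.2
      have hnx := nlog_nonneg (show -1 < x by linarith [hx.1]) hx.2
      have hny := nlog_nonneg (show -1 < y by linarith [hy.1]) hy.2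
      have hl := log_two_gt_d9
      unfold kap
      rw [div_le_div_iff₀ (mul_pos hvx (by linarith)) (mul_pos hvy (by linarith))]
      have hq : x ^ 2 ≤ y ^ 2 := pow_le_pow_left₀ hx.1.le hxy 2
      have hd : (nlog y - nlog x) * (1 - y ^ 2) ≤ y ^ 2 - x ^ 2 := by
        have := log_le_sub_one_of_pos (div_pos hvx hvy)
        rw [log_div hvx.ne' hvy.ne'] at this
        have := mul_le_mul_of_nonneg_right this hvy.le
        rw [sub_mul ((1 - x ^ 2) / (1 - y ^ 2)), div_mul_cancel₀ _ hvy.ne'] at this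
        unfold nlog; linarith
      have h2 := mul_le_mul_of_nonneg_left hd (sq_nonneg x)
      have h3 : x ^ 2 * (y ^ 2 - x ^ 2) ≤ (2 * log 2 + nlog x) * (y ^ 2 - x ^ 2) :=
        mul_le_mul_of_nonneg_right (by linarith) (by linarith)
      linarith
    rcases le_total r ρ with h | h
    · refine antitoneOn_of_hasDerivWithinAt_nonpos (convex_Icc r ρ)
        (f' := fun x => (log 2 + nlog x / 2) / x ^ 2 * (kap x - kap ρ))
        (fun x hx => (hF' x ⟨by linarith [hx.1], by linarith [hx.2]⟩).continuousAt.continuousWithinAt)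
        ?_ ?_ (left_mem_Icc.2 h) (right_mem_Icc.2 h) h
      · intro x hx
        rw [interior_Icc] at hx
        exact (hF' x ⟨by linarith [hx.1], by linarith [hx.2]⟩).hasDerivWithinAt
      · intro x hx
        rw [interior_Icc] at hx
        have := nlog_nonneg (show -1 < x by linarith [hx.1]) (show x < 1 by linarith [hx.2])
        have := log_pos one_lt_two
        exact mul_nonpos_of_nonneg_of_nonpos (by positivity) (sub_nonpos.2
          (hkmono ⟨by linarith [hx.1], by linarith [hx.2]⟩ ⟨hρ0, hρ1⟩ hx.2.le))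
    · refine monotoneOn_of_hasDerivWithinAt_nonneg (convex_Icc ρ r)
        (f' := fun x => (log 2 + nlog x / 2) / x ^ 2 * (kap x - kap ρ))
        (fun x hx => (hF' x ⟨by linarith [hx.1], by linarith [hx.2, hr.2]⟩).continuousAt.continuousWithinAt)
        ?_ ?_ (left_mem_Icc.2 h) (right_mem_Icc.2 h) h
      · intro x hx
        rw [interior_Icc] at hx
        exact (hF' x ⟨by linarith [hx.1], by linarith [hx.2, hr.2]⟩).hasDerivWithinAt
      · intro x hx
        rw [interior_Icc] at hx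
        have := nlog_nonneg (show -1 < x by linarith [hx.1]) (show x < 1 by linarith [hx.2, hr.2])
        have := log_pos one_lt_two
        exact mul_nonneg (by positivity) (sub_nonneg.2
          (hkmono ⟨hρ0, hρ1⟩ ⟨by linarith [hx.1], by linarith [hx.2, hr.2]⟩ hx.1.le))
  rw [hdd]
  have h1 := mul_le_mul_of_nonneg_left key hd0.le
  have h2 := mul_le_mul_of_nonneg_left hH hκ
  have e : d * (kap ρ * (ent r / r)) = kap ρ * ((1 - p) * ent r) := by
    rw [hdp]; field_simp
  linarith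

lemma wgt_avg (m0 m1 : ℝ) :
    (wgt m0 tau + wgt m1 tau) / 2
      = wgt ((m0 + m1) / 2) tau - ((1 + tau) * ((m0 - m1) / 2) ^ 2
          - tau * (6 * ((m0 + m1) / 2) ^ 2 * ((m0 - m1) / 2) ^ 2 + ((m0 - m1) / 2) ^ 4)) := by
  unfold wgt; ring

lemma wgt_sub_gcap {m d : ℝ} (hm : 0 ≤ m) (hd : 0 ≤ d) (h : m + d < 1) :
    (1 - m ^ 2) * (1 - m ^ 2 - d ^ 2) * (2 / 3 * (1 + tau) ^ 2) ≤ wgt m tau - gcap d ∧
      0 < wgt m tau - gcap d := by
  have h1 : 2 * m * d < 1 - m ^ 2 - d ^ 2 := by nlinarith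
  have hq : 0 < 1 - m ^ 2 - d ^ 2 := by nlinarith [mul_nonneg hm hd]
  have hmd : m * d ≤ 1 / 4 := by nlinarith [sq_nonneg (m - d)]
  have h2 : 2 * (d ^ 2 * m ^ 2) ≤ 1 / 4 * (1 - m ^ 2 - d ^ 2) := by
    have := mul_le_mul hmd h1.le (by positivity) (by norm_num : (0:ℝ) ≤ 1 / 4)
    linarith
  have hP : (1 - m ^ 2) * (1 - m ^ 2 - d ^ 2) * (2 / 3 * (1 + tau) ^ 2)
      ≤ 1 * (1 - m ^ 2 - d ^ 2) * (2 / 3 * (1 + tau) ^ 2) := by
    gcongr
    linarith [sq_nonneg m]
  have h3 : (m ^ 2 + d ^ 2) * (1 - m ^ 2 - d ^ 2) ≤ 1 * (1 - m ^ 2 - d ^ 2) :=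
    mul_le_mul_of_nonneg_right (by linarith) hq.le
  have e : wgt m tau - gcap d = (1 - m ^ 2 - d ^ 2)
      - tau * ((m ^ 2 + d ^ 2) * (1 - m ^ 2 - d ^ 2) + 2 * (d ^ 2 * m ^ 2)) := by
    unfold wgt gcap; ring
  have hb : wgt m tau - gcap d ≥ (1 - tau * (5 / 4)) * (1 - m ^ 2 - d ^ 2) := by
    rw [e]; unfold tau; linarith
  unfold tau at hP hb ⊢
  exact ⟨by linarith, by linarith⟩

lemma gapJ_deriv_ge {x d : ℝ} (hx : 0 ≤ x) (hd : 0 ≤ d) (h : x + d < 1) :
    x * d ^ 2 / ((1 - x ^ 2) * (1 - x ^ 2 - d ^ 2))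
      ≤ (atanhR (x + d) + atanhR (x - d)) / 2 - atanhR x := by
  have h1 : 0 < 1 - x := by linarith
  have hd2 : d ^ 2 < (1 - x) ^ 2 := by nlinarith
  have hd2' : d ^ 2 < (1 + x) ^ 2 := by nlinarith
  set A := ((1 + x) ^ 2 - d ^ 2) * (1 - x) ^ 2 with hA
  set B := ((1 - x) ^ 2 - d ^ 2) * (1 + x) ^ 2 with hB
  have hB0 : 0 < B := mul_pos (by linarith) (pow_pos (by linarith) 2)
  have hAB : B ≤ A := by rw [hA, hB]; nlinarith [mul_nonneg hx (sq_nonneg d)]
  have hA0 : 0 < A := lt_of_lt_of_le hB0 hAB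
  have hlog := le_log_one_add_of_nonneg (show 0 ≤ A / B - 1 by
    rw [sub_nonneg, one_le_div hB0]; exact hAB)
  rw [add_sub_cancel, log_div hA0.ne' hB0.ne'] at hlog
  have e : (atanhR (x + d) + atanhR (x - d)) / 2 - atanhR x = (log A - log B) / 4 := by
    rw [hA, hB, show (1 + x) ^ 2 - d ^ 2 = (1 + (x + d)) * (1 + (x - d)) by ring,
      show (1 - x) ^ 2 - d ^ 2 = (1 - (x + d)) * (1 - (x - d)) by ring,
      log_mul (mul_ne_zero (by linarith) (by linarith)) (pow_ne_zero 2 (by linarith)),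
      log_mul (by linarith) (by linarith),
      log_mul (mul_ne_zero (by linarith) (by linarith)) (pow_ne_zero 2 (by linarith)),
      log_mul (by linarith) (by linarith), log_pow, log_pow]
    unfold atanhR; push_cast; ring
  rw [e]
  have e2 : 2 * (A / B - 1) / (A / B - 1 + 2) = 2 * (A - B) / (A + B) := by
    rw [show A / B - 1 + 2 = (A + B) / B by field_simp; ring,
      show 2 * (A / B - 1) = 2 * (A - B) / B by field_simp, div_div_div_cancel_right₀ hB0.ne']
  rw [e2] at hlog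
  have hden : A + B ≤ 2 * ((1 - x ^ 2) * (1 - x ^ 2 - d ^ 2)) := by
    rw [hA, hB]; nlinarith [mul_nonneg (sq_nonneg x) (sq_nonneg d)]
  have h2 : 2 * (A - B) / (2 * ((1 - x ^ 2) * (1 - x ^ 2 - d ^ 2))) ≤ 2 * (A - B) / (A + B) :=
    div_le_div_of_nonneg_left (by linarith) (by linarith) hden
  have e3 : 2 * (A - B) / (2 * ((1 - x ^ 2) * (1 - x ^ 2 - d ^ 2)))
      = 4 * (x * d ^ 2 / ((1 - x ^ 2) * (1 - x ^ 2 - d ^ 2))) := by
    rw [hA, hB]; field_simp; ring
  linarith

lemma crossing_env {r p : ℝ} (hr0 : 0 < r) (hr1 : r < 1) (hp0 : 0 ≤ p) (hp1 : p < 1) :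
    env (wgt (cM (r^2) p) tau) ((1 - p) * ent r)
        - env (wgt (cM (r^2) p) tau - gcap ((1 - p) * r)) ((1 - p) * ent r)
      ≤ (1 - p) * r * atanhR r
        - 2 * gapJ (cM (r^2) p + (1 - p) * r) (cM (r^2) p - (1 - p) * r) := by
  have hR1 : r ^ 2 < 1 := by nlinarith
  have hne : 1 - p ≠ 0 := by linarith
  have hm2 := cM_sq (sq_nonneg r) hR1 hp0
  have eW : wgt (cM (r^2) p) tau = (1 - p) * omega (r^2) p := by
    unfold wgt omega; rw [hm2]; unfold cS; ring
  have eg : (1 - p) * omega (r^2) p - gcap ((1 - p) * r) = (1 - p) * omegaBar (r^2) p := by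
    unfold gcap omegaBar; ring
  rw [eW, eg, env_smul hne, env_smul hne, (crossing_identity hr0 hr1 hp0 hp1).1, ← mul_sub]
  have := mul_le_mul_of_nonneg_left (crossing_ineq hr0 hr1 hp0 hp1) (show 0 ≤ 1 - p by linarith)
  have e : (1 - p) * bud (r^2) p = cL (r^2) p := by unfold bud; field_simp
  linarith

lemma hasDerivAt_wgt (x : ℝ) :
    HasDerivAt (fun t => wgt t tau) (-(2 * x * (1 + tau - 2 * tau * x ^ 2))) x := by
  unfold wgt
  exact (((hasDerivAt_pow 2 x).const_sub 1).mul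
    (((hasDerivAt_pow 2 x).const_mul tau).const_sub 1)).congr_deriv (by push_cast; ring)

lemma gap_mono {d η x y : ℝ} (hd : 0 ≤ d) (hη : 0 < η) (hx : 0 ≤ x) (hxy : x ≤ y) (hy : y + d < 1) :
    2 * gapJ (x + d) (x - d) + (env (wgt x tau) η - env (wgt x tau - gcap d) η)
      ≤ 2 * gapJ (y + d) (y - d) + (env (wgt y tau) η - env (wgt y tau - gcap d) η) := by
  have hpos : ∀ t ∈ Icc x y, 0 < wgt t tau ∧ 0 < wgt t tau - gcap d := fun t ht =>
    ⟨wgt_pos (abs_lt.2 ⟨by linarith [ht.1], by linarith [ht.2]⟩) (le_of_eq rfl),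
      (wgt_sub_gcap (hx.trans ht.1) hd (by linarith [ht.2])).2⟩
  set f' : ℝ → ℝ := fun t => 2 * ((atanhR (t + d) + atanhR (t - d)) / 2 - atanhR t)
    + (slope' (wgt t tau) η * -(2 * t * (1 + tau - 2 * tau * t ^ 2))
      - slope' (wgt t tau - gcap d) η * -(2 * t * (1 + tau - 2 * tau * t ^ 2))) with hf'
  have hd' : ∀ t ∈ Icc x y, HasDerivAt
      (fun t => 2 * gapJ (t + d) (t - d) + (env (wgt t tau) η - env (wgt t tau - gcap d) η))
      (f' t) t := by
    intro t ht
    have hp := hpos t ht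
    have g1 : HasDerivAt (fun t => gapJ (t + d) (t - d))
        ((atanhR (t + d) + atanhR (t - d)) / 2 - atanhR t) t := by
      have e : (fun t => gapJ (t + d) (t - d))
          = fun t => (phi (t + d) + phi (t - d)) / 2 - phi t := by
        funext s; unfold gapJ; rw [show (s + d + (s - d)) / 2 = s by ring]
      rw [e]
      have a1 := ((hasDerivAt_phi (x := t + d) (by linarith [ht.1]) (by linarith [ht.2])).comp t
        ((hasDerivAt_id t).add_const d))
      have a2 := ((hasDerivAt_phi (x := t - d) (by linarith [ht.1]) (by linarith [ht.2])).comp t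
        ((hasDerivAt_id t).sub_const d))
      exact (((a1.add a2).div_const 2).sub
        (hasDerivAt_phi (x := t) (by linarith [ht.1]) (by linarith [ht.2]))).congr_deriv (by ring)
    have c1 := HasDerivAt.comp (h₂ := fun y => env y η) (h := fun t => wgt t tau) t
      (hasDerivAt_env hp.1 hη) (hasDerivAt_wgt t)
    have c2 := HasDerivAt.comp (h₂ := fun y => env y η) (h := fun t => wgt t tau - gcap d) t
      (hasDerivAt_env hp.2 hη) ((hasDerivAt_wgt t).sub_const (gcap d))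
    exact (g1.const_mul 2).add (c1.sub c2)
  refine monotoneOn_of_hasDerivWithinAt_nonneg (convex_Icc x y)
    (fun t ht => (hd' t ht).continuousAt.continuousWithinAt) (f' := f')
    (fun t ht => (hd' t (interior_subset ht)).hasDerivWithinAt) ?_
    (left_mem_Icc.2 hxy) (right_mem_Icc.2 hxy) hxy
  intro t ht
  have ht' : t ∈ Icc x y := interior_subset ht
  have hp := hpos t ht'
  have ht0 : 0 ≤ t := hx.trans ht'.1
  have htd : t + d < 1 := by linarith [ht'.2]
  have hJ := gapJ_deriv_ge ht0 hd htd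
  obtain ⟨hw, -⟩ := wgt_sub_gcap ht0 hd htd
  have hq : 0 < 1 - t ^ 2 - d ^ 2 := by nlinarith [mul_nonneg ht0 hd]
  have hP : 0 < 1 - t ^ 2 := by nlinarith [sq_nonneg d]
  have hg0 : 0 ≤ gcap d := by
    have : d ^ 4 ≤ d ^ 2 := pow_le_pow_of_le_one hd (by linarith) (by omega)
    have := sq_nonneg d
    unfold gcap tau; linarith
  have hA := slope'_log hp.2 hη (show wgt t tau - gcap d ≤ wgt t tau by linarith)
  have hA' := log_le_sub_one_of_pos (div_pos hp.1 hp.2)
  have e : wgt t tau / (wgt t tau - gcap d) - 1 = gcap d / (wgt t tau - gcap d) := by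
    rw [div_sub_one hp.2.ne']; ring
  have hg1 : gcap d ≤ (1 + tau) * d ^ 2 := by
    unfold gcap tau; nlinarith [Even.pow_nonneg (⟨2, rfl⟩ : Even 4) d]
  have h5 : slope' (wgt t tau) η - slope' (wgt t tau - gcap d) η
      ≤ d ^ 2 / ((1 + tau) * ((1 - t ^ 2) * (1 - t ^ 2 - d ^ 2))) := by
    refine hA.trans ?_
    calc 2 / 3 * log (wgt t tau / (wgt t tau - gcap d))
        ≤ 2 / 3 * (gcap d / (wgt t tau - gcap d)) := by linarith
      _ ≤ 2 / 3 * ((1 + tau) * d ^ 2
            / ((1 - t ^ 2) * (1 - t ^ 2 - d ^ 2) * (2 / 3 * (1 + tau) ^ 2))) := by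
          refine mul_le_mul_of_nonneg_left (div_le_div₀ (by unfold tau; positivity) hg1
            (by unfold tau; positivity) hw) (by norm_num)
      _ = _ := by unfold tau; field_simp
  have h6 : 0 ≤ 2 * t * (1 + tau - 2 * tau * t ^ 2) ∧
      2 * t * (1 + tau - 2 * tau * t ^ 2) ≤ 2 * t * (1 + tau) := by
    unfold tau
    exact ⟨mul_nonneg (by linarith) (by linarith), by nlinarith [mul_nonneg ht0 (sq_nonneg t)]⟩
  have h7 : (slope' (wgt t tau) η - slope' (wgt t tau - gcap d) η)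
      * (2 * t * (1 + tau - 2 * tau * t ^ 2))
      ≤ 2 * (t * d ^ 2 / ((1 - t ^ 2) * (1 - t ^ 2 - d ^ 2))) := by
    refine (mul_le_mul_of_nonneg_right h5 h6.1).trans ?_
    refine (mul_le_mul_of_nonneg_left h6.2 (by unfold tau; positivity)).trans (le_of_eq ?_)
    unfold tau; field_simp
  simp only [hf']
  linarith

/-- The two-point step. -/
theorem two_point {m0 m1 η T : ℝ} (h0 : |m0| < 1) (h1 : |m1| < 1) (hη : 0 < η)
    (hT : dd m0 m1 / 4 ≤ T)
    (hT2 : ∀ ρ, 0 < ρ → ρ < 1 →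
      |m0 - m1| / 2 * (atanhR ρ + kap ρ * (ent ρ / ρ)) - kap ρ * η ≤ T) :
    env (wgt ((m0 + m1) / 2) tau) η + 2 * gapJ m0 m1
      ≤ T + env ((wgt m0 tau + wgt m1 tau) / 2) η := by
  rw [abs_lt] at h0 h1
  obtain ⟨hD, hJ, -⟩ := pair_std m0 m1
  set m := |(m0 + m1) / 2| with hm
  set d := |m0 - m1| / 2 with hd
  have hmd : m + d < 1 := by
    rw [hm, hd]
    cases abs_cases ((m0 + m1) / 2) <;> cases abs_cases (m0 - m1) <;> linarith
  have hm0 : 0 ≤ m := abs_nonneg _
  have hd0 : 0 ≤ d := by positivity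
  have hW : wgt ((m0 + m1) / 2) tau = wgt m tau := by unfold wgt; rw [hm, sq_abs]
  have hd2 : ((m0 - m1) / 2) ^ 2 = d ^ 2 := by rw [hd, div_pow, div_pow, sq_abs]
  obtain ⟨hw1, hw2⟩ := wgt_sub_gcap hm0 hd0 hmd
  have hbar : wgt m tau - gcap d ≤ (wgt m0 tau + wgt m1 tau) / 2 := by
    have hd4 : ((m0 - m1) / 2) ^ 4 = d ^ 4 := by
      rw [show ((m0 - m1) / 2) ^ 4 = (((m0 - m1) / 2) ^ 2) ^ 2 by ring, hd2]; ring
    rw [wgt_avg, hW, hd2, hd4]
    unfold gcap tau
    nlinarith [mul_nonneg (sq_nonneg ((m0 + m1) / 2)) (sq_nonneg d)]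
  have hmono := env_mono hw2 hη hbar
  rw [hW]
  rw [hD] at hT
  rw [hJ]
  suffices env (wgt m tau) η + 2 * gapJ (m + d) (m - d) ≤ T + env (wgt m tau - gcap d) η by linarith
  rcases hd0.lt_or_eq with hdpos | hdz
  swap
  · rw [← hdz] at hT ⊢
    simp [gapJ, dd, gcap] at hT ⊢
    linarith
  obtain ⟨r, hr, p, hp, hdp, hmp, hmr⟩ := exists_crossing hm0 hdpos hmd
  have hr0 : 0 < r := lt_of_lt_of_le hdpos hr.1
  have her := ent_pos (show -1 < r by linarith) hr.2
  rcases le_total ((1 - p) * ent r) η with hcase | hcase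
  · have h2 := env_submodular hw2 (show wgt m tau - gcap d ≤ wgt m tau by
      have : d ^ 4 ≤ d ^ 2 := pow_le_pow_of_le_one hd0 (by linarith) (by omega)
      unfold gcap tau; linarith [sq_nonneg d])
      (mul_pos (show 0 < 1 - p by linarith [hp.2]) her) hcase
    have h3 := crossing_env hr0 hr.2 hp.1 hp.2
    have h4 := crossing_dd hr0 hr.2 hp.1 hp.2
    rw [← hdp, ← hmp] at h3 h4
    linarith
  · obtain ⟨ρ, hρ, hρη⟩ := intermediate_value_Icc' hr.2.le
      (f := fun x => d * ent x / x) ((continuousOn_const.mul continuous_ent.continuousOn).div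
        continuousOn_id fun x hx => (lt_of_lt_of_le hr0 hx.1).ne')
      (show η ∈ Icc (d * ent 1 / 1) (d * ent r / r) from ⟨by rw [ent_one]; simp [hη.le], by
        have : d * ent r / r = (1 - p) * ent r := by rw [hdp]; field_simp
        rw [this]; exact hcase⟩)
    simp only at hρη
    have hρ1 : ρ < 1 := by
      rcases hρ.2.lt_or_eq with h' | h'
      · exact h'
      · subst h'; rw [ent_one] at hρη; simp at hρη; linarith
    have hρ0 : 0 < ρ := lt_of_lt_of_le hr0 hρ.1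
    set q := 1 - d / ρ with hq
    have hdρ : d ≤ ρ := hr.1.trans hρ.1
    have hq0 : 0 ≤ q := by rw [hq]; linarith [(div_le_one hρ0).2 hdρ]
    have hq1 : q < 1 := by rw [hq]; linarith [div_pos hdpos hρ0]
    have hdq : (1 - q) * ρ = d := by rw [hq]; field_simp; ring
    have hηq : (1 - q) * ent ρ = η := by rw [← hρη, ← hdq]; field_simp
    set m' := cM (ρ^2) q with hm'
    have hlt := (crossing_identity hρ0 hρ1 hq0 hq1).2.2
    rw [hdq, ← hm'] at hlt
    have hmm : m ≤ m' := by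
      refine (sq_le_sq₀ hm0 cM_nonneg).1 ?_
      rw [cM_sq (sq_nonneg ρ) (by nlinarith) hq0]
      have hqρ : q * ρ = ρ - d := by linarith only [hdq]
      have e : q * cS (ρ^2) q * ρ = (ρ - d) * (1 - ρ * d) := by
        have : q * cS (ρ^2) q * ρ = (q * ρ) * (1 - ρ ^ 2 + ρ * (q * ρ)) := by unfold cS; ring
        rw [this, hqρ]; ring
      have h' : 0 ≤ (ρ - r) * (d * (1 - r * ρ)) :=
        mul_nonneg (sub_nonneg.2 hρ.1) (mul_nonneg hd0 (by nlinarith only [hr.2, hρ1, hr0, hρ0]))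
      have e' : (ρ - d) * (1 - ρ * d) * r - (r - d) * (1 - r * d) * ρ
          = (ρ - r) * (d * (1 - r * ρ)) := by ring
      have e2 : m ^ 2 * (ρ * r) = (r - d) * (1 - r * d) * ρ := by rw [← hmr]; ring
      have e3 : q * cS (ρ^2) q * (ρ * r) = (ρ - d) * (1 - ρ * d) * r := by rw [← e]; ring
      refine le_of_mul_le_mul_right ?_ (mul_pos hρ0 hr0)
      rw [e2, e3]
      linarith only [h', e']
    have h3 := crossing_env hρ0 hρ1 hq0 hq1
    rw [hdq, hηq, ← hm'] at h3
    have h5 := gap_mono hd0 hη hm0 hmm hlt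
    have h6 := hT2 ρ hρ0 hρ1
    have e : d * (kap ρ * (ent ρ / ρ)) = kap ρ * η := by rw [← hρη]; ring
    linarith

end Vale.Agent.P322
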