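import Mathlib
import Vale.Agent.P322.TwoPoint

/-!
The strengthened log-Sobolev inequality on the cube, by induction on the dimension.
-/

namespace Vale.Agent.P322

open Real Set Filter Topology

section avg
variable {n : ℕ}

lemma avg_add (f g : Cube n → ℝ) : avg (fun x => f x + g x) = avg f + avg g := by
  simp only [avg, Finset.sum_add_distrib, add_div]

lemma avg_sub (f g : Cube n → ℝ) : avg (fun x => f x - g x) = avg f - avg g := by
  simp only [avg, Finset.sum_sub_distrib, sub_div]

lemma avg_const_mul (c : ℝ) (f : Cube n → ℝ) : avg (fun x => c * f x) = c * avg f := by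
  simp only [avg, ← Finset.mul_sum, mul_div_assoc]

lemma avg_const (c : ℝ) : avg (fun _ : Cube n => c) = c := by
  simp [avg]

lemma avg_mono {f g : Cube n → ℝ} (h : ∀ x, f x ≤ g x) : avg f ≤ avg g :=
  div_le_div_of_nonneg_right (Finset.sum_le_sum fun x _ => h x) (by positivity)

lemma avg_lt {f g : Cube n → ℝ} (h : ∀ x, f x < g x) : avg f < avg g :=
  div_lt_div_of_pos_right (Finset.sum_lt_sum_of_nonempty Finset.univ_nonempty fun x _ => h x)
    (by positivity)

lemma abs_avg_lt_one {u : Cube n → ℝ} (hu : ∀ x, |u x| < 1) : |avg u| < 1 := by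
  rw [abs_lt]
  constructor
  · have := avg_lt (f := fun _ : Cube n => (-1:ℝ)) (g := u) fun x => (abs_lt.1 (hu x)).1
    rwa [avg_const] at this
  · have := avg_lt (f := u) (g := fun _ : Cube n => (1:ℝ)) fun x => (abs_lt.1 (hu x)).2
    rwa [avg_const] at this

/-- Splitting off the first coordinate. -/
lemma avg_succ (g : Cube (n + 1) → ℝ) :
    avg g = (avg (fun x => g (Fin.cons false x)) + avg (fun x => g (Fin.cons true x))) / 2 := by
  have h : ∑ x, g x = ∑ q : Bool × Cube n, g (Fin.cons q.1 q.2) :=
    (Equiv.sum_comp (Fin.consEquiv fun _ => Bool) g).symm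
  simp only [avg]
  rw [h, Fintype.sum_prod_type, Fintype.sum_bool, pow_succ]
  field_simp
  ring

end avg

lemma flipBit_cons_zero {n : ℕ} (b : Bool) (x : Cube n) :
    flipBit 0 (Fin.cons b x : Cube (n + 1)) = Fin.cons (!b) x := by
  simp [flipBit, Fin.update_cons_zero]

lemma flipBit_cons_succ {n : ℕ} (b : Bool) (x : Cube n) (i : Fin n) :
    flipBit i.succ (Fin.cons b x : Cube (n + 1)) = Fin.cons b (flipBit i x) := by
  simp [flipBit, Fin.cons_update]

lemma dd_comm (a b : ℝ) : dd a b = dd b a := by unfold dd; ring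

lemma form_succ {n : ℕ} (u : Cube (n + 1) → ℝ) :
    form u = (form (fun x => u (Fin.cons false x)) + form (fun x => u (Fin.cons true x))) / 2
      + avg (fun x => dd (u (Fin.cons false x)) (u (Fin.cons true x))) / 4 := by
  have hb : ∀ b : Bool, avg (fun x : Cube n => ∑ i : Fin (n+1),
        (u (Fin.cons b x) - u (flipBit i (Fin.cons b x)))
          * (atanhR (u (Fin.cons b x)) - atanhR (u (flipBit i (Fin.cons b x)))))
      = avg (fun x => dd (u (Fin.cons false x)) (u (Fin.cons true x)))
        + avg (fun x => ∑ i : Fin n, (u (Fin.cons b x) - u (Fin.cons b (flipBit i x)))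
          * (atanhR (u (Fin.cons b x)) - atanhR (u (Fin.cons b (flipBit i x))))) := by
    intro b
    rw [← avg_add]
    refine congrArg avg (funext fun x => ?_)
    rw [Fin.sum_univ_succ]
    simp only [flipBit_cons_zero, flipBit_cons_succ]
    cases b
    · rfl
    · rw [dd_comm]; rfl
  simp only [form]
  rw [avg_succ, hb false, hb true]
  ring

/-- Tangent-plane bound for `dd`. -/
lemma dd_bregman {A B : ℝ} (hA : |A| < 1) (hB : |B| < 1) :
    ∃ α β γ : ℝ, (∀ a b : ℝ, |a| < 1 → |b| < 1 → α * a + β * b + γ ≤ dd a b) ∧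
      α * A + β * B + γ = dd A B := by
  rw [abs_lt] at hA hB
  have tang : ∀ X Y X' Y' : ℝ, 0 < X → 0 < Y → 0 < X' → 0 < Y' →
      X * (log X' - log Y') + X - X' / Y' * Y ≤ X * (log X - log Y) := by
    intro X Y X' Y' hX hY hX' hY'
    have h := mul_le_mul_of_nonneg_left
      (one_sub_inv_le_log_of_pos (show 0 < X * Y' / (Y * X') by positivity)) hX.le
    rw [log_div (by positivity) (by positivity), log_mul hX.ne' hY'.ne', log_mul hY.ne' hX'.ne']
      at h
    have e : X * (1 - (X * Y' / (Y * X'))⁻¹) = X - X' / Y' * Y := by field_simp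
    rw [e] at h
    linarith
  have pA : 0 < 1 + A := by linarith
  have nA : 0 < 1 - A := by linarith
  have pB : 0 < 1 + B := by linarith
  have nB : 0 < 1 - B := by linarith
  refine ⟨((log (1 + A) - log (1 + B)) + (1 - (1 + B) / (1 + A))
        - (log (1 - A) - log (1 - B)) - (1 - (1 - B) / (1 - A))) / 2,
      ((log (1 + B) - log (1 + A)) + (1 - (1 + A) / (1 + B))
        - (log (1 - B) - log (1 - A)) - (1 - (1 - A) / (1 - B))) / 2,
      ((1 - (1 + B) / (1 + A)) + (1 - (1 + A) / (1 + B))
        + (1 - (1 - B) / (1 - A)) + (1 - (1 - A) / (1 - B))) / 2, ?_, ?_⟩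
  · intro a b ha hb
    rw [abs_lt] at ha hb
    have t1 := tang (1 + a) (1 + b) (1 + A) (1 + B) (by linarith) (by linarith) pA pB
    have t2 := tang (1 + b) (1 + a) (1 + B) (1 + A) (by linarith) (by linarith) pB pA
    have t3 := tang (1 - a) (1 - b) (1 - A) (1 - B) (by linarith) (by linarith) nA nB
    have t4 := tang (1 - b) (1 - a) (1 - B) (1 - A) (by linarith) (by linarith) nB nA
    unfold dd atanhR
    linarith
  · unfold dd atanhR
    field_simp
    ring

lemma env_avg {w0 w1 η0 η1 : ℝ} (hw0 : 0 < w0) (hw1 : 0 < w1) (h0 : 0 < η0) (h1 : 0 < η1) :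
    env ((w0 + w1) / 2) ((η0 + η1) / 2) ≤ (env w0 η0 + env w1 η1) / 2 := by
  have hs := contact_mem ((η0 + η1) / 2 / ((w0 + w1) / 2))
  have := line_le_env hw0 h0 hs.1 hs.2
  have := line_le_env hw1 h1 hs.1 hs.2
  simp only [env, line] at *
  linarith

lemma env_eq_zero {w η : ℝ} (hw : 0 < w) (h : w * log 2 ≤ η) : env w η = 0 := by
  have hl := log_pos one_lt_two
  have hη : 0 < η := lt_of_lt_of_le (mul_pos hw hl) h
  refine le_antisymm ?_ (env_nonneg hw hη)
  have ht := contact_mem (η / w)
  have h1 := line_le_env hw (mul_pos hw hl) ht.1 ht.2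
  have h2 := env_eq hw (left_mem_Ico.2 (zero_lt_one' ℝ))
  rw [ent_zero, r0_zero, mul_zero] at h2
  rw [h2] at h1
  have h3 := mul_le_mul_of_nonneg_left h (beta_nonneg ht.1 ht.2)
  simp only [env, line] at *
  linarith

/-- The strengthened log-Sobolev inequality. -/
theorem form_ge : ∀ {n : ℕ} (u : Cube n → ℝ), (∀ x, |u x| < 1) →
    2 * (ent (avg u) - avg (fun x => ent (u x)))
      + env (wgt (avg u) tau) (avg (fun x => ent (u x))) ≤ form u := by
  intro n
  induction n with
  | zero =>
    intro u hu
    have hav : ∀ g : Cube 0 → ℝ, avg g = g default := fun g => by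
      rw [avg, Fintype.sum_unique, pow_zero, div_one]
      exact congrArg g (Subsingleton.elim _ _)
    have hm : |u default| < 1 := hu default
    rw [hav u, hav]
    have hf : form u = 0 := by simp [form, avg]
    have hW := wgt_pos (m := u default) hm (le_of_eq rfl : tau ≤ 3 / 100)
    have he : env (wgt (u default) tau) (ent (u default)) = 0 := env_eq_zero hW (by
      have := offs_nonneg hm.le (show (0:ℝ) ≤ tau by unfold tau; norm_num)
      unfold offs at this; linarith)
    rw [hf, he]
    simp
  | succ n ih =>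
    intro u hu
    set u0 : Cube n → ℝ := fun x => u (Fin.cons false x) with hu0
    set u1 : Cube n → ℝ := fun x => u (Fin.cons true x) with hu1
    have i0 := ih u0 fun x => hu _
    have i1 := ih u1 fun x => hu _
    have hm0 : |avg u0| < 1 := abs_avg_lt_one fun x => hu _
    have hm1 : |avg u1| < 1 := abs_avg_lt_one fun x => hu _
    have hpos : ∀ w : Cube n → ℝ, (∀ x, |w x| < 1) → 0 < avg (fun x => ent (w x)) := fun w hw => by
      have := avg_lt (f := fun _ : Cube n => (0:ℝ)) (g := fun x => ent (w x))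
        fun x => ent_pos (abs_lt.1 (hw x)).1 (abs_lt.1 (hw x)).2
      rwa [avg_const] at this
    have e0 := hpos u0 fun x => hu _
    have e1 := hpos u1 fun x => hu _
    have hT1 : dd (avg u0) (avg u1) ≤ avg (fun x => dd (u0 x) (u1 x)) := by
      obtain ⟨α, β, γ, hle, heq⟩ := dd_bregman hm0 hm1
      refine le_trans (le_of_eq ?_) (avg_mono fun x => hle (u0 x) (u1 x) (hu _) (hu _))
      rw [avg_add (fun x => α * u0 x + β * u1 x) fun _ => γ, avg_add, avg_const_mul, avg_const_mul,
        avg_const]
      exact heq.symm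
    have hT2 : ∀ ρ, 0 < ρ → ρ < 1 →
        |avg u0 - avg u1| / 2 * (atanhR ρ + kap ρ * (ent ρ / ρ))
          - kap ρ * ((avg (fun x => ent (u0 x)) + avg (fun x => ent (u1 x))) / 2)
          ≤ avg (fun x => dd (u0 x) (u1 x)) / 4 := by
      intro ρ hρ0 hρ1
      set C := atanhR ρ + kap ρ * (ent ρ / ρ) with hC
      have hC0 : 0 ≤ C := by
        have := atanhR_nonneg hρ0.le hρ1
        have := kap_nonneg (show -1 < ρ by linarith) hρ1
        have := ent_pos (show -1 < ρ by linarith) hρ1
        positivity
      have h := avg_mono fun x : Cube n => dd_tangent (a := u0 x) (b := u1 x) (hu _) (hu _) hρ0 hρ1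
      rw [← hC] at h
      have habs : |avg u0 - avg u1| ≤ avg (fun x => |u0 x - u1 x|) := by
        rw [← avg_sub, abs_le]
        constructor
        · have := avg_mono (f := fun x => -1 * |u0 x - u1 x|) (g := fun x => u0 x - u1 x)
            fun x => by linarith [neg_abs_le (u0 x - u1 x)]
          rw [avg_const_mul] at this
          linarith
        · exact avg_mono fun x => le_abs_self _
      have el : avg (fun x => |u0 x - u1 x| / 2 * C - kap ρ * ((ent (u0 x) + ent (u1 x)) / 2))
          = C / 2 * avg (fun x => |u0 x - u1 x|)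
            - kap ρ / 2 * (avg (fun x => ent (u0 x)) + avg (fun x => ent (u1 x))) := by
        rw [← avg_add, ← avg_const_mul, ← avg_const_mul, ← avg_sub]
        exact congrArg avg (funext fun x => by ring)
      have er : avg (fun x => dd (u0 x) (u1 x) / 4) = avg (fun x => dd (u0 x) (u1 x)) / 4 := by
        rw [div_eq_inv_mul, ← avg_const_mul]
        exact congrArg avg (funext fun x => by ring)
      rw [el, er] at h
      have := mul_le_mul_of_nonneg_left habs (show 0 ≤ C / 2 by linarith)
      linarith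
    have hstep := two_point hm0 hm1 (show 0 < (avg (fun x => ent (u0 x))
      + avg (fun x => ent (u1 x))) / 2 by linarith) (show dd (avg u0) (avg u1) / 4
        ≤ avg (fun x => dd (u0 x) (u1 x)) / 4 by linarith) hT2
    have hav := env_avg (wgt_pos hm0 (le_of_eq rfl : tau ≤ 3 / 100))
      (wgt_pos hm1 (le_of_eq rfl : tau ≤ 3 / 100)) e0 e1
    rw [form_succ, avg_succ u, avg_succ (fun x => ent (u x))]
    have hJ : gapJ (avg u0) (avg u1) = ent ((avg u0 + avg u1) / 2)
        - (ent (avg u0) + ent (avg u1)) / 2 := by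
      unfold gapJ ent; ring
    simp only [hu0, hu1] at *
    linarith

/-- The form in which the inequality feeds the comparison argument. -/
theorem form_ge_line {n : ℕ} (u : Cube n → ℝ) (hu : ∀ x, |u x| < 1) {s : ℝ} (hs0 : 0 ≤ s)
    (hs1 : s < 1)
    (h : ent (avg u) - wgt (avg u) tau * log 2 + wgt (avg u) tau * phi s
      ≤ ent (avg u) - avg (fun x => ent (u x))) :
    2 * (ent (avg u) - avg (fun x => ent (u x)))
      + wgt (avg u) tau * (s * atanhR s - 2 * phi s) ≤ form u := by
  have hW := wgt_pos (abs_avg_lt_one hu) (le_of_eq rfl : tau ≤ 3 / 100)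
  have hη : 0 < avg (fun x => ent (u x)) := by
    have := avg_lt (f := fun _ : Cube n => (0:ℝ)) (g := fun x => ent (u x))
      fun x => ent_pos (abs_lt.1 (hu x)).1 (abs_lt.1 (hu x)).2
    rwa [avg_const] at this
  have h1 := form_ge u hu
  have h2 := line_le_env hW hη hs0 hs1
  have h3 : avg (fun x => ent (u x)) ≤ wgt (avg u) tau * ent s := by
    rw [show ent s = log 2 - phi s from rfl]; linarith
  have h4 := mul_le_mul_of_nonneg_left h3 (beta_nonneg hs0 hs1)
  simp only [line, aR, r0] at h2
  linarith

/-- The plain inequality. -/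
theorem form_ge_two {n : ℕ} (u : Cube n → ℝ) (hu : ∀ x, |u x| < 1) :
    2 * (ent (avg u) - avg (fun x => ent (u x))) ≤ form u := by
  have hW := wgt_pos (abs_avg_lt_one hu) (le_of_eq rfl : tau ≤ 3 / 100)
  have hη : 0 < avg (fun x => ent (u x)) := by
    have := avg_lt (f := fun _ : Cube n => (0:ℝ)) (g := fun x => ent (u x))
      fun x => ent_pos (abs_lt.1 (hu x)).1 (abs_lt.1 (hu x)).2
    rwa [avg_const] at this
  linarith [form_ge u hu, env_nonneg hW hη]

end Vale.Agent.P322
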